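import Vale.Agent.P362.ForrMean

/-! The Hadamard matrix, the butterfly recursion and locally checkable transcripts. -/

namespace Vale.Agent.P362

open Finset

variable {a K : ℕ}

/-- Integer sign of a bit. -/
def sz (b : Bool) : ℤ := if b then -1 else 1

theorem sz_cast (b : Bool) : (sz b : ℝ) = sg b := by cases b <;> simp [sz, sg]

theorem sz_abs (b : Bool) : |sz b| = 1 := by cases b <;> simp [sz]

/-- The normalised Hadamard matrix. -/
noncomputable def had (η : ℝ) (l i : Fin a → Bool) : ℝ := η * ∏ c, sg (l c && i c)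

theorem had_symm (η : ℝ) (l i : Fin a → Bool) : had η l i = had η i l := by
  simp only [had, Bool.and_comm]

theorem had_pm (η : ℝ) (l i : Fin a → Bool) : had η l i = η ∨ had η l i = -η := by
  have : (∏ c, sg (l c && i c)) * (∏ c, sg (l c && i c)) = 1 := by
    rw [← prod_mul_distrib]; simp [sg_sq]
  rcases mul_self_eq_one_iff.1 this with h | h <;> simp [had, h]

theorem had_orth (η : ℝ) (hη : 2 ^ a * η ^ 2 = 1) (i i' : Fin a → Bool) :
    ∑ l, had η l i * had η l i' = if i = i' then 1 else 0 := by
  have e : ∀ l : Fin a → Bool, had η l i * had η l i' =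
      η ^ 2 * ∏ c, (sg (l c && i c) * sg (l c && i' c)) := by
    intro l; rw [prod_mul_distrib, had, had]; ring
  simp only [e]
  rw [← mul_sum, ← Fintype.piFinset_univ,
    ← prod_univ_sum (fun _ : Fin a => (univ : Finset Bool))
      (fun c b => sg (b && i c) * sg (b && i' c))]
  split_ifs with h
  · subst h
    simp only [sg_sq, sum_const, card_univ, Fintype.card_bool, prod_const, Fintype.card_fin]
    simp only [nsmul_eq_mul, mul_one, Nat.cast_ofNat, if_true]
    linarith
  · obtain ⟨c, hc⟩ := Function.ne_iff.1 h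
    rw [prod_eq_zero (mem_univ c), mul_zero]
    revert hc
    cases i c <;> cases i' c <;> simp [sg]

/-- The butterfly recursion. -/
def bf (v : (Fin a → Bool) → ℤ) : ℕ → (Fin a → Bool) → ℤ
  | 0, l => v l
  | c + 1, l => if h : c < a then bf v c (Function.update l ⟨c, h⟩ false) +
      sz (l ⟨c, h⟩) * bf v c (Function.update l ⟨c, h⟩ true) else bf v c l

theorem bf_eq (v : (Fin a → Bool) → ℤ) (c : ℕ) (hc : c ≤ a) (l : Fin a → Bool) :
    bf v c l = ∑ i : Fin a → Bool, (∏ c' : Fin a, if c'.val < c then sz (l c' && i c')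
      else if i c' = l c' then 1 else 0) * v i := by
  induction c generalizing l with
  | zero =>
    simp only [bf, Nat.not_lt_zero, if_false]
    rw [sum_eq_single l]
    · simp
    · intro i _ hi
      obtain ⟨c, hc⟩ := Function.ne_iff.1 hi
      rw [prod_eq_zero (mem_univ c) (by simp [hc]), zero_mul]
    · simp
  | succ c ih =>
    have h : c < a := hc
    simp only [bf, h, dif_pos]
    rw [ih h.le, ih h.le, mul_sum, ← sum_add_distrib]
    refine sum_congr rfl fun i _ => ?_
    rw [← mul_assoc, ← add_mul]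
    congr 1
    have hP : ∀ F : Fin a → ℤ, ∏ c', F c' = F ⟨c, h⟩ * ∏ c' ∈ univ.erase ⟨c, h⟩, F c' :=
      fun F => (mul_prod_erase univ F (mem_univ _)).symm
    have hE : ∀ b, ∏ c' ∈ univ.erase (⟨c, h⟩ : Fin a), (if c'.val < c then
        sz (Function.update l ⟨c, h⟩ b c' && i c') else
        if i c' = Function.update l ⟨c, h⟩ b c' then 1 else 0) =
        ∏ c' ∈ univ.erase (⟨c, h⟩ : Fin a), (if c'.val < c + 1 then sz (l c' && i c') else
        if i c' = l c' then 1 else 0) := by
      intro b
      refine prod_congr rfl fun c' hc' => ?_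
      have hne := ne_of_mem_erase hc'
      have : c'.val ≠ c := fun e => hne (Fin.ext e)
      have e : c'.val < c + 1 ↔ c'.val < c := by omega
      simp only [Function.update_of_ne hne, e]
    rw [hP, hP, hP (fun c' => if c'.val < c + 1 then _ else _), hE, hE, ← mul_assoc, ← add_mul]
    congr 1
    simp only [lt_irrefl, if_false, Function.update_self, Nat.lt_succ_self, if_true]
    cases l ⟨c, h⟩ <;> cases i ⟨c, h⟩ <;> simp [sz]

theorem bf_abs (v : (Fin a → Bool) → ℤ) (B : ℤ) (hv : ∀ l, |v l| ≤ B) (c : ℕ)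
    (l : Fin a → Bool) : |bf v c l| ≤ 2 ^ c * B := by
  have hB : 0 ≤ B := (abs_nonneg _).trans (hv l)
  induction c generalizing l with
  | zero => simpa [bf] using hv l
  | succ c ih =>
    simp only [bf]
    split_ifs with h
    · refine (abs_add_le _ _).trans ?_
      rw [abs_mul, sz_abs, one_mul, pow_succ]
      linarith [ih (Function.update l ⟨c, h⟩ false), ih (Function.update l ⟨c, h⟩ true)]
    · have := ih l
      have : 0 ≤ 2 ^ c * B := by positivity
      rw [pow_succ]; linarith

/-- The integer version of the chained vectors. -/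
def iv (x : Fin (K + 1) × (Fin a → Bool) → Bool) : ℕ → (Fin a → Bool) → ℤ
  | 0, l => sz (x (0, l))
  | j + 1, l => (if h : j + 1 < K + 1 then sz (x (⟨j + 1, h⟩, l)) else 1) * bf (iv x j) a l

theorem iv_abs (x : Fin (K + 1) × (Fin a → Bool) → Bool) (j : ℕ) (l : Fin a → Bool) :
    |iv x j l| ≤ 2 ^ (a * j) := by
  induction j generalizing l with
  | zero => simp [iv, sz_abs]
  | succ j ih =>
    have := bf_abs _ _ ih a l
    rw [← pow_add, add_comm, ← Nat.mul_succ] at this
    simp only [iv, abs_mul]
    split_ifs <;> simpa [sz_abs] using this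

theorem had_bf (η : ℝ) (v : (Fin a → Bool) → ℤ) (l : Fin a → Bool) :
    ∑ i, had η l i * v i = η * bf v a l := by
  rw [bf_eq v a le_rfl]
  simp only [Fin.is_lt, if_true, had]
  push_cast
  simp only [sz_cast, mul_sum, mul_assoc]

theorem vecF_iv (η : ℝ) (x : Fin (K + 1) × (Fin a → Bool) → Bool) (j : ℕ) (l : Fin a → Bool) :
    vecF (had η) (fun u => sg (x u)) j l = η ^ j * iv x j l := by
  induction j generalizing l with
  | zero => simp [vecF, yF, iv, sz_cast]
  | succ j ih =>
    simp only [vecF, yF, iv, ih]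
    have : ∑ i, had η l i * (η ^ j * iv x j i) = η ^ j * ∑ i, had η l i * iv x j i := by
      rw [mul_sum]; exact sum_congr rfl fun _ _ => by ring
    rw [this, had_bf]
    split_ifs <;> push_cast <;> (try simp only [sz_cast]) <;> ring

theorem PF_iv (η : ℝ) (x : Fin (K + 1) × (Fin a → Bool) → Bool) :
    PF K (had η) x = η ^ K * bf (iv x K) a (fun _ => false) / 2 ^ a := by
  unfold PF
  simp only [vecF_iv]
  rw [bf_eq _ a le_rfl, ← mul_sum]
  simp [sz]

/-- The local rule of a transcript. -/
def rule (x : Fin (K + 1) × (Fin a → Bool) → Bool)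
    (T : Fin (K + 1) → Fin (a + 1) → (Fin a → Bool) → ℤ) (j : Fin (K + 1)) (c : Fin (a + 1))
    (l : Fin a → Bool) : ℤ :=
  Fin.cases (motive := fun _ => ℤ)
    (sz (x (j, l)) * Fin.cases (motive := fun _ => ℤ) 1 (fun j' => T j'.castSucc (Fin.last a) l) j)
    (fun c' => T j c'.castSucc (Function.update l c' false) +
      sz (l c') * T j c'.castSucc (Function.update l c' true)) c

/-- The honest transcript. -/
def honest (x : Fin (K + 1) × (Fin a → Bool) → Bool) (j : Fin (K + 1)) (c : Fin (a + 1))
    (l : Fin a → Bool) : ℤ := bf (iv x j) c l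

theorem honest_rule (x : Fin (K + 1) × (Fin a → Bool) → Bool) (j : Fin (K + 1)) (c : Fin (a + 1))
    (l : Fin a → Bool) : honest x j c l = rule x (honest x) j c l := by
  refine Fin.cases ?_ (fun c' => ?_) c
  · refine Fin.cases ?_ (fun j' => ?_) j
    · simp [honest, rule, bf, iv]
    · have : j'.val + 1 < K + 1 := by omega
      simp only [honest, rule, Fin.cases_zero, Fin.cases_succ, Fin.val_zero, bf, Fin.val_succ, iv,
        this, dif_pos, Fin.val_castSucc, Fin.val_last]
      rfl
  · simp [honest, rule, bf]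

theorem rule_unique (x : Fin (K + 1) × (Fin a → Bool) → Bool)
    (T : Fin (K + 1) → Fin (a + 1) → (Fin a → Bool) → ℤ) (hT : ∀ j c l, T j c l = rule x T j c l)
    (j : Fin (K + 1)) : ∀ c l, T j c l = honest x j c l := by
  have step : ∀ j, (∀ l, T j 0 l = honest x j 0 l) → ∀ c l, T j c l = honest x j c l := by
    intro j h0 c
    induction c using Fin.induction with
    | zero => exact h0
    | succ c ih =>
      intro l
      rw [hT, honest_rule]
      simp only [rule, Fin.cases_succ, ih]
  induction j using Fin.induction with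
  | zero =>
    refine step _ fun l => ?_
    rw [hT, honest_rule]
    simp only [rule, Fin.cases_zero]
  | succ j ih =>
    refine step _ fun l => ?_
    rw [hT, honest_rule]
    simp only [rule, Fin.cases_zero, Fin.cases_succ, ih]

theorem honest_abs (x : Fin (K + 1) × (Fin a → Bool) → Bool) (j : Fin (K + 1)) (c : Fin (a + 1))
    (l : Fin a → Bool) : |honest x j c l| ≤ 2 ^ (a * (K + 1)) := by
  refine (bf_abs _ _ (iv_abs x j) c l).trans ?_
  rw [← pow_add]
  refine pow_le_pow_right₀ (by norm_num) ?_
  have h1 : c.val ≤ a := by omega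
  have h2 : a * j.val ≤ a * K := Nat.mul_le_mul_left _ (by omega)
  rw [Nat.mul_succ]; omega

theorem PF_honest (η : ℝ) (x : Fin (K + 1) × (Fin a → Bool) → Bool) :
    PF K (had η) x = η ^ K * honest x (Fin.last K) (Fin.last a) (fun _ => false) / 2 ^ a :=
  PF_iv η x

/-- Integers of bounded size are coded by bit strings. -/
theorem exists_code (m : ℕ) : ∃ (dec : (Fin (m + 2) → Bool) → ℤ) (enc : ℤ → Fin (m + 2) → Bool),
    ∀ n : ℤ, |n| ≤ 2 ^ m → dec (enc n) = n := by
  classical
  have hc : Fintype.card (Icc (-(2 ^ m : ℤ)) (2 ^ m)) ≤ Fintype.card (Fin (m + 2) → Bool) := by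
    rw [Fintype.card_coe, Int.card_Icc]
    simp only [Fintype.card_fun, Fintype.card_bool, Fintype.card_fin]
    have : (1 : ℤ) ≤ 2 ^ m := one_le_pow₀ (by norm_num)
    rw [Int.toNat_le]
    push_cast
    rw [pow_add]; linarith
  obtain ⟨e⟩ := Function.Embedding.nonempty_of_card_le hc
  refine ⟨Function.extend e Subtype.val (fun _ => 0),
    fun n => if h : n ∈ Icc (-(2 ^ m : ℤ)) (2 ^ m) then e ⟨n, h⟩ else fun _ => false,
    fun n hn => ?_⟩
  have h : n ∈ Icc (-(2 ^ m : ℤ)) (2 ^ m) := mem_Icc.2 (abs_le.1 hn)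
  simp only [h, dif_pos]
  rw [e.injective.extend_apply]

end Vale.Agent.P362
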