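import Vale.Agent.P362.QGap

/-! The dual solution for the outer function: finding the source of a semicomplete relation
whose arcs are read through keys given by values with a gap. -/

set_option linter.unusedSectionVars false

namespace Vale.Agent.P362

open Finset

theorem inv_le_dyadic (a k : ℕ) :
    (1 : ℝ) / k ≤ ∑ j ∈ range (a + 1), (if k ≤ 2 ^ j then (2 : ℝ) / 2 ^ j else 0) + 1 / 2 ^ a := by
  induction a with
  | zero =>
    have : (1 : ℝ) / k ≤ 1 := by
      rcases Nat.eq_zero_or_pos k with rfl | hk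
      · simp
      · rw [div_le_one (by exact_mod_cast hk)]; exact_mod_cast hk
    simp only [zero_add, range_one, sum_singleton, pow_zero, div_one]
    split_ifs <;> linarith
  | succ a ih =>
    by_cases hk : k ≤ 2 ^ (a + 1)
    · rw [sum_range_succ, if_pos hk]
      have e : (2 : ℝ) / 2 ^ (a + 1) = 1 / 2 ^ a := by rw [pow_succ]; field_simp
      have : (0 : ℝ) ≤ 1 / 2 ^ (a + 1) := by positivity
      linarith
    · have h1 : (1 : ℝ) / k ≤ 1 / 2 ^ (a + 1) := by
        apply one_div_le_one_div_of_le (by positivity)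
        exact_mod_cast (not_le.1 hk).le
      have h2 : 0 ≤ ∑ j ∈ range (a + 1 + 1), (if k ≤ 2 ^ j then (2 : ℝ) / 2 ^ j else 0) :=
        sum_nonneg fun j _ => by positivity
      linarith

theorem few_small {V : Type} [DecidableEq V] (S : Finset V) (k : V → ℕ) (E1 E2 : V → V → Prop)
    [DecidableRel E1] [DecidableRel E2]
    (hE : ∀ c ∈ S, ∀ v ∈ S, c ≠ v → E1 v c ∨ E2 c v)
    (h1 : ∀ v ∈ S, (S.filter (E1 v)).card ≤ k v) (h2 : ∀ c ∈ S, (S.filter (E2 c)).card ≤ k c)
    (t : ℕ) (ht : ∀ c ∈ S, k c ≤ t) : S.card ≤ 2 * t + 1 := by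
  have e : ∑ c ∈ S, ∑ v ∈ S, (1 : ℕ) ≤ ∑ c ∈ S, ∑ v ∈ S,
      ((if c = v then 1 else 0) + (if E1 v c then 1 else 0) + (if E2 c v then 1 else 0)) := by
    refine sum_le_sum fun c hc => sum_le_sum fun v hv => ?_
    by_cases hcv : c = v
    · simp only [hcv, if_true]; omega
    · rcases hE c hc v hv hcv with h | h <;> simp only [h, if_true] <;> omega
  simp only [sum_add_distrib] at e
  have a0 : ∑ c ∈ S, ∑ v ∈ S, (if c = v then 1 else 0) = S.card := by
    rw [card_eq_sum_ones]
    exact sum_congr rfl fun c hc => by simp [hc]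
  have a1 : ∑ c ∈ S, ∑ v ∈ S, (if E1 v c then 1 else 0) ≤ S.card * t := by
    rw [sum_comm, ← smul_eq_mul, ← sum_const]
    refine sum_le_sum fun v hv => ?_
    rw [← card_filter]
    exact (h1 v hv).trans (ht v hv)
  have a2 : ∑ c ∈ S, ∑ v ∈ S, (if E2 c v then 1 else 0) ≤ S.card * t := by
    rw [← smul_eq_mul, ← sum_const]
    refine sum_le_sum fun v hv => ?_
    rw [← card_filter]
    exact (h2 v hv).trans (ht v hv)
  simp only [sum_const, smul_eq_mul, mul_one] at e
  rcases Nat.eq_zero_or_pos S.card with h0 | h0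
  · omega
  · have : S.card * S.card ≤ S.card * (2 * t + 1) := by nlinarith
    exact Nat.le_of_mul_le_mul_left this h0

theorem sum_inv_le {V : Type} [DecidableEq V] (S : Finset V) (k : V → ℕ) (E1 E2 : V → V → Prop)
    [DecidableRel E1] [DecidableRel E2]
    (hE : ∀ c ∈ S, ∀ v ∈ S, c ≠ v → E1 v c ∨ E2 c v)
    (h1 : ∀ v ∈ S, (S.filter (E1 v)).card ≤ k v) (h2 : ∀ c ∈ S, (S.filter (E2 c)).card ≤ k c)
    (a : ℕ) (ha : S.card ≤ 2 ^ a) : ∑ c ∈ S, (1 : ℝ) / k c ≤ 6 * a + 7 := by
  refine (sum_le_sum fun c _ => inv_le_dyadic a (k c)).trans ?_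
  rw [sum_add_distrib, sum_comm]
  have b1 : ∑ _c ∈ S, (1 : ℝ) / 2 ^ a ≤ 1 := by
    rw [sum_const, nsmul_eq_mul, mul_one_div, div_le_one (by positivity)]
    exact_mod_cast ha
  have b2 : ∀ j ∈ range (a + 1), ∑ c ∈ S, (if k c ≤ 2 ^ j then (2 : ℝ) / 2 ^ j else 0) ≤ 6 := by
    intro j _
    rw [← sum_filter, sum_const, nsmul_eq_mul]
    have := few_small (S.filter fun c => k c ≤ 2 ^ j) k E1 E2
      (fun c hc v hv => hE c (mem_filter.1 hc).1 v (mem_filter.1 hv).1)
      (fun v hv => (card_le_card (filter_subset_filter _ (filter_subset _ _))).trans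
        (h1 v (mem_filter.1 hv).1))
      (fun v hv => (card_le_card (filter_subset_filter _ (filter_subset _ _))).trans
        (h2 v (mem_filter.1 hv).1))
      (2 ^ j) (fun c hc => (mem_filter.1 hc).2)
    have h3 : ((S.filter fun c => k c ≤ 2 ^ j).card : ℝ) ≤ 2 * 2 ^ j + 1 := by exact_mod_cast this
    have h4 : (1 : ℝ) ≤ 2 ^ j := one_le_pow₀ (by norm_num)
    rw [← mul_div_assoc, div_le_iff₀ (by positivity)]
    linarith
  have b3 := sum_le_sum b2
  rw [sum_const, card_range, nsmul_eq_mul] at b3
  push_cast at b3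
  linarith

/-- Reading a sign off a real number, with threshold `θ`. -/
noncomputable def tern (θ p : ℝ) : Option Bool :=
  if θ ≤ p then some false else if θ ≤ -p then some true else none

theorem tern_eq_some {θ : ℝ} (hθ : 0 < θ) (p : ℝ) (σ : Bool) :
    tern θ p = some σ ↔ θ ≤ sg σ * p := by
  unfold tern
  cases σ <;> split_ifs <;> simp [sg] <;> linarith

variable {ι : Type} [Fintype ι] [DecidableEq ι]

theorem Dist.tern {P : (ι → Bool) → ℝ} {c : ℝ} (hc : 0 ≤ c)
    (h : Filt (fun x y => P x - P y) (fun _ => c) (fun _ => c)) {θ : ℝ} (hθ : 0 < θ) (σ : Bool) :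
    Dist (fun x y => 2 * θ ≤ sg σ * P x ∧ tern θ (P y) ≠ some σ)
      (fun _ => c / θ) (fun _ => c / θ) := by
  have h1 : Filt (fun x y => sg σ * P x - sg σ * P y) (fun _ => c) (fun _ => c) :=
    (h.mul1 (fun _ => sg σ) (fun _ => 1)).mono (fun x y => by ring)
      (fun _ => by simp [sq, sg_sq]) (fun _ => by simp)
  refine (Dist.gap hc h1 (θ := 3 * θ / 2) (g := θ / 2) (by positivity)).mono
    (fun x y hxy => ⟨by linarith [hxy.1], ?_⟩) (fun _ => le_of_eq (by congr 1; ring))
    (fun _ => le_of_eq (by congr 1; ring))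
  have := hxy.2
  rw [Ne, tern_eq_some hθ, not_le] at this
  linarith

theorem dist_outer {V O : Type} [Fintype V] [DecidableEq V] [Fintype O] [DecidableEq O] {a : ℕ}
    (hV : Fintype.card V ≤ 2 ^ a) (P : (ι → Bool) → V → Fin a → ℝ) {c δ : ℝ} (hc : 0 ≤ c)
    (hδ : 0 < δ)
    (hP : ∀ i s, Filt (fun x y => P x i s - P y i s) (fun _ => c) (fun _ => c))
    (own : (ι → Bool) → V → (Fin a → Bool) → O → Bool)
    (kill : (ι → Bool) → V → (Fin a → Bool) → V → Bool) (h : ℕ)
    (hown : ∀ b κ o, DT h (fun z => own z b κ o)) (hkill : ∀ v κ b, DT h (fun z => kill z v κ b))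
    (ptr : V → O) (hinj : Function.Injective ptr)
    (hptr : ∀ z v κ b, b ≠ v → own z v κ (ptr b) = true → kill z v κ b = true)
    (hsafe : ∀ z b κ, (∀ o, own z b κ o = true) → ∀ v κ', kill z v κ' b = false)
    (hsound : ∀ z b κ, (∀ o, own z b κ o = true) → ∀ s, δ ≤ sg (κ s) * P z b s)
    (f : (ι → Bool) → Bool) (hf : ∀ z, f z = true ↔ ∃ b κ, ∀ o, own z b κ o = true)
    {lam : ℝ} (hlam : 0 < lam) :
    Dist (fun x y => f x = true ∧ f y = false)
      (fun _ => a * (lam * (4 * c / δ)) +
        (Fintype.card O + Fintype.card V) * (a * (8 * c / δ) + h) / lam)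
      (fun _ => Fintype.card V * (a * (2 * (4 * c / δ / lam))) +
        (6 * a + 7) * (a * (8 * c / δ) + h) * lam) := by
  classical
  rcases isEmpty_or_nonempty V with hE | ⟨⟨v0⟩⟩
  · refine Dist.empty.mono (fun x y hxy => ?_) (fun _ => by positivity) (fun _ => by positivity)
    obtain ⟨b, -⟩ := (hf x).1 hxy.1
    exact hE.elim b
  have hw : ∀ z, ∃ b κ, f z = true → ∀ o, own z b κ o = true := by
    intro z
    by_cases hz : f z = true
    · obtain ⟨b, κ, h⟩ := (hf z).1 hz
      exact ⟨b, κ, fun _ => h⟩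
    · exact ⟨v0, fun _ => false, fun h => absurd h hz⟩
  choose bx kx hw using hw
  set h' : ℝ := a * (8 * c / δ) + h with hh'
  have hh0 : 0 ≤ h' := by positivity
  have hhh : (h : ℝ) ≤ h' := by
    have : 0 ≤ a * (8 * c / δ) := by positivity
    linarith
  let key : ℝ → (ι → Bool) → V → Fin a → Bool := fun θ y i s => (tern θ (P y i s)).getD false
  let Cand : (ι → Bool) → V → Prop := fun y i =>
    ∀ s, tern (δ / 2) (P y i s) = some (key (δ / 2) y i s)
  let Fail : (ι → Bool) → V → O ⊕ V → Prop := fun y i ρ =>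
    Sum.elim (fun o => own y i (key (δ / 2) y i) o = false)
      (fun v => Cand y v ∧ kill y v (key (δ / 2) y v) i = true) ρ
  let kk : (ι → Bool) → V → ℕ := fun y i => (univ.filter (Fail y i)).card
  have hkillD : ∀ b v, Dist (fun x y => (∀ κ', kill x v κ' b = false) ∧
      (Cand y v ∧ kill y v (key (δ / 2) y v) b = true)) (fun _ => h') (fun _ => h') := by
    intro b v
    have hd := Dist.decode (R := fun y x => (∀ κ', kill x v κ' b = false) ∧
      (Cand y v ∧ kill y v (key (δ / 2) y v) b = true)) (fun y => key (δ / 2) y v)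
      (fun x s => tern (δ / 4) (P x v s)) (g1 := 4 * c / δ) (g2 := 4 * c / δ) (a := fun _ => h)
      (b := fun _ => h) (by positivity) ?_ ?_
    · refine hd.symm.mono (fun _ _ h => h) (fun _ => le_of_eq (by rw [hh']; ring)) (fun _ => ?_)
      have : a * (4 * c / δ) ≤ a * (8 * c / δ) := by gcongr; norm_num
      linarith
    · intro s σ
      refine (Dist.tern hc (hP v s) (θ := δ / 4) (by positivity) σ).mono
        (fun y x hyx => ⟨?_, hyx.2.2⟩) (fun _ => le_of_eq (by field_simp))
        (fun _ => le_of_eq (by field_simp))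
      have := hyx.1.2.1 s
      rw [hyx.2.1, tern_eq_some (by positivity)] at this
      linarith
    · refine Dist.byTag (fun y => key (δ / 2) y v) (fun x => key (δ / 4) x v)
        (fun y x hyx => ?_) (fun κ => ?_)
      · funext s
        simp only [key, hyx.2 s, Option.getD_some]
      · refine (Dist.ofDT (hkill v κ b)).mono (fun y x hyx => ?_) (fun _ => le_rfl)
          (fun _ => le_rfl)
        rw [hyx.1.1.1 κ, ← hyx.2.1, hyx.1.1.2.2]
        simp
  have hblock : ∀ b, Dist (fun x y => (f x = true ∧ f y = false) ∧ bx x = b)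
      (fun _ => a * (lam * (4 * c / δ)) + (Fintype.card O + Fintype.card V) * h' / lam)
      (fun y => a * (2 * (4 * c / δ / lam)) +
        (if Cand y b then (1 : ℝ) / kk y b else 0) * h' * lam) := by
    intro b
    refine Dist.decode kx (fun y s => tern (δ / 2) (P y b s)) (by positivity) ?_ ?_
    · intro s σ
      refine ((Dist.tern hc (hP b s) (θ := δ / 2) (by positivity) σ).scale hlam).mono
        (fun x y hxy => ⟨?_, hxy.2.2⟩) (fun _ => ?_) (fun _ => ?_)
      · have := hsound x _ _ (hw x hxy.1.1.1) s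
        rw [hxy.1.2, hxy.2.1] at this
        linarith
      · have : c / (δ / 2) ≤ 4 * c / δ := by
          rw [div_le_div_iff₀ (by positivity) hδ]; nlinarith
        gcongr
      · have : c / (δ / 2) ≤ 4 * c / δ := by
          rw [div_le_div_iff₀ (by positivity) hδ]; nlinarith
        gcongr
    · refine Dist.byTag kx (fun y => key (δ / 2) y b) (fun x y hxy => ?_) (fun κ => ?_)
      · funext s
        simp only [key, hxy.2 s, Option.getD_some]
      · have each : ∀ ρ : O ⊕ V, Dist (fun x y => (∀ o, own x b κ o = true) ∧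
            key (δ / 2) y b = κ ∧ Fail y b ρ) (fun _ => h') (fun _ => h') := by
          rintro (o | v)
          · refine (Dist.ofDT (hown b κ o)).mono (fun x y hxy => ?_) (fun _ => hhh) (fun _ => hhh)
            have := hxy.2.2
            simp only [Fail, Sum.elim_inl, hxy.2.1] at this
            rw [hxy.1 o, this]; simp
          · exact (hkillD b v).mono (fun x y hxy => ⟨hsafe x b κ hxy.1 v, hxy.2.2⟩)
              (fun _ => le_rfl) (fun _ => le_rfl)
        refine ((Dist.sum each (fun _ _ => 1)
          (fun ρ y => if Cand y b ∧ Fail y b ρ then (1 : ℝ) / kk y b else 0)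
          (R := fun x y => (((f x = true ∧ f y = false) ∧ bx x = b) ∧
            ∀ s, tern (δ / 2) (P y b s) = some (kx x s)) ∧ kx x = κ ∧ key (δ / 2) y b = κ)
          (fun x y hxy => ?_) (fun x y ρ hxy _ hq => ?_)).scale (c := 1 / lam)
          (by positivity)).mono (fun _ _ h => h) (fun x => ?_) (fun y => ?_)
        · have hC : Cand y b := by
            intro s
            rw [hxy.1.2 s, hxy.2.2, hxy.2.1]
          have hpos : 0 < kk y b := by
            rw [card_pos]
            by_contra hne
            have hy := hxy.1.1.1.2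
            rw [(hf y).2 ⟨b, key (δ / 2) y b, fun o => ?_⟩] at hy
            · simp at hy
            · by_contra ho
              exact hne ⟨Sum.inl o, by simpa [Fail] using ho⟩
          simp only [hC, true_and, one_mul]
          rw [← sum_filter, sum_const, nsmul_eq_mul]
          have : (kk y b : ℝ) ≠ 0 := by exact_mod_cast hpos.ne'
          exact mul_one_div_cancel this
        · refine ⟨?_, hxy.2.2, ?_⟩
          · rw [← hxy.2.1, ← hxy.1.1.2]; exact hw x hxy.1.1.1.1
          · by_contra hn
            simp [hn] at hq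
        · simp only [one_pow, one_mul, sum_const, card_univ, Fintype.card_sum, nsmul_eq_mul]
          push_cast
          apply le_of_eq; ring
        · rw [← sum_mul, div_div_eq_mul_div, div_one]
          gcongr
          by_cases hC : Cand y b
          · simp only [hC, true_and, if_true, ite_pow, ne_eq, OfNat.ofNat_ne_zero,
              not_false_eq_true, zero_pow]
            rw [← sum_filter, sum_const, nsmul_eq_mul]
            change (kk y b : ℝ) * _ ≤ _
            rcases Nat.eq_zero_or_pos (kk y b) with h0 | h0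
            · simp [h0]
            · have : (kk y b : ℝ) ≠ 0 := by exact_mod_cast h0.ne'
              apply le_of_eq; field_simp
          · simp [hC]
  refine (Dist.sum hblock (fun b x => if bx x = b then 1 else 0) (fun _ _ => 1)
    (fun x y _ => by simp) (fun x y b hxy hp _ => ⟨hxy, by simpa using hp⟩)).mono
    (fun _ _ h => h) (fun x => by simp) (fun y => ?_)
  simp only [one_pow, one_mul, sum_add_distrib, sum_const, card_univ, nsmul_eq_mul]
  rw [← sum_mul, ← sum_mul, ← sum_filter]
  gcongr
  refine sum_inv_le _ (kk y) (fun v b => own y v (key (δ / 2) y v) (ptr b) = false)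
    (fun b v => Cand y v ∧ kill y v (key (δ / 2) y v) b = true) (fun b _ v hv hne => ?_)
    (fun v _ => ?_) (fun b _ => ?_) a ((card_le_univ _).trans hV)
  · cases ho : own y v (key (δ / 2) y v) (ptr b)
    · exact Or.inl rfl
    · exact Or.inr ⟨(mem_filter.1 hv).2, hptr y v _ b hne ho⟩
  · refine card_le_card_of_injOn (fun b => Sum.inl (ptr b)) (fun b hb => ?_) (fun b _ b' _ e => ?_)
    · simpa [Fail] using (mem_filter.1 hb).2
    · exact hinj (Sum.inl_injective e)
  · refine card_le_card_of_injOn (fun v => Sum.inr v) (fun v hv => ?_) (fun b _ b' _ e => ?_)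
    · simpa [Fail] using (mem_filter.1 hv).2
    · exact Sum.inr_injective e

end Vale.Agent.P362
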