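import Vale.Agent.P362.ForrDT

/-! Truncated decision trees and finite product distributions. -/

set_option linter.unusedSectionVars false

namespace Vale.Agent.P362

open Finset

namespace DT

variable {ι α β γ : Type}

theorem map2 {β' : Type} {d e : ℕ} {g : (ι → α) → β} {g' : (ι → α) → β'} (h : DT d g)
    (h' : DT e g') (φ : β → β' → γ) : DT (e + d) (fun x => φ (g x) (g' x)) :=
  h.bind (fun b x => φ b (g' x)) (fun b => h'.map (φ b))

theorem pi {S : Type} [Fintype S] {e : ℕ} {G : S → (ι → α) → β} (h : ∀ s, DT e (G s)) :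
    DT (Fintype.card S * e) (fun x s => G s x) := by
  classical
  have key : ∀ F : Finset S, DT (F.card * e)
      (fun x s => if s ∈ F then some (G s x) else none) := by
    intro F
    induction F using Finset.induction_on with
    | empty => exact DT.const _ _ (fun _ => none) (fun x => by simp)
    | insert s F hs ih =>
      rw [card_insert_of_notMem hs, add_mul, one_mul]
      refine ((h s).map2 ih (fun b v => Function.update v s (some b))).congr (fun x => ?_)
      funext s'
      by_cases e : s' = s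
      · subst e; simp
      · simp [e]
  rcases isEmpty_or_nonempty (ι → α) with hE | ⟨⟨x0⟩⟩
  · rcases isEmpty_or_nonempty S with hS | ⟨⟨s0⟩⟩
    · exact DT.const _ _ (fun s => hS.elim s) (fun x => hE.elim x)
    · have h1 := ((h s0).map (fun b (_ : S) => b)).congr (g' := fun x s => G s x)
        (fun x => hE.elim x)
      refine h1.mono (Nat.le_mul_of_pos_left _ ?_)
      haveI : Nonempty S := ⟨s0⟩
      exact Fintype.card_pos
  · exact ((key univ).map (fun v s => (v s).getD (G s x0))).congr (fun x => by simp)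

/-- A certificate: the path of `x`. -/
theorem cert [DecidableEq ι] {d : ℕ} {g : (ι → α) → β} (h : DT d g) (x : ι → α) :
    ∃ S : Finset ι, S.card ≤ d ∧ ∀ y, (∀ i ∈ S, y i = x i) → g y = g x := by
  induction h with
  | const d g b h => exact ⟨∅, by simp, fun y _ => by rw [h, h]⟩
  | node d g i G _ h ih =>
    obtain ⟨S, h1, h2⟩ := ih (x i)
    refine ⟨insert i S, (card_insert_le _ _).trans (by omega), fun y hy => ?_⟩
    rw [h y, h x, hy i (mem_insert_self _ _)]
    exact h2 y (fun j hj => hy j (mem_insert_of_mem hj))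

/-- Truncation: stop with output one at a query to `A`, or at the query number `q + 1` to `S`. -/
theorem trunc [Fintype ι] [DecidableEq ι] {d : ℕ} {g : (ι → α) → ℝ} (h : DT d g)
    (hg : ∀ x, 0 ≤ g x ∧ g x ≤ 1) :
    ∃ c : (ι → α) → ι → ℕ, (∀ x, ∑ i, c x i ≤ d) ∧ ∀ (S A : Finset ι) (q : ℕ),
      ∃ G : (ι → α) → ℝ, (∀ x, 0 ≤ G x ∧ G x ≤ 1) ∧
        (∀ x x', (∀ i, i ∉ A → x' i = x i) → g x' ≤ G x) ∧
        (∀ x, DT q (fun z => G (S.piecewise z x))) ∧
        ∀ x, G x ≤ g x + (∑ i ∈ A, c x i : ℕ) + if q < ∑ i ∈ S, c x i then 1 else 0 := by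
  suffices H : ∀ (d : ℕ) (g : (ι → α) → ℝ), DT d g → ∀ g' : (ι → α) → ℝ,
      (∀ x, g' x = max 0 (min 1 (g x))) →
      ∃ c : (ι → α) → ι → ℕ, (∀ x, ∑ i, c x i ≤ d) ∧ ∀ (S A : Finset ι) (q : ℕ),
      ∃ G : (ι → α) → ℝ, (∀ x, 0 ≤ G x ∧ G x ≤ 1) ∧
        (∀ x x', (∀ i, i ∉ A → x' i = x i) → g' x' ≤ G x) ∧
        (∀ x, DT q (fun z => G (S.piecewise z x))) ∧
        ∀ x, G x ≤ g' x + (∑ i ∈ A, c x i : ℕ) + if q < ∑ i ∈ S, c x i then 1 else 0 from
    H d g h g (fun x => by rw [min_eq_right (hg x).2, max_eq_right (hg x).1])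
  intro d g h
  induction h with
  | const d g b h =>
    intro g' hg'
    refine ⟨fun _ _ => 0, by simp, fun S A q => ⟨g', fun x => ?_, fun x x' _ => ?_, fun x => ?_,
      fun x => by simp⟩⟩
    · rw [hg']; exact ⟨le_max_left _ _, max_le zero_le_one (min_le_left _ _)⟩
    · rw [hg', hg', h, h]
    · exact DT.const _ _ (max 0 (min 1 b)) (fun z => by rw [hg', h])
  | node d g i F _ h ih =>
    intro g' hg'
    have h0 : ∀ x, 0 ≤ g' x := fun x => by rw [hg']; exact le_max_left _ _
    have h1 : ∀ x, g' x ≤ 1 := fun x => by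
      rw [hg']; exact max_le zero_le_one (min_le_left _ _)
    choose c hc1 hc2 using fun a => ih a (fun x => max 0 (min 1 (F a x))) (fun _ => rfl)
    choose G G1 G2 G3 G4 using hc2
    have hsum : ∀ (x : ι → α) (B : Finset ι), ∑ j ∈ B, (c (x i) x j + if j = i then 1 else 0) =
        ∑ j ∈ B, c (x i) x j + if i ∈ B then 1 else 0 := by
      intro x B
      rw [sum_add_distrib, sum_ite_eq']
    refine ⟨fun x j => c (x i) x j + if j = i then 1 else 0, fun x => ?_, fun S A q => ?_⟩
    · rw [hsum]; simpa using hc1 (x i) x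
    simp only [hsum]
    by_cases hA : i ∈ A
    · refine ⟨fun _ => 1, by simp, fun x x' _ => h1 _, fun x => DT.const _ _ 1 (fun _ => rfl),
        fun x => ?_⟩
      simp only [hA, if_true]
      push_cast
      have : (0 : ℝ) ≤ ∑ j ∈ A, (c (x i) x j : ℝ) := by positivity
      have := h0 x
      split_ifs <;> linarith
    by_cases hS : i ∈ S
    · cases q with
      | zero =>
        refine ⟨fun _ => 1, by simp, fun x x' _ => h1 _, fun x => DT.const _ _ 1 (fun _ => rfl),
          fun x => ?_⟩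
        simp only [hS, if_true, Nat.zero_lt_succ]
        have := h0 x
        have : (0 : ℝ) ≤ ((∑ j ∈ A, c (x i) x j + if i ∈ A then 1 else 0 : ℕ) : ℝ) := by positivity
        linarith
      | succ q =>
        refine ⟨fun x => G (x i) S A q x, fun x => G1 _ _ _ _ _, fun x x' hx => ?_, fun x => ?_,
          fun x => ?_⟩
        · rw [hg', h, hx i hA]; exact G2 _ _ _ _ x x' hx
        · exact DT.node _ _ i (fun a z => G a S A q (S.piecewise z x)) (fun a => G3 a S A q x)
            (fun z => by simp [Finset.piecewise, hS])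
        · have := G4 (x i) S A q x
          simp only [hS, hA, if_true, if_false, add_zero, Nat.add_lt_add_iff_right]
          rwa [hg', h]
    · refine ⟨fun x => G (x i) S A q x, fun x => G1 _ _ _ _ _, fun x x' hx => ?_, fun x => ?_,
        fun x => ?_⟩
      · rw [hg', h, hx i hA]; exact G2 _ _ _ _ x x' hx
      · exact (G3 (x i) S A q x).congr (fun z => by simp [Finset.piecewise, hS])
      · have := G4 (x i) S A q x
        simp only [hS, hA, if_false, add_zero]
        rwa [hg', h]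

end DT

variable {T α : Type} [Fintype T] [DecidableEq T] [Fintype α]

/-- Expectation under a product of weights. -/
def Ex (μ : T → α → ℝ) (F : (T → α) → ℝ) : ℝ := ∑ ω : T → α, (∏ t, μ t (ω t)) * F ω

/-- Each factor is a probability vector. -/
def IsPr (μ : T → α → ℝ) : Prop := (∀ t e, 0 ≤ μ t e) ∧ ∀ t, ∑ e, μ t e = 1

theorem Ex_mono {μ : T → α → ℝ} (hμ : IsPr μ) {F G : (T → α) → ℝ} (h : ∀ ω, F ω ≤ G ω) :
    Ex μ F ≤ Ex μ G :=
  sum_le_sum fun ω _ => mul_le_mul_of_nonneg_left (h ω) (prod_nonneg fun t _ => hμ.1 t _)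

theorem Ex_const {μ : T → α → ℝ} (hμ : IsPr μ) (c : ℝ) : Ex μ (fun _ => c) = c := by
  unfold Ex
  rw [← sum_mul, ← Fintype.piFinset_univ, ← prod_univ_sum]
  simp [hμ.2]

theorem Ex_add (μ : T → α → ℝ) (F G : (T → α) → ℝ) :
    Ex μ (fun ω => F ω + G ω) = Ex μ F + Ex μ G := by
  simp only [Ex, mul_add, sum_add_distrib]

theorem Ex_mul (μ : T → α → ℝ) (c : ℝ) (F : (T → α) → ℝ) :
    Ex μ (fun ω => c * F ω) = c * Ex μ F := by
  simp only [Ex, mul_sum]
  exact sum_congr rfl fun _ _ => by ring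

theorem Ex_sum {K : Type} (μ : T → α → ℝ) (s : Finset K) (F : K → (T → α) → ℝ) :
    Ex μ (fun ω => ∑ k ∈ s, F k ω) = ∑ k ∈ s, Ex μ (F k) := by
  simp only [Ex, mul_sum]
  exact sum_comm

theorem Ex_comm {T' α' : Type} [Fintype T'] [DecidableEq T'] [Fintype α'] (μ : T → α → ℝ)
    (ν : T' → α' → ℝ) (F : (T → α) → (T' → α') → ℝ) :
    Ex μ (fun ω => Ex ν (F ω)) = Ex ν (fun ω' => Ex μ (fun ω => F ω ω')) := by
  simp only [Ex, mul_sum]
  rw [sum_comm]
  exact sum_congr rfl fun _ _ => sum_congr rfl fun _ _ => by ring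

theorem Ex_update {μ : T → α → ℝ} (t : T) (h1 : ∑ e, μ t e = 1) (ρ : α → ℝ)
    (F : (T → α) → ℝ) :
    Ex (Function.update μ t ρ) F = Ex μ (fun ω => ∑ e, ρ e * F (Function.update ω t e)) := by
  have hinv : Function.Involutive
      (fun p : (T → α) × α => (Function.update p.1 t p.2, p.1 t)) := by
    intro p; ext <;> simp
  have hP : ∀ (ν : T → α → ℝ) (ω : T → α), ∏ s, ν s (ω s) =
      ν t (ω t) * ∏ s ∈ univ.erase t, ν s (ω s) :=
    fun ν ω => (mul_prod_erase univ (fun s => ν s (ω s)) (mem_univ t)).symm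
  have h2 := Equiv.sum_comp hinv.toPerm
    (fun p : (T → α) × α => μ t p.2 * (ρ (p.1 t) * (∏ s ∈ univ.erase t, μ s (p.1 s)) * F p.1))
  rw [Fintype.sum_prod_type, Fintype.sum_prod_type] at h2
  simp only [Function.Involutive.coe_toPerm, Function.update_self, ← sum_mul, h1, one_mul] at h2
  unfold Ex
  simp only [hP, Function.update_self]
  refine Eq.trans ?_ (h2.symm.trans ?_)
  · refine sum_congr rfl fun ω _ => ?_
    congr 2
    exact prod_congr rfl fun s hs => by rw [Function.update_of_ne (ne_of_mem_erase hs)]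
  · refine sum_congr rfl fun ω _ => ?_
    rw [mul_sum]
    refine sum_congr rfl fun e _ => ?_
    rw [prod_congr rfl (fun s hs => by rw [Function.update_of_ne (ne_of_mem_erase hs)])]
    ring

theorem Ex_resample {μ : T → α → ℝ} (hμ : IsPr μ) (t : T) (F : (T → α) → ℝ) :
    Ex μ F = Ex μ (fun ω => ∑ e, μ t e * F (Function.update ω t e)) := by
  rw [← Ex_update t (hμ.2 t), Function.update_eq_self]

theorem Ex_hybrid {μ : T → α → ℝ} (hμ : IsPr μ) (F : (T → α) → ℝ) (ε : ℝ) (S : Finset T) :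
    ∀ ν : T → α → ℝ, IsPr ν → (∀ t, t ∉ S → ν t = μ t) →
      (∀ t ∈ S, ∀ ω, ∑ e, ν t e * F (Function.update ω t e) ≤
        ∑ e, μ t e * F (Function.update ω t e) + ε) → Ex ν F ≤ Ex μ F + S.card * ε := by
  induction S using Finset.induction_on with
  | empty =>
    intro ν _ h _
    have : ν = μ := funext fun t => h t (by simp)
    simp [this]
  | insert t S ht ih =>
    intro ν hν h1 h2
    have hν' : IsPr (Function.update ν t (μ t)) := by
      constructor
      · intro s e
        by_cases hs : s = t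
        · subst hs; simpa using hμ.1 s e
        · simpa [hs] using hν.1 s e
      · intro s
        by_cases hs : s = t
        · subst hs; simpa using hμ.2 s
        · simpa [hs] using hν.2 s
    have h3 := ih _ hν' (fun s hs => by
      by_cases hst : s = t
      · subst hst; simp
      · rw [Function.update_of_ne hst]; exact h1 s (by simp [hs, hst])) (fun s hs ω => by
      have hst : s ≠ t := fun e => ht (e ▸ hs)
      rw [Function.update_of_ne hst]; exact h2 s (mem_insert_of_mem hs) ω)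
    have h4 : Ex ν F ≤ Ex (Function.update ν t (μ t)) F + ε := by
      rw [Ex_update t (hν.2 t), Ex_resample hν t, ← Ex_const hν ε, ← Ex_add]
      exact Ex_mono hν (h2 t (mem_insert_self _ _))
    rw [card_insert_of_notMem ht]
    push_cast
    linarith

theorem Ex_cheb {μ : T → α → ℝ} (hμ : IsPr μ) {r : ℕ} (hr : 1 ≤ r) (τ : Fin r → T)
    (hτ : Function.Injective τ) (φ : α → ℝ) (hφ : ∀ e, |φ e| ≤ 1) (m : ℝ)
    (hm : ∀ ρ, ∑ e, μ (τ ρ) e * φ e = m) :
    Ex μ (fun ω => ((∑ ρ, φ (ω (τ ρ))) / r - m) ^ 2) ≤ 4 / r := by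
  have hr0 : (0 : ℝ) < r := by exact_mod_cast hr
  have hm1 : |m| ≤ 1 := by
    rw [← hm ⟨0, hr⟩, ← hμ.2 (τ ⟨0, hr⟩)]
    refine (abs_sum_le_sum_abs _ _).trans (sum_le_sum fun e _ => ?_)
    rw [abs_mul, abs_of_nonneg (hμ.1 _ _)]
    exact mul_le_of_le_one_right (hμ.1 _ _) (hφ e)
  have e : ∀ ω : T → α, ((∑ ρ, φ (ω (τ ρ))) / r - m) ^ 2 =
      1 / r ^ 2 * ∑ ρ, ∑ ρ', (φ (ω (τ ρ)) - m) * (φ (ω (τ ρ')) - m) := by
    intro ω
    rw [← sum_mul_sum, sum_sub_distrib]
    simp only [sum_const, card_univ, Fintype.card_fin, nsmul_eq_mul]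
    field_simp
  simp only [e]
  rw [Ex_mul, Ex_sum]
  have h1 : ∀ ρ, Ex μ (fun ω => ∑ ρ', (φ (ω (τ ρ)) - m) * (φ (ω (τ ρ')) - m)) ≤ 4 := by
    intro ρ
    rw [Ex_sum, sum_eq_single ρ]
    · rw [← Ex_const hμ 4]
      refine Ex_mono hμ fun ω => ?_
      have := abs_le.1 (hφ (ω (τ ρ)))
      have := abs_le.1 hm1
      nlinarith
    · intro ρ' _ hne
      rw [Ex_resample hμ (τ ρ), ← Ex_const hμ 0]
      congr 1
      funext ω
      simp only [Function.update_self, Function.update_of_ne (hτ.ne hne), ← mul_assoc, ← sum_mul,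
        mul_sub, sum_sub_distrib, hm, hμ.2]
      simp
    · simp
  have h2 := sum_le_sum fun ρ (_ : ρ ∈ univ) => h1 ρ
  simp only [sum_const, card_univ, Fintype.card_fin, nsmul_eq_mul] at h2
  calc _ ≤ 1 / (r : ℝ) ^ 2 * (r * 4) := by gcongr
    _ = 4 / r := by field_simp

end Vale.Agent.P362
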