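import Vale.Agent.P362.Bfly
import Vale.Agent.P362.QOuter
import Vale.Agent.P362.RProb

/-! The separating function and its dual adversary solution. -/

namespace Vale.Agent.P362

open Finset

/-- Bit strings of length `a`: names of blocks, keys, and cells. -/
abbrev Vt (a : ℕ) : Type := Fin a → Bool

/-- Positions of one instance. -/
abbrev Ps (a K : ℕ) : Type := Fin (K + 1) × Vt a

/-- Positions of one table. -/
abbrev Ai (a r K w : ℕ) : Type :=
  ((Fin a × Fin r) × Fin (K + 1) × Fin (a + 1) × Vt a × Fin w) ⊕ (Vt a × Fin a)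

/-- Positions of the input. -/
abbrev Ix (a r K w : ℕ) : Type :=
  Vt a × (((Fin a × Fin r) × Ps a K) ⊕ Vt a ⊕ (Vt a × Ai a r K w))

/-- The local checks. -/
abbrev Ck (a r K : ℕ) : Type :=
  ((Fin a × Fin r) × Fin (K + 1) × Fin (a + 1) × Vt a) ⊕ Fin a ⊕ Vt a ⊕ Vt a

variable {a r K w : ℕ}

/-- An instance inside block `b`. -/
def inst (z : Ix a r K w → Bool) (b : Vt a) (t : Fin a × Fin r) : Ps a K → Bool :=
  fun u => z (b, Sum.inl (t, u))

/-- A data cell. -/
def dat (z : Ix a r K w → Bool) (b l : Vt a) : Bool := z (b, Sum.inr (Sum.inl l))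

/-- A transcript entry. -/
def tab (dec : (Fin w → Bool) → ℤ) (z : Ix a r K w → Bool) (b κ : Vt a) (t : Fin a × Fin r)
    (j : Fin (K + 1)) (c : Fin (a + 1)) (l : Vt a) : ℤ :=
  dec (fun k => z (b, Sum.inr (Sum.inr (κ, Sum.inl (t, j, c, l, k)))))

/-- A pointer. -/
def pnt (z : Ix a r K w → Bool) (b κ j : Vt a) : Vt a :=
  fun s => z (b, Sum.inr (Sum.inr (κ, Sum.inr (j, s))))

/-- The averaged value. -/
noncomputable def pbar (η : ℝ) (z : Ix a r K w → Bool) (b : Vt a) (s : Fin a) : ℝ :=
  (∑ ρ, PF K (had η) (inst z b (s, ρ))) / r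

/-- The pointer of `(v, κ)` hits a zero of block `j`. -/
def kill (z : Ix a r K w → Bool) (v κ j : Vt a) : Bool := !(dat z j (pnt z v κ j))

/-- The outcome of a check. -/
noncomputable def own (dec : (Fin w → Bool) → ℤ) (η δ : ℝ) (z : Ix a r K w → Bool) (b κ : Vt a) :
    Ck a r K → Bool
  | Sum.inl (t, j, c, l) => decide (tab dec z b κ t j c l = rule (inst z b t) (tab dec z b κ t) j c l)
  | Sum.inr (Sum.inl s) => decide (δ ≤ sg (κ s) * ((∑ ρ, η ^ K *
      (tab dec z b κ (s, ρ) (Fin.last K) (Fin.last a) (fun _ => false) : ℝ) / 2 ^ a) / r))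
  | Sum.inr (Sum.inr (Sum.inl l)) => dat z b l
  | Sum.inr (Sum.inr (Sum.inr j)) => decide (j = b) || kill z b κ j

open Classical in
/-- The separating function. -/
noncomputable def sepF (dec : (Fin w → Bool) → ℤ) (η δ : ℝ) (z : Ix a r K w → Bool) : Bool :=
  decide (∃ b κ, ∀ o, own dec η δ z b κ o = true)

theorem sepF_iff (dec : (Fin w → Bool) → ℤ) (η δ : ℝ) (z : Ix a r K w → Bool) :
    sepF dec η δ z = true ↔ ∃ b κ, ∀ o, own dec η δ z b κ o = true := by
  simp [sepF]

theorem tab_DT (dec : (Fin w → Bool) → ℤ) (b κ : Vt a) (t : Fin a × Fin r)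
    (j : Fin (K + 1)) (c : Fin (a + 1)) (l : Vt a) :
    DT w (fun z : Ix a r K w → Bool => tab dec z b κ t j c l) := by
  have := (DT.pi (S := Fin w) (fun k => DT.read (α := Bool)
    ((b, Sum.inr (Sum.inr (κ, Sum.inl (t, j, c, l, k)))) : Ix a r K w))).map dec
  rw [Fintype.card_fin, mul_one] at this
  exact this

theorem kill_DT (v κ j : Vt a) : DT (1 + a) (fun z : Ix a r K w → Bool => kill z v κ j) := by
  have h1 := DT.pi (S := Fin a) (fun s => DT.read (α := Bool)
    ((v, Sum.inr (Sum.inr (κ, Sum.inr (j, s)))) : Ix a r K w))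
  have h2 := h1.bind (fun p (z : Ix a r K w → Bool) => !(dat z j p))
    (fun p => (DT.read _).map (fun b => !b))
  rw [Fintype.card_fin, mul_one] at h2
  exact h2

theorem own_DT (dec : (Fin w → Bool) → ℤ) (η δ : ℝ) (b κ : Vt a) (o : Ck a r K) :
    DT ((r + 3) * w + a + 1) (fun z : Ix a r K w → Bool => own dec η δ z b κ o) := by
  rcases o with ⟨t, j, c, l⟩ | s | l | j
  · have key : DT (2 * w + 1)
        (fun z : Ix a r K w → Bool => rule (inst z b t) (tab dec z b κ t) j c l) := by
      refine Fin.cases ?_ (fun c' => ?_) c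
      · refine Fin.cases ?_ (fun j' => ?_) j
        · exact ((DT.read ((b, Sum.inl (t, (0, l))) : Ix a r K w)).map
            (fun e => sz e * 1)).mono (by omega)
        · exact ((DT.read ((b, Sum.inl (t, (j'.succ, l))) : Ix a r K w)).map2
            (tab_DT dec b κ t j'.castSucc (Fin.last a) l) (fun e n => sz e * n)).mono (by omega)
      · exact ((tab_DT dec b κ t j c'.castSucc (Function.update l c' false)).map2
          (tab_DT dec b κ t j c'.castSucc (Function.update l c' true))
          (fun m n => m + sz (l c') * n)).mono (by omega)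
    exact ((tab_DT dec b κ t j c l).map2 key (fun m n => decide (m = n))).mono (by nlinarith)
  · have := (DT.pi (S := Fin r) (fun ρ => tab_DT dec b κ (s, ρ) (Fin.last K) (Fin.last a)
      (fun _ => false))).map
      (fun T => decide (δ ≤ sg (κ s) * ((∑ ρ, η ^ K * (T ρ : ℝ) / 2 ^ a) / r)))
    exact this.mono (by rw [Fintype.card_fin]; nlinarith)
  · exact (DT.read _).mono (by omega)
  · exact ((kill_DT b κ j).map (fun e => decide (j = b) || e)).mono (by omega)

theorem own_sound (dec : (Fin w → Bool) → ℤ) (η δ : ℝ) (z : Ix a r K w → Bool) (b κ : Vt a)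
    (h : ∀ o, own dec η δ z b κ o = true) (s : Fin a) : δ ≤ sg (κ s) * pbar η z b s := by
  have h1 : ∀ t j c l, tab dec z b κ t j c l = honest (inst z b t) j c l := fun t =>
    rule_unique _ _ (fun j c l => by simpa [own] using h (Sum.inl (t, j, c, l)))
  have h2 := h (Sum.inr (Sum.inl s))
  simp only [own, decide_eq_true_eq, h1] at h2
  simpa only [pbar, PF_honest] using h2

theorem pbar_filt (hr : 1 ≤ r) (η : ℝ) (hη : 2 ^ a * η ^ 2 = 1) (b : Vt a) (s : Fin a) :
    Filt (fun x y : Ix a r K w → Bool => pbar η x b s - pbar η y b s)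
      (fun _ => 2 * (K + 1)) (fun _ => 2 * (K + 1)) := by
  classical
  have hr0 : (0 : ℝ) < r := by exact_mod_cast hr
  have e : (1 / √(r : ℝ)) ^ 2 = 1 / r := by rw [div_pow, Real.sq_sqrt hr0.le, one_pow]
  refine ((Filt.sum fun ρ : Fin r => filt_PF (K := K) (had η) (had_orth η hη)
    (fun i i' => by simpa only [had_symm η i, had_symm η i'] using had_orth η hη i i')
    (fun u => ((b, Sum.inl ((s, ρ), u)) : Ix a r K w))).mul1 (fun _ => 1 / √(r : ℝ))
    (fun _ => 1 / √(r : ℝ))).mono (fun x y => ?_) (fun _ => ?_) (fun _ => ?_)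
  · rw [← sq, e, sum_sub_distrib]
    unfold pbar inst
    ring
  · rw [e]; simp only [sum_const, card_univ, Fintype.card_fin, nsmul_eq_mul]
    apply le_of_eq; field_simp
  · rw [e]; simp only [sum_const, card_univ, Fintype.card_fin, nsmul_eq_mul]
    apply le_of_eq; field_simp

theorem sepF_dist (hr : 1 ≤ r) (dec : (Fin w → Bool) → ℤ) (η δ : ℝ) (hη : 2 ^ a * η ^ 2 = 1)
    (hδ : 0 < δ) {lam : ℝ} (hlam : 0 < lam) :
    Dist (fun x y : Ix a r K w → Bool => sepF dec η δ x = true ∧ sepF dec η δ y = false)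
      (fun _ => a * (lam * (4 * (2 * (K + 1)) / δ)) +
        (Fintype.card (Ck a r K) + Fintype.card (Vt a)) *
          (a * (8 * (2 * (K + 1)) / δ) + ((r + 3) * w + a + 1 : ℕ)) / lam)
      (fun _ => Fintype.card (Vt a) * (a * (2 * (4 * (2 * (K + 1)) / δ / lam))) +
        (6 * a + 7) * (a * (8 * (2 * (K + 1)) / δ) + ((r + 3) * w + a + 1 : ℕ)) * lam) := by
  classical
  refine dist_outer (by simp) (pbar η) (by positivity) hδ (pbar_filt hr η hη) (own dec η δ) kill
    _ (own_DT dec η δ) (fun v κ b => (kill_DT v κ b).mono (by omega))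
    (fun j => Sum.inr (Sum.inr (Sum.inr j))) (fun j j' e => by simpa using e) ?_ ?_
    (own_sound dec η δ) _ (sepF_iff dec η δ) hlam
  · intro z v κ b hne h
    simpa [own, hne] using h
  · intro z b κ h v κ'
    have := h (Sum.inr (Sum.inr (Sum.inl (pnt z v κ' b))))
    simpa [own, kill] using this

end Vale.Agent.P362
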