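import Mathlib

/-! Query complexity of total Boolean functions: the classical and the quantum model. -/

namespace Vale.Agent.P362

/-- Deterministic decision trees on `n` input bits. -/
inductive Tree (n : ℕ) : Type
  | leaf (b : Bool) : Tree n
  | node (i : Fin n) (t0 t1 : Tree n) : Tree n

/-- The output of a tree on the input `x`. -/
def Tree.eval {n : ℕ} : Tree n → (Fin n → Bool) → Bool
  | .leaf b, _ => b
  | .node i t0 t1, x => if x i then t1.eval x else t0.eval x

/-- The depth of a tree: the largest number of queries on a path. -/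
def Tree.depth {n : ℕ} : Tree n → ℕ
  | .leaf _ => 0
  | .node _ t0 t1 => max t0.depth t1.depth + 1

/-- Some probability distribution on trees of depth at most `d` computes `f` with probability
at least `2/3` on every input. -/
def RandAlg {n : ℕ} (f : (Fin n → Bool) → Bool) (d : ℕ) : Prop :=
  ∃ (k : ℕ) (p : Fin k → ℝ) (T : Fin k → Tree n),
    (∀ j, 0 ≤ p j) ∧ ∑ j, p j = 1 ∧ (∀ j, (T j).depth ≤ d) ∧
      ∀ x, (2 / 3 : ℝ) ≤ ∑ j, if (T j).eval x = f x then p j else 0

/-- Bounded-error randomized query complexity `R(f)`. -/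
noncomputable def randC {n : ℕ} (f : (Fin n → Bool) → Bool) : ℕ := sInf {d | RandAlg f d}

/-- Basis states `|i, b, z⟩` with a work register of dimension `w`. -/
abbrev Ket (n w : ℕ) : Type := Fin n × Bool × Fin w

/-- The query operator `O_x |i, b, z⟩ = |i, b ⊕ x_i, z⟩`. -/
def oracle {n : ℕ} (w : ℕ) (x : Fin n → Bool) : Matrix (Ket n w) (Ket n w) ℂ :=
  fun p q => if p = (q.1, xor q.2.1 (x q.1), q.2.2) then 1 else 0

/-- The state `U_t O_x ⋯ U_1 O_x U_0 |s⟩` after `t` queries. -/
noncomputable def qstate {n w : ℕ} (U : ℕ → Matrix (Ket n w) (Ket n w) ℂ) (s : Ket n w)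
    (x : Fin n → Bool) : ℕ → Ket n w → ℂ
  | 0 => (U 0).mulVec (Pi.single s 1)
  | t + 1 => (U (t + 1)).mulVec ((oracle w x).mulVec (qstate U s x t))

/-- Some quantum algorithm with `T` queries (unitaries `U_0, …, U_T`, a final measurement in the
computational basis, output read off the outcome) computes `f` with probability at least `2/3`
on every input. -/
def QuantAlg {n : ℕ} (f : (Fin n → Bool) → Bool) (T : ℕ) : Prop :=
  ∃ (w : ℕ) (U : ℕ → Matrix (Ket n w) (Ket n w) ℂ) (s : Ket n w) (out : Ket n w → Bool),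
    (∀ t, U t ∈ Matrix.unitaryGroup (Ket n w) ℂ) ∧
      ∀ x, (2 / 3 : ℝ) ≤ ∑ p, if out p = f x then ‖qstate U s x T p‖ ^ 2 else 0

/-- Bounded-error quantum query complexity `Q(f)`. -/
noncomputable def quantC {n : ℕ} (f : (Fin n → Bool) → Bool) : ℕ := sInf {T | QuantAlg f T}

/-- The admissible exponents: `R(f) ≤ C (1 + Q(f))^α` for all total Boolean functions. -/
def exponents : Set ℝ :=
  {α | 0 ≤ α ∧ ∃ C : ℝ, ∀ n : ℕ, 1 ≤ n → ∀ f : (Fin n → Bool) → Bool,
    (randC f : ℝ) ≤ C * (1 + (quantC f : ℝ)) ^ α}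

/-- The optimal exponent. -/
noncomputable def alphaTot : ℝ := sInf exponents

end Vale.Agent.P362
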