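import Vale.Agent.P362.ForrGrowth

/-! The chained distribution and its indistinguishability for shallow decision trees. -/

namespace Vale.Agent.P362

open Finset

section
variable {V : Type} [Fintype V] [DecidableEq V] {K : ℕ}

/-- Right factor of the mean vector. -/
def aF (ε : Fin K → V → Bool) (j : ℕ) (i : V) : ℝ :=
  if hj : j < K then sg (ε ⟨j, hj⟩ i) else 1

/-- Left factor of the mean vector. -/
noncomputable def bF (h : V → V → ℝ) (s : ℝ) (ε : Fin K → V → Bool) : ℕ → V → ℝ
  | 0, _ => s / 2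
  | j + 1, l => Real.sin (∑ i, h l i * aF ε j i) / 2

/-- The mean vector. -/
noncomputable def zF (h : V → V → ℝ) (s : ℝ) (ε : Fin K → V → Bool) (u : Fin (K + 1) × V) : ℝ :=
  bF h s ε u.1 u.2 * aF ε u.1 u.2

/-- Flip one sign. -/
def flp (ε : Fin K → V → Bool) (j : Fin K) (i : V) : Fin K → V → Bool :=
  Function.update ε j (Function.update (ε j) i (!ε j i))

omit [Fintype V] in
theorem flp_apply (ε : Fin K → V → Bool) (j j' : Fin K) (i i' : V) :
    flp ε j i j' i' = if j' = j ∧ i' = i then !ε j' i' else ε j' i' := by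
  unfold flp
  by_cases hj : j' = j
  · subst hj
    by_cases hi : i' = i
    · subst hi; simp
    · simp [hi]
  · simp [hj]

omit [Fintype V] in
theorem flp_inv (j : Fin K) (i : V) :
    Function.Involutive (fun ε : Fin K → V → Bool => flp ε j i) := by
  intro ε; funext j' i'
  simp only [flp_apply]
  split_ifs <;> simp

omit [Fintype V] in
theorem aF_flp (ε : Fin K → V → Bool) (j : Fin K) (i : V) (j' : ℕ) (i' : V) :
    aF (flp ε j i) j' i' = if j' = j.val ∧ i' = i then - aF ε j' i' else aF ε j' i' := by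
  unfold aF
  by_cases hj : j' < K
  · simp only [hj, dif_pos, flp_apply]
    by_cases hc : j' = j.val ∧ i' = i
    · have : (⟨j', hj⟩ : Fin K) = j ∧ i' = i := ⟨Fin.ext hc.1, hc.2⟩
      rw [if_pos this, if_pos hc, sg_not]
    · have : ¬ ((⟨j', hj⟩ : Fin K) = j ∧ i' = i) := fun h => hc ⟨congrArg Fin.val h.1, h.2⟩
      rw [if_neg this, if_neg hc]
  · have : ¬ (j' = j.val ∧ i' = i) := fun h => hj (h.1 ▸ j.2)
    simp [hj, this]

omit [Fintype V] [DecidableEq V] in
theorem aF_abs (ε : Fin K → V → Bool) (j : ℕ) (i : V) : |aF ε j i| = 1 := by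
  unfold aF; split_ifs <;> simp [sg_abs]

omit [DecidableEq V] in
theorem bF_congr (h : V → V → ℝ) (s : ℝ) (ε ε' : Fin K → V → Bool) (j : ℕ) (l : V)
    (e : ∀ j' i, j' + 1 = j → aF ε j' i = aF ε' j' i) : bF h s ε j l = bF h s ε' j l := by
  cases j with
  | zero => rfl
  | succ j => simp only [bF]; rw [sum_congr rfl (fun i _ => by rw [e j i rfl])]

omit [DecidableEq V] in
theorem zF_abs (h : V → V → ℝ) (s : ℝ) (hs : |s| ≤ 1) (ε : Fin K → V → Bool)
    (u : Fin (K + 1) × V) : |zF h s ε u| ≤ 1 / 2 := by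
  unfold zF
  rw [abs_mul, aF_abs, mul_one]
  generalize u.1.val = j
  cases j with
  | zero => simp only [bF]; rw [abs_div, abs_two]; linarith
  | succ j =>
    simp only [bF]; rw [abs_div, abs_two]
    have := Real.abs_sin_le_one (∑ i, h u.2 i * aF ε j i)
    linarith

theorem bF_flp_abs (h : V → V → ℝ) (η : ℝ) (hh : ∀ l i, |h l i| ≤ η) (s : ℝ)
    (ε : Fin K → V → Bool) (j : Fin K) (i l : V) :
    |bF h s (flp ε j i) (j.val + 1) l - bF h s ε (j.val + 1) l| ≤ η := by
  simp only [bF]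
  rw [← sub_div, abs_div, abs_two]
  have h1 := Real.abs_sin_sub_sin_le (∑ i', h l i' * aF (flp ε j i) j i') (∑ i', h l i' * aF ε j i')
  have h2 : ∑ i', h l i' * aF (flp ε j i) j i' - ∑ i', h l i' * aF ε j i' =
      -2 * (h l i * aF ε j i) := by
    rw [← sum_sub_distrib, sum_eq_single i]
    · rw [aF_flp]; simp; ring
    · intro b _ hb; rw [aF_flp]; simp [hb]
    · simp
  rw [h2, abs_mul, abs_mul, aF_abs] at h1
  have := hh l i
  norm_num at h1
  linarith

/-- Admissible extensions of a vertex set living in blocks up to `j`. -/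
def Ext (j : ℕ) (S : Finset (Fin (K + 1) × V)) : Finset (Finset (Fin (K + 1) × V)) :=
  univ.filter (fun S' => (∀ u : Fin (K + 1) × V, u.1.val ≤ j → (u ∈ S' ↔ u ∈ S)) ∧
    S.card + (K - j) ≤ S'.card)

/-- The block with index `j`. -/
def Blk (j : ℕ) : Finset (Fin (K + 1) × V) := univ.filter (fun u => u.1.val = j)

theorem sum_disj {ι : Type} [DecidableEq ι] (𝒜 : Finset (Finset ι)) (T : Finset ι → Finset (Finset ι))
    (B : Finset ι) (hT : ∀ A ∈ 𝒜, ∀ S' ∈ T A, S' ∩ B = A) (tgt : Finset (Finset ι))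
    (hsub : ∀ A ∈ 𝒜, T A ⊆ tgt) (F : Finset ι → ℝ) (hF : ∀ S, 0 ≤ F S) :
    ∑ A ∈ 𝒜, ∑ S' ∈ T A, F S' ≤ ∑ S' ∈ tgt, F S' := by
  rw [← sum_biUnion]
  · exact sum_le_sum_of_subset_of_nonneg (biUnion_subset.2 hsub) (fun S _ _ => hF S)
  · intro A hA A' hA' hne
    rw [Function.onFun, disjoint_left]
    intro S' h1 h2
    exact hne ((hT A hA S' h1).symm.trans (hT A' hA' S' h2))

theorem Ext_inter (j : ℕ) (S A : Finset (Fin (K + 1) × V)) (hS : ∀ u ∈ S, u.1.val < j)
    (hA : A ⊆ Blk j) (S' : Finset (Fin (K + 1) × V)) (h' : S' ∈ Ext j (S ∪ A)) :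
    S' ∩ Blk j = A := by
  obtain ⟨h1, -⟩ := (mem_filter.1 h').2
  ext u
  simp only [mem_inter, Blk, mem_filter, mem_univ, true_and]
  constructor
  · rintro ⟨hu, hj⟩
    rcases mem_union.1 ((h1 u hj.le).1 hu) with h | h
    · have := hS u h; omega
    · exact h
  · intro hu
    have hj : u.1.val = j := (mem_filter.1 (hA hu)).2
    exact ⟨(h1 u hj.le).2 (mem_union_right _ hu), hj⟩

theorem chain (h : V → V → ℝ) (η : ℝ) (hη : 0 < η) (hh : ∀ l i, |h l i| ≤ η) (s : ℝ)
    (g : (Fin (K + 1) × V → Bool) → ℝ) :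
    ∀ (r j : ℕ), j + r = K → ∀ (S : Finset (Fin (K + 1) × V)) (u : Fin (K + 1) × V),
      (∀ v ∈ S, v.1.val ≤ j) → u ∈ S → u.1.val = j →
      ∀ (γ : (Fin K → V → Bool) → ℝ) (Γ : ℝ), (∀ ε, |γ ε| ≤ Γ) →
      (∀ ε (j' : Fin K) (i' : V), (j < j'.val ∨ (j'.val = j ∧ i' = u.2)) → γ (flp ε j' i') = γ ε) →
      η ^ S.card * |∑ ε, aF ε j u.2 * γ ε * Dv g (zF h s ε) S| ≤
        Γ * ∑ ε : Fin K → V → Bool, ∑ S' ∈ Ext j S, η ^ S'.card * |Dv g (zF h s ε) S'| := by
  intro r
  induction r with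
  | zero =>
    intro j hj S u hS hu huj γ Γ hγ _
    have hΓ : 0 ≤ Γ := (abs_nonneg _).trans (hγ (fun _ _ => true))
    have hmem : S ∈ Ext j S := by
      simp only [Ext, mem_filter, mem_univ, true_and]
      exact ⟨fun _ _ => trivial, by omega⟩
    calc η ^ S.card * |∑ ε, aF ε j u.2 * γ ε * Dv g (zF h s ε) S|
        ≤ η ^ S.card * ∑ ε, |aF ε j u.2 * γ ε * Dv g (zF h s ε) S| :=
          mul_le_mul_of_nonneg_left (abs_sum_le_sum_abs _ _) (by positivity)
      _ ≤ _ := by
          rw [mul_sum, mul_sum]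
          refine sum_le_sum (fun ε _ => ?_)
          have h1 := single_le_sum (f := fun S' => η ^ S'.card * |Dv g (zF h s ε) S'|)
            (fun S' _ => by positivity) hmem
          rw [abs_mul, abs_mul, aF_abs, one_mul]
          have h2 : 0 ≤ η ^ S.card * |Dv g (zF h s ε) S| := by positivity
          calc η ^ S.card * (|γ ε| * |Dv g (zF h s ε) S|)
              = |γ ε| * (η ^ S.card * |Dv g (zF h s ε) S|) := by ring
            _ ≤ Γ * (η ^ S.card * |Dv g (zF h s ε) S|) := mul_le_mul_of_nonneg_right (hγ ε) h2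
            _ ≤ _ := mul_le_mul_of_nonneg_left h1 hΓ
  | succ r ih =>
    intro j hj S u hS hu huj γ Γ hγ hinv
    have hΓ : 0 ≤ Γ := (abs_nonneg _).trans (hγ (fun _ _ => true))
    have hjK : j < K := by omega
    set jj : Fin K := ⟨j, hjK⟩ with hjj
    set i := u.2 with hi
    set B : Finset (Fin (K + 1) × V) := Blk (j + 1) with hB
    have hBmem : ∀ v, v ∈ B ↔ v.1.val = j + 1 := fun v => by simp [hB, Blk]
    have hSB : Disjoint S B := by
      rw [disjoint_left]; intro v h1 h2
      have := hS v h1; have := (hBmem v).1 h2; omega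
    set β : (Fin K → V → Bool) → V → ℝ := fun ε l =>
      bF h s (flp ε jj i) (j + 1) l - bF h s ε (j + 1) l with hβ
    have hflip : ∑ ε, aF ε j i * γ ε * Dv g (zF h s ε) S =
        - ∑ ε, aF ε j i * γ ε * Dv g (zF h s (flp ε jj i)) S := by
      rw [← Equiv.sum_comp (flp_inv jj i).toPerm (fun ε => aF ε j i * γ ε * Dv g (zF h s ε) S),
        ← sum_neg_distrib]
      refine sum_congr rfl (fun ε _ => ?_)
      simp only [Function.Involutive.coe_toPerm]
      rw [hinv ε jj i (Or.inr ⟨rfl, rfl⟩), aF_flp, if_pos ⟨rfl, rfl⟩]; ring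
    have hshift : ∀ ε, Dv g (zF h s (flp ε jj i)) S = Dv g (zF h s ε) S +
        ∑ A ∈ B.powerset.erase ∅, (∏ v ∈ A, (β ε v.2 * aF ε (j + 1) v.2)) *
          Dv g (zF h s ε) (S ∪ A) := by
      intro ε
      rw [Dv_shift g (zF h s ε) (zF h s (flp ε jj i)) S B hSB,
        ← add_sum_erase _ _ (empty_mem_powerset B)]
      · congr 1
        · simp
        · refine sum_congr rfl (fun A hA => ?_)
          congr 1
          refine prod_congr rfl (fun v hv => ?_)
          have hv' := (hBmem v).1 (mem_powerset.1 (mem_of_mem_erase hA) hv)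
          unfold zF
          rw [hv', aF_flp, if_neg (by simp [hjj])]
          simp only [hβ]; ring
      · intro v hvS hvB
        have hv' : v.1.val ≠ j + 1 := fun e => hvB ((hBmem v).2 e)
        unfold zF
        rw [aF_flp, if_neg, bF_congr h s (flp ε jj i) ε]
        · intro j' i' e
          rw [aF_flp, if_neg]
          rintro ⟨e1, -⟩
          apply hv'; simp only [hjj] at e1; omega
        · rintro ⟨e1, e2⟩
          apply hvS
          have : v = u := Prod.ext (Fin.ext (by simp only [hjj] at e1; omega)) e2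
          rwa [this]
    have hmain : ∑ ε, aF ε j i * γ ε * Dv g (zF h s ε) S =
        -(1 / 2) * ∑ A ∈ B.powerset.erase ∅, ∑ ε, aF ε j i * γ ε *
          ((∏ v ∈ A, (β ε v.2 * aF ε (j + 1) v.2)) * Dv g (zF h s ε) (S ∪ A)) := by
      have := hflip
      simp_rw [hshift, mul_add, sum_add_distrib, mul_sum] at this
      rw [sum_comm] at this
      linarith
    have hterm : ∀ A ∈ B.powerset.erase ∅, η ^ S.card * |∑ ε, aF ε j i * γ ε *
          ((∏ v ∈ A, (β ε v.2 * aF ε (j + 1) v.2)) * Dv g (zF h s ε) (S ∪ A))| ≤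
        Γ * ∑ ε : Fin K → V → Bool, ∑ S' ∈ Ext (j + 1) (S ∪ A),
          η ^ S'.card * |Dv g (zF h s ε) S'| := by
      intro A hA
      have hAB := mem_powerset.1 (mem_of_mem_erase hA)
      obtain ⟨w, hw⟩ := nonempty_iff_ne_empty.2 (ne_of_mem_erase hA)
      have hw' := (hBmem w).1 (hAB hw)
      set γ' : (Fin K → V → Bool) → ℝ := fun ε => aF ε j i * γ ε * (∏ v ∈ A, β ε v.2) *
        ∏ v ∈ A.erase w, aF ε (j + 1) v.2 with hγ'
      have h1 := ih (j + 1) (by omega) (S ∪ A) w
        (fun v hv => by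
          rcases mem_union.1 hv with h | h
          · have := hS v h; omega
          · exact ((hBmem v).1 (hAB h)).le)
        (mem_union_right _ hw) hw' γ' (Γ * η ^ A.card)
        (fun ε => by
          simp only [hγ']
          rw [abs_mul, abs_mul, abs_mul, aF_abs, one_mul, abs_prod, abs_prod,
            prod_eq_one (s := A.erase w) (fun v _ => aF_abs ε (j + 1) v.2), mul_one]
          refine mul_le_mul (hγ ε) ?_ (by positivity) hΓ
          rw [← prod_const]
          exact prod_le_prod (fun _ _ => abs_nonneg _)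
            (fun v _ => bF_flp_abs h η hh s ε jj i v.2))
        (fun ε j' i' hc => by
          simp only [hγ']
          have hj' : j < j'.val := by omega
          rw [hinv ε j' i' (Or.inl hj'), aF_flp, if_neg (by omega)]
          congr 1
          · congr 1
            refine prod_congr rfl (fun v _ => ?_)
            simp only [hβ]
            rw [bF_congr h s (flp (flp ε j' i') jj i) (flp ε jj i),
              bF_congr h s (flp ε j' i') ε]
            · intro j'' i'' e
              rw [aF_flp, if_neg (by omega)]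
            · intro j'' i'' e
              rw [aF_flp, aF_flp, aF_flp ε jj, if_neg (show ¬ (j'' = j'.val ∧ i'' = i') by omega)]
          · refine prod_congr rfl (fun v hv => ?_)
            rw [aF_flp, if_neg]
            rintro ⟨e1, e2⟩
            rcases hc with hc | ⟨-, hc⟩
            · omega
            · apply ne_of_mem_erase hv
              have hv' := (hBmem v).1 (hAB (mem_of_mem_erase hv))
              exact Prod.ext (Fin.ext (by omega)) (e2.trans hc))
      have e1 : ∑ ε, aF ε j i * γ ε *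
          ((∏ v ∈ A, (β ε v.2 * aF ε (j + 1) v.2)) * Dv g (zF h s ε) (S ∪ A)) =
          ∑ ε, aF ε (j + 1) w.2 * γ' ε * Dv g (zF h s ε) (S ∪ A) := by
        refine sum_congr rfl (fun ε _ => ?_)
        simp only [hγ']
        rw [prod_mul_distrib, ← mul_prod_erase A (fun v => aF ε (j + 1) v.2) hw]; ring
      rw [e1]
      rw [card_union_of_disjoint (hSB.mono_right hAB), pow_add] at h1
      have hp : 0 < η ^ A.card := by positivity
      refine le_of_mul_le_mul_left ?_ hp
      calc _ = η ^ S.card * η ^ A.card *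
            |∑ ε, aF ε (j + 1) w.2 * γ' ε * Dv g (zF h s ε) (S ∪ A)| := by ring
        _ ≤ _ := h1
        _ = _ := by ring
    have hsum : ∀ ε : Fin K → V → Bool, ∑ A ∈ B.powerset.erase ∅, ∑ S' ∈ Ext (j + 1) (S ∪ A),
        η ^ S'.card * |Dv g (zF h s ε) S'| ≤
        ∑ S' ∈ Ext j S, η ^ S'.card * |Dv g (zF h s ε) S'| := by
      intro ε
      refine sum_disj _ (fun A => Ext (j + 1) (S ∪ A)) B (fun A hA S' h' => ?_) _
        (fun A hA S' h' => ?_) _ (fun S' => by positivity)
      · exact Ext_inter (j + 1) S A (fun v hv => by have := hS v hv; omega)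
          (mem_powerset.1 (mem_of_mem_erase hA)) S' h'
      · have hAB := mem_powerset.1 (mem_of_mem_erase hA)
        obtain ⟨h1, h2⟩ := (mem_filter.1 h').2
        have hc := card_pos.2 (nonempty_iff_ne_empty.2 (ne_of_mem_erase hA))
        rw [card_union_of_disjoint (hSB.mono_right hAB)] at h2
        refine mem_filter.2 ⟨mem_univ _, fun v hv => ?_, by omega⟩
        rw [h1 v (by omega), mem_union]
        constructor
        · rintro (h | h)
          · exact h
          · have := (hBmem v).1 (hAB h); omega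
        · exact Or.inl
    rw [hmain, abs_mul]
    have hR : 0 ≤ Γ * ∑ ε : Fin K → V → Bool, ∑ S' ∈ Ext j S, η ^ S'.card * |Dv g (zF h s ε) S'| :=
      mul_nonneg hΓ (sum_nonneg (fun _ _ => sum_nonneg (fun _ _ => by positivity)))
    have h3 : η ^ S.card * |∑ A ∈ B.powerset.erase ∅, ∑ ε, aF ε j i * γ ε *
          ((∏ v ∈ A, (β ε v.2 * aF ε (j + 1) v.2)) * Dv g (zF h s ε) (S ∪ A))| ≤
        Γ * ∑ ε : Fin K → V → Bool, ∑ S' ∈ Ext j S, η ^ S'.card * |Dv g (zF h s ε) S'| := by
      refine (mul_le_mul_of_nonneg_left (abs_sum_le_sum_abs _ _) (by positivity)).trans ?_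
      rw [mul_sum]
      refine (sum_le_sum hterm).trans ?_
      rw [← mul_sum, sum_comm]
      exact mul_le_mul_of_nonneg_left (sum_le_sum (fun ε _ => hsum ε)) hΓ
    have : |(-(1 / 2) : ℝ)| = 1 / 2 := by norm_num [abs_of_neg]
    rw [this]
    linarith

theorem step0 (h : V → V → ℝ) (η : ℝ) (hη : 0 < η) (hh : ∀ l i, |h l i| ≤ η) (s t : ℝ)
    (ht0 : 0 ≤ t) (ht : t ≤ η) (g : (Fin (K + 1) × V → Bool) → ℝ) :
    η * |∑ ε : Fin K → V → Bool, (Dv g (zF h (s + 2 * t) ε) ∅ - Dv g (zF h s ε) ∅)| ≤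
      t * ∑ ε : Fin K → V → Bool, ∑ S' ∈ univ.filter (fun S' : Finset (Fin (K + 1) × V) =>
        K + 1 ≤ S'.card), η ^ S'.card * |Dv g (zF h s ε) S'| := by
  set B : Finset (Fin (K + 1) × V) := Blk 0 with hB
  have hBmem : ∀ v, v ∈ B ↔ v.1.val = 0 := fun v => by simp [hB, Blk]
  have hshift : ∀ ε : Fin K → V → Bool, Dv g (zF h (s + 2 * t) ε) ∅ - Dv g (zF h s ε) ∅ =
      ∑ A ∈ B.powerset.erase ∅, (∏ v ∈ A, (t * aF ε 0 v.2)) * Dv g (zF h s ε) A := by
    intro ε
    rw [Dv_shift g (zF h s ε) (zF h (s + 2 * t) ε) ∅ B (disjoint_empty_left _),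
      ← add_sum_erase _ _ (empty_mem_powerset B)]
    · simp only [prod_empty, one_mul, empty_union, add_sub_cancel_left]
      refine sum_congr rfl (fun A hA => ?_)
      congr 1
      refine prod_congr rfl (fun v hv => ?_)
      have hv' := (hBmem v).1 (mem_powerset.1 (mem_of_mem_erase hA) hv)
      unfold zF
      rw [hv']; simp only [bF]; ring
    · intro v _ hvB
      have hv' : v.1.val ≠ 0 := fun e => hvB ((hBmem v).2 e)
      unfold zF
      obtain ⟨j, hj⟩ := Nat.exists_eq_succ_of_ne_zero hv'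
      rw [hj]; simp only [bF]
  have hterm : ∀ A ∈ B.powerset.erase ∅,
      η * |∑ ε : Fin K → V → Bool, (∏ v ∈ A, (t * aF ε 0 v.2)) * Dv g (zF h s ε) A| ≤
        t * ∑ ε : Fin K → V → Bool, ∑ S' ∈ Ext 0 A, η ^ S'.card * |Dv g (zF h s ε) S'| := by
    intro A hA
    have hAB := mem_powerset.1 (mem_of_mem_erase hA)
    obtain ⟨w, hw⟩ := nonempty_iff_ne_empty.2 (ne_of_mem_erase hA)
    have hw' := (hBmem w).1 (hAB hw)
    set γ' : (Fin K → V → Bool) → ℝ := fun ε => t * ∏ v ∈ A.erase w, (t * aF ε 0 v.2) with hγ'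
    have h1 := chain h η hη hh s g K 0 (by omega) A w (fun v hv => ((hBmem v).1 (hAB hv)).le) hw hw'
      γ' (t * η ^ (A.erase w).card)
      (fun ε => by
        simp only [hγ']
        rw [abs_mul, abs_of_nonneg ht0, abs_prod]
        refine mul_le_mul_of_nonneg_left ?_ ht0
        rw [← prod_const]
        exact prod_le_prod (fun _ _ => abs_nonneg _)
          (fun v _ => by rw [abs_mul, aF_abs, mul_one, abs_of_nonneg ht0]; exact ht))
      (fun ε j' i' hc => by
        simp only [hγ']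
        congr 1
        refine prod_congr rfl (fun v hv => ?_)
        rw [aF_flp, if_neg]
        rintro ⟨e1, e2⟩
        rcases hc with hc | ⟨-, hc⟩
        · omega
        · apply ne_of_mem_erase hv
          have hv' := (hBmem v).1 (hAB (mem_of_mem_erase hv))
          exact Prod.ext (Fin.ext (by omega)) (e2.trans hc))
    have e1 : ∑ ε : Fin K → V → Bool, (∏ v ∈ A, (t * aF ε 0 v.2)) * Dv g (zF h s ε) A =
        ∑ ε, aF ε 0 w.2 * γ' ε * Dv g (zF h s ε) A := by
      refine sum_congr rfl (fun ε _ => ?_)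
      simp only [hγ']
      rw [← mul_prod_erase A (fun v => t * aF ε 0 v.2) hw]; ring
    rw [e1]
    rw [← card_erase_add_one hw, pow_succ] at h1
    have hp : 0 < η ^ (A.erase w).card := by positivity
    refine le_of_mul_le_mul_left ?_ hp
    calc _ = η ^ (A.erase w).card * η * |∑ ε, aF ε 0 w.2 * γ' ε * Dv g (zF h s ε) A| := by ring
      _ ≤ _ := h1
      _ = _ := by ring
  simp_rw [hshift]
  rw [sum_comm]
  refine (mul_le_mul_of_nonneg_left (abs_sum_le_sum_abs _ _) hη.le).trans ?_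
  rw [mul_sum]
  refine (sum_le_sum hterm).trans ?_
  rw [← mul_sum, sum_comm]
  refine mul_le_mul_of_nonneg_left (sum_le_sum (fun ε _ => ?_)) ht0
  refine sum_disj _ (fun A => Ext 0 A) B (fun A hA S' h' => ?_) _
    (fun A hA S' h' => ?_) _ (fun S' => by positivity)
  · have := Ext_inter 0 ∅ A (by simp) (mem_powerset.1 (mem_of_mem_erase hA)) S' (by simpa using h')
    exact this
  · obtain ⟨-, h2⟩ := (mem_filter.1 h').2
    have hc := card_pos.2 (nonempty_iff_ne_empty.2 (ne_of_mem_erase hA))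
    exact mem_filter.2 ⟨mem_univ _, by omega⟩

/-- The chained distribution with parameter `s`. -/
noncomputable def muF (K : ℕ) (h : V → V → ℝ) (s : ℝ) (x : Fin (K + 1) × V → Bool) : ℝ :=
  (∑ ε : Fin K → V → Bool, Wt (zF h s ε) ∅ x) / Fintype.card (Fin K → V → Bool)

theorem muF_sum (h : V → V → ℝ) (s : ℝ) (g : (Fin (K + 1) × V → Bool) → ℝ) :
    ∑ x, muF K h s x * g x =
      (∑ ε : Fin K → V → Bool, Dv g (zF h s ε) ∅) / Fintype.card (Fin K → V → Bool) := by
  unfold muF Dv
  rw [sum_comm, sum_div]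
  refine sum_congr rfl (fun x _ => ?_)
  rw [← mul_sum]; ring

theorem muF_nonneg (h : V → V → ℝ) (s : ℝ) (hs : |s| ≤ 1) (x : Fin (K + 1) × V → Bool) :
    0 ≤ muF K h s x := by
  unfold muF
  refine div_nonneg (sum_nonneg (fun ε _ => ?_)) (by positivity)
  unfold Wt
  refine prod_nonneg (fun u _ => ?_)
  obtain ⟨h1, h2⟩ := abs_le.1 (zF_abs h s hs ε u)
  simp only [notMem_empty, if_false]
  cases x u <;> simp [sg] <;> linarith

theorem muF_total (h : V → V → ℝ) (s : ℝ) : ∑ x, muF K h s x = 1 := by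
  have := muF_sum (K := K) h s (fun _ => 1)
  simp only [mul_one, Dv_const, if_true, sum_const, card_univ, nsmul_eq_mul] at this
  rw [this, div_self]
  exact_mod_cast Fintype.card_ne_zero

/-- Indistinguishability of the two signs by decision trees of depth `d`. -/
theorem forr_adv [Nonempty V] (h : V → V → ℝ) (η : ℝ) (hη : 0 < η) (hh : ∀ l i, |h l i| ≤ η)
    (d : ℕ) (hd : 1 ≤ d) (g : (Fin (K + 1) × V → Bool) → ℝ) (hDT : DT d g) (hg : ∀ x, |g x| ≤ 1)
    (hu : ((K + 1 : ℕ) * Fintype.card V : ℝ) * (432 * d * η ^ 4) ≤ 1) :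
    (η * |∑ x, muF K h 1 x * g x - ∑ x, muF K h (-1) x * g x|) ^ 4 ≤
      9 * (((K + 1 : ℕ) * Fintype.card V : ℝ) * (432 * d * η ^ 4)) ^ (K + 1) := by
  set R := 9 * (((K + 1 : ℕ) * Fintype.card V : ℝ) * (432 * d * η ^ 4)) ^ (K + 1) with hR
  have hR0 : 0 ≤ R := by positivity
  set M := R ^ ((1 : ℝ) / 4) with hM
  have hM0 : 0 ≤ M := by positivity
  have hM4 : M ^ 4 = R := by
    rw [hM, ← Real.rpow_natCast, ← Real.rpow_mul hR0]; norm_num
  have hcard : (Fintype.card (Fin (K + 1) × V) : ℝ) = ((K + 1 : ℕ) * Fintype.card V : ℝ) := by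
    simp
  have hG : ∀ s : ℝ, |s| ≤ 1 → ∀ ε : Fin K → V → Bool,
      ∑ S' ∈ univ.filter (fun S' : Finset (Fin (K + 1) × V) => K + 1 ≤ S'.card),
        η ^ S'.card * |Dv g (zF h s ε) S'| ≤ M := by
    intro s hs ε
    have := growth (zF h s ε) (zF_abs h s hs ε) d hd g hDT hg η hη.le (K + 1)
      Fintype.card_pos (by rw [hcard]; exact hu)
    rw [hcard, ← hR, ← hM4] at this
    exact le_of_pow_le_pow_left₀ (by norm_num) hM0 this
  obtain ⟨m, hm⟩ := exists_nat_gt (1 / η)
  have hm0 : (0 : ℝ) < m := lt_trans (by positivity) hm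
  set C : ℝ := ((Fintype.card (Fin K → V → Bool) : ℕ) : ℝ) with hC
  have hC0 : 0 < C := by rw [hC]; exact_mod_cast Fintype.card_pos
  set F : ℕ → ℝ := fun n => ∑ ε : Fin K → V → Bool, Dv g (zF h (-1 + 2 * (n / m)) ε) ∅ with hF
  have hstep : ∀ n ∈ range m, η * |F (n + 1) - F n| ≤ 1 / m * (C * M) := by
    intro n hn
    have hn' : (n : ℝ) ≤ m := by exact_mod_cast (mem_range.1 hn).le
    have hs : |(-1 + 2 * ((n : ℝ) / m))| ≤ 1 := by
      have h1 : 0 ≤ (n : ℝ) / m := by positivity
      have h2 : (n : ℝ) / m ≤ 1 := (div_le_one hm0).2 hn'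
      rw [abs_le]; constructor <;> linarith
    have := step0 (K := K) h η hη hh (-1 + 2 * ((n : ℝ) / m)) (1 / m) (by positivity)
      (by rw [div_le_iff₀ hm0]; rw [div_lt_iff₀ hη] at hm; linarith) g
    simp only [hF]
    rw [← sum_sub_distrib]
    have e : (-1 + 2 * (((n + 1 : ℕ) : ℝ) / m)) = -1 + 2 * ((n : ℝ) / m) + 2 * (1 / m) := by
      push_cast; ring
    rw [e]
    refine this.trans (mul_le_mul_of_nonneg_left ?_ (by positivity))
    refine (sum_le_sum (fun ε _ => hG _ hs ε)).trans ?_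
    simp [hC]
  have htel : η * |F m - F 0| ≤ C * M := by
    rw [← sum_range_sub F m]
    refine (mul_le_mul_of_nonneg_left (abs_sum_le_sum_abs _ _) hη.le).trans ?_
    rw [mul_sum]
    refine (sum_le_sum hstep).trans (le_of_eq ?_)
    simp only [sum_const, card_range, nsmul_eq_mul]
    field_simp
  have e1 : F m = ∑ ε : Fin K → V → Bool, Dv g (zF h 1 ε) ∅ := by
    simp only [hF]; rw [div_self hm0.ne']; norm_num
  have e2 : F 0 = ∑ ε : Fin K → V → Bool, Dv g (zF h (-1) ε) ∅ := by
    simp only [hF]; norm_num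
  rw [muF_sum, muF_sum, ← e1, ← e2, ← hC, ← sub_div, abs_div, abs_of_pos hC0, ← hM4]
  refine pow_le_pow_left₀ (by positivity) ?_ 4
  rw [← mul_div_assoc, div_le_iff₀ hC0]
  linarith

end

end Vale.Agent.P362
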