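import Mathlib

/-! Depth predicate for functions computed by decision trees, over any alphabet. -/

namespace Vale.Agent.P362

/-- `DT d g`: the function `g` is computed by a decision tree of depth at most `d`. -/
inductive DT {ι α β : Type} : ℕ → ((ι → α) → β) → Prop
  | const (d : ℕ) (g : (ι → α) → β) (b : β) (h : ∀ x, g x = b) : DT d g
  | node (d : ℕ) (g : (ι → α) → β) (i : ι) (G : α → (ι → α) → β)
      (hG : ∀ a, DT d (G a)) (h : ∀ x, g x = G (x i) x) : DT (d + 1) g

namespace DT

variable {ι α β γ : Type}

theorem succ {d : ℕ} {g : (ι → α) → β} (h : DT d g) : DT (d + 1) g := by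
  induction h with
  | const d g b h => exact const _ g b h
  | node d g i G _ h ih => exact node _ g i G ih h

theorem mono {d e : ℕ} {g : (ι → α) → β} (h : DT d g) (hde : d ≤ e) : DT e g := by
  induction hde with
  | refl => exact h
  | step _ ih => exact ih.succ

theorem congr {d : ℕ} {g g' : (ι → α) → β} (h : DT d g) (e : ∀ x, g' x = g x) : DT d g' := by
  have : g' = g := funext e
  rwa [this]

/-- Post-composition. -/
theorem map {d : ℕ} {g : (ι → α) → β} (h : DT d g) (φ : β → γ) : DT d (fun x => φ (g x)) := by
  induction h with
  | const d g b h => exact const _ _ (φ b) (fun x => by rw [h])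
  | node d g i G _ h ih => exact node _ _ i (fun a x => φ (G a x)) ih (fun x => by rw [h])

/-- Sequential composition. -/
theorem bind {d e : ℕ} {g : (ι → α) → β} (h : DT d g) (F : β → (ι → α) → γ)
    (hF : ∀ b, DT e (F b)) : DT (e + d) (fun x => F (g x) x) := by
  induction h with
  | const d g b h =>
    exact ((hF b).mono (Nat.le_add_right e d)).congr (fun x => by rw [h])
  | node d g i G _ h ih =>
    exact node (e + d) _ i (fun a x => F (G a x) x) ih (fun x => by rw [h])

theorem read (i : ι) : DT 1 (fun x : ι → α => x i) :=
  node 0 _ i (fun a _ => a) (fun a => const 0 _ a (fun _ => rfl)) (fun _ => rfl)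

/-- Pull back along a local map: every coordinate of the image is a constant or depends on
one coordinate of the source. -/
theorem comp {ι' α' : Type} {d : ℕ} {g : (ι → α) → β} (h : DT d g)
    (φ : (ι' → α') → (ι → α))
    (hφ : ∀ i, (∃ a, ∀ y, φ y i = a) ∨ ∃ (j : ι') (ψ : α' → α), ∀ y, φ y i = ψ (y j)) :
    DT d (fun y => g (φ y)) := by
  induction h with
  | const d g b h => exact const _ _ b (fun y => h _)
  | node d g i G _ h ih =>
    rcases hφ i with ⟨a, ha⟩ | ⟨j, ψ, hj⟩
    · exact ((ih a).succ).congr (fun y => by rw [h, ha])
    · exact node d _ j (fun a y => G (ψ a) (φ y)) (fun a => ih (ψ a)) (fun y => by rw [h, hj])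

theorem update [DecidableEq ι] {d : ℕ} {g : (ι → α) → β} (h : DT d g) (i : ι) (a : α) :
    DT d (fun x => g (Function.update x i a)) := by
  refine h.comp (fun x => Function.update x i a) (fun j => ?_)
  by_cases hj : j = i
  · left; exact ⟨a, fun y => by simp [hj]⟩
  · right; exact ⟨j, id, fun y => by simp [hj]⟩

/-- Induction principle in which the branches do not depend on the queried coordinate. -/
theorem induct [DecidableEq ι] {P : ℕ → ((ι → α) → β) → Prop}
    (hc : ∀ d g b, (∀ x, g x = b) → P d g)
    (hn : ∀ d (g : (ι → α) → β) (i : ι),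
      (∀ a, P d (fun x => g (Function.update x i a))) → P (d + 1) g) :
    ∀ d g, DT d g → P d g := by
  intro d
  induction d with
  | zero =>
    intro g h
    cases h with
    | const _ _ b h => exact hc _ _ b h
  | succ d ih =>
    intro g h
    cases h with
    | const _ _ b h => exact hc _ _ b h
    | node _ _ i G hG h =>
      refine hn d g i (fun a => ih _ ?_)
      exact ((hG a).update i a).congr (fun x => by rw [h]; simp)

end DT

end Vale.Agent.P362
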