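import Vale.Agent.P362.ForrDT

/-! Growth of the derivatives of the multilinear extension of a shallow decision tree. -/

namespace Vale.Agent.P362

open Finset

/-- The sign of a bit. -/
def sg (b : Bool) : ℝ := if b then -1 else 1

theorem sg_sq (b : Bool) : sg b * sg b = 1 := by cases b <;> simp [sg]

theorem sg_abs (b : Bool) : |sg b| = 1 := by cases b <;> simp [sg]

theorem sg_not (b : Bool) : sg (!b) = - sg b := by cases b <;> simp [sg]

section
variable {ι : Type} [Fintype ι] [DecidableEq ι]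

/-- Product weight with mean vector `z`, differentiated in the coordinates of `S`. -/
noncomputable def Wt (z : ι → ℝ) (S : Finset ι) (x : ι → Bool) : ℝ :=
  ∏ i, if i ∈ S then sg (x i) / 2 else (1 + sg (x i) * z i) / 2

/-- The derivative in the coordinates of `S` of the multilinear extension of `g` at `z`. -/
noncomputable def Dv (g : (ι → Bool) → ℝ) (z : ι → ℝ) (S : Finset ι) : ℝ :=
  ∑ x, g x * Wt z S x

theorem sum_update (F : (ι → Bool) → ℝ) (i : ι) :
    ∑ x : ι → Bool, ∑ b : Bool, F (Function.update x i b) = 2 * ∑ x, F x := by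
  have hinv : Function.Involutive (fun x : ι → Bool => Function.update x i (!x i)) := by
    intro x; funext j; by_cases hj : j = i
    · subst hj; simp
    · simp [hj]
  have h1 : ∑ x : ι → Bool, F (Function.update x i (!x i)) = ∑ x, F x :=
    Equiv.sum_comp hinv.toPerm F
  have h2 : ∀ x : ι → Bool, ∑ b : Bool, F (Function.update x i b) =
      F x + F (Function.update x i (!x i)) := by
    intro x
    have : F (Function.update x i (x i)) = F x := by simp
    rw [Fintype.sum_bool]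
    cases hx : x i
    · rw [hx] at this; simp [this, add_comm]
    · rw [hx] at this; simp [this]
  simp_rw [h2, sum_add_distrib, h1]; ring

/-- Weight without the factor of coordinate `i`. -/
noncomputable def Wt' (z : ι → ℝ) (S : Finset ι) (i : ι) (x : ι → Bool) : ℝ :=
  ∏ j ∈ univ.erase i, if j ∈ S then sg (x j) / 2 else (1 + sg (x j) * z j) / 2

theorem Wt_update (z : ι → ℝ) (S : Finset ι) (i : ι) (x : ι → Bool) (b : Bool) :
    Wt z S (Function.update x i b) =
      (if i ∈ S then sg b / 2 else (1 + sg b * z i) / 2) * Wt' z S i x := by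
  unfold Wt Wt'
  rw [← mul_prod_erase univ _ (mem_univ i)]
  congr 1
  · simp
  · refine prod_congr rfl (fun j hj => ?_)
    rw [Function.update_of_ne (ne_of_mem_erase hj)]

theorem Wt'_insert (z : ι → ℝ) (S : Finset ι) (i : ι) (x : ι → Bool) :
    Wt' z (insert i S) i x = Wt' z S i x := by
  unfold Wt'
  refine prod_congr rfl (fun j hj => ?_)
  simp [ne_of_mem_erase hj]

/-- Half of the sum of a branch against the reduced weight. -/
noncomputable def Eb (g : (ι → Bool) → ℝ) (z : ι → ℝ) (S : Finset ι) (i : ι) (b : Bool) : ℝ :=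
  (∑ x, g (Function.update x i b) * Wt' z S i x) / 2

theorem Dv_eq (g : (ι → Bool) → ℝ) (z : ι → ℝ) (S : Finset ι) (i : ι) :
    Dv g z S = ∑ b : Bool, (if i ∈ S then sg b / 2 else (1 + sg b * z i) / 2) * Eb g z S i b := by
  have h := sum_update (fun x => g x * Wt z S x) i
  unfold Dv Eb
  have : ∑ x, g x * Wt z S x = (∑ x : ι → Bool, ∑ b : Bool,
      g (Function.update x i b) * Wt z S (Function.update x i b)) / 2 := by rw [h]; ring
  rw [this, sum_comm, sum_div]
  refine sum_congr rfl (fun b _ => ?_)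
  simp_rw [Wt_update]
  rw [← mul_div_assoc, mul_sum]
  congr 1
  exact sum_congr rfl (fun x _ => by ring)

theorem Dv_branch (g : (ι → Bool) → ℝ) (z : ι → ℝ) (S : Finset ι) (i : ι) (hi : i ∉ S)
    (b : Bool) : Dv (fun x => g (Function.update x i b)) z S = Eb g z S i b := by
  rw [Dv_eq _ z S i]
  have : ∀ b' : Bool, Eb (fun x => g (Function.update x i b)) z S i b' = Eb g z S i b := by
    intro b'; unfold Eb; simp
  simp only [this, hi, if_false, Fintype.sum_bool, sg]
  simp; ring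

theorem Eb_insert (g : (ι → Bool) → ℝ) (z : ι → ℝ) (S : Finset ι) (i : ι) (b : Bool) :
    Eb g z (insert i S) i b = Eb g z S i b := by
  unfold Eb; simp_rw [Wt'_insert]

theorem sum_split (F : Finset ι → ℝ) (i : ι) :
    ∑ S, F S = ∑ A ∈ (univ.erase i).powerset, F A + ∑ A ∈ (univ.erase i).powerset, F (insert i A) := by
  rw [← sum_powerset_insert (notMem_erase i univ), insert_erase (mem_univ i), powerset_univ]

theorem Dv_const (c : ℝ) (z : ι → ℝ) (S : Finset ι) :
    Dv (fun _ => c) z S = if S = ∅ then c else 0 := by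
  unfold Dv Wt
  rw [← mul_sum]
  have := prod_univ_sum (fun _ : ι => (univ : Finset Bool))
    (fun i b => if i ∈ S then sg b / 2 else (1 + sg b * z i) / 2)
  rw [Fintype.piFinset_univ] at this
  rw [← this]
  split_ifs with h
  · subst h
    rw [prod_eq_one, mul_one]
    intro i _; simp [sg]; ring
  · obtain ⟨i, hi⟩ := nonempty_iff_ne_empty.2 h
    rw [prod_eq_zero (mem_univ i), mul_zero]
    simp [hi, sg]; ring

theorem two_point (t a b e : ℝ) (ht : |t| ≤ 1 / 2) (he : 1 ≤ e) :
    ∑ s : Bool, (1 + sg s * t) / 2 * (a + sg s / (1 + sg s * t) * b) ^ 4 ≤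
      (1 + 1 / e) * a ^ 4 + 432 * e * b ^ 4 := by
  obtain ⟨h1, h2⟩ := abs_le.1 ht
  have hp : 0 < 1 + t := by linarith
  have hm : 0 < 1 - t := by linarith
  set u := 1 / (1 + t) with hu
  set v := 1 / (1 - t) with hv
  have hu1 : u * (1 + t) = 1 := by rw [hu]; field_simp
  have hv1 : v * (1 - t) = 1 := by rw [hv]; field_simp
  have hu0 : 0 < u := by positivity
  have hv0 : 0 < v := by positivity
  have hu2 : u ≤ 2 := by rw [hu, div_le_iff₀ hp]; linarith
  have hv2 : v ≤ 2 := by rw [hv, div_le_iff₀ hm]; linarith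
  have e1 : ∑ s : Bool, (1 + sg s * t) / 2 * (a + sg s / (1 + sg s * t) * b) ^ 4 =
      (1 - t) / 2 * (a - v * b) ^ 4 + (1 + t) / 2 * (a + u * b) ^ 4 := by
    rw [Fintype.sum_bool]
    simp only [sg, if_true, Bool.false_eq_true, if_false, hu, hv]
    have : 1 + -1 * t = 1 - t := by ring
    rw [this, one_mul]
    congr 2; ring
  have e2 : (1 - t) / 2 * (a - v * b) ^ 4 + (1 + t) / 2 * (a + u * b) ^ 4 =
      a ^ 4 + 3 * (u + v) * a ^ 2 * b ^ 2 + 2 * (u ^ 2 - v ^ 2) * a * b ^ 3 +
        (u ^ 3 + v ^ 3) / 2 * b ^ 4 := by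
    have a1 : (1 - t) / 2 * (a - v * b) ^ 4 = (1 - t) / 2 * a ^ 4 - 2 * (v * (1 - t)) * a ^ 3 * b
        + 3 * (v * (1 - t)) * v * a ^ 2 * b ^ 2 - 2 * (v * (1 - t)) * v ^ 2 * a * b ^ 3
        + (v * (1 - t)) * v ^ 3 / 2 * b ^ 4 := by ring
    have a2 : (1 + t) / 2 * (a + u * b) ^ 4 = (1 + t) / 2 * a ^ 4 + 2 * (u * (1 + t)) * a ^ 3 * b
        + 3 * (u * (1 + t)) * u * a ^ 2 * b ^ 2 + 2 * (u * (1 + t)) * u ^ 2 * a * b ^ 3
        + (u * (1 + t)) * u ^ 3 / 2 * b ^ 4 := by ring
    rw [a1, a2, hu1, hv1]; ring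
  rw [e1, e2]
  have b1 : 3 * (u + v) * a ^ 2 * b ^ 2 ≤ 12 * (a ^ 2 * b ^ 2) := by
    have : 0 ≤ a ^ 2 * b ^ 2 := by positivity
    nlinarith
  have hw : |u ^ 2 - v ^ 2| ≤ 4 := by
    rw [abs_le]; constructor <;> nlinarith
  have b2 : 2 * (u ^ 2 - v ^ 2) * a * b ^ 3 ≤ 4 * (a ^ 2 * b ^ 2) + 4 * b ^ 4 := by
    obtain ⟨w1, w2⟩ := abs_le.1 hw
    have k1 : 0 ≤ (4 - (u ^ 2 - v ^ 2)) * (a * b + b ^ 2) ^ 2 := by
      apply mul_nonneg (by linarith) (sq_nonneg _)
    have k2 : 0 ≤ (4 + (u ^ 2 - v ^ 2)) * (a * b - b ^ 2) ^ 2 := by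
      apply mul_nonneg (by linarith) (sq_nonneg _)
    nlinarith
  have b3 : (u ^ 3 + v ^ 3) / 2 * b ^ 4 ≤ 8 * b ^ 4 := by
    have : u ^ 3 ≤ 2 ^ 3 := pow_le_pow_left₀ hu0.le hu2 3
    have : v ^ 3 ≤ 2 ^ 3 := pow_le_pow_left₀ hv0.le hv2 3
    have : 0 ≤ b ^ 4 := by positivity
    nlinarith
  have b4 : 16 * (a ^ 2 * b ^ 2) ≤ 1 / e * a ^ 4 + 64 * e * b ^ 4 := by
    have he0 : 0 < e := by linarith
    have : 0 ≤ (a ^ 2 - 8 * e * b ^ 2) ^ 2 / e := by positivity
    have e3 : (a ^ 2 - 8 * e * b ^ 2) ^ 2 / e =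
        1 / e * a ^ 4 - 16 * (a ^ 2 * b ^ 2) + 64 * e * b ^ 4 := by field_simp; ring
    linarith
  have : 0 ≤ b ^ 4 := by positivity
  nlinarith

theorem growth_aux (z : ι → ℝ) (hz : ∀ i, |z i| ≤ 1 / 2) (e : ℝ) (he : 1 ≤ e) :
    ∀ (d : ℕ) (g : (ι → Bool) → ℝ), DT d g → (∀ x, |g x| ≤ 1) → ∀ c : Finset ι → ℝ,
      (∑ S, c S * Dv g z S) ^ 4 ≤ (1 + 1 / e) ^ d * ∑ S, (432 * e) ^ S.card * c S ^ 4 := by
  have he0 : 0 < e := by linarith
  refine DT.induct (P := fun d g => (∀ x, |g x| ≤ 1) → ∀ c : Finset ι → ℝ,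
      (∑ S, c S * Dv g z S) ^ 4 ≤ (1 + 1 / e) ^ d * ∑ S, (432 * e) ^ S.card * c S ^ 4) ?_ ?_
  · intro d g b hb hg c
    have hgb : g = fun _ => b := funext hb
    have hb1 : |b| ≤ 1 := by have := hg (fun _ => true); rwa [hb] at this
    subst hgb
    simp_rw [Dv_const]
    have : ∑ S : Finset ι, c S * (if S = ∅ then b else 0) = c ∅ * b := by
      simp [mul_ite]
    rw [this]
    have h1 : c ∅ ^ 4 ≤ ∑ S : Finset ι, (432 * e) ^ S.card * c S ^ 4 := by
      have := single_le_sum (f := fun S : Finset ι => (432 * e) ^ S.card * c S ^ 4)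
        (fun S _ => by positivity) (mem_univ ∅)
      simpa using this
    have h2 : b ^ 4 ≤ 1 := by
      have : |b| ^ 4 ≤ 1 := pow_le_one₀ (abs_nonneg b) hb1
      rwa [← abs_pow, abs_of_nonneg (by positivity)] at this
    have h3 : (1 : ℝ) ≤ (1 + 1 / e) ^ d := one_le_pow₀ (by have : 0 < 1 / e := by positivity
                                                           linarith)
    have h4 : 0 ≤ c ∅ ^ 4 := by positivity
    calc (c ∅ * b) ^ 4 = c ∅ ^ 4 * b ^ 4 := by ring
      _ ≤ c ∅ ^ 4 := by nlinarith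
      _ ≤ _ := by nlinarith
  · intro d g i ih hg c
    set P := (univ.erase i).powerset with hP
    have hPi : ∀ A ∈ P, i ∉ A := fun A hA hi => by
      have := mem_powerset.1 hA hi; simp at this
    have hpos : ∀ b : Bool, 0 < 1 + sg b * z i := by
      intro b; obtain ⟨h1, h2⟩ := abs_le.1 (hz i); cases b <;> simp [sg] <;> linarith
    set cb : Bool → Finset ι → ℝ := fun b A =>
      if i ∈ A then 0 else c A + sg b / (1 + sg b * z i) * c (insert i A) with hcb
    set L : Bool → ℝ := fun b => ∑ S, cb b S * Dv (fun x => g (Function.update x i b)) z S with hL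
    have hLb : ∀ b, L b = ∑ A ∈ P,
        (c A + sg b / (1 + sg b * z i) * c (insert i A)) * Eb g z A i b := by
      intro b
      simp only [hL]
      rw [sum_split _ i]
      have : ∑ A ∈ P, cb b (insert i A) *
          Dv (fun x => g (Function.update x i b)) z (insert i A) = 0 :=
        sum_eq_zero (fun A _ => by simp [hcb])
      rw [this, add_zero]
      refine sum_congr rfl (fun A hA => ?_)
      rw [Dv_branch g z A i (hPi A hA)]
      simp [hcb, hPi A hA]
    have key : ∑ S, c S * Dv g z S = ∑ b : Bool, (1 + sg b * z i) / 2 * L b := by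
      rw [sum_split _ i, ← sum_add_distrib]
      simp_rw [hLb, mul_sum]
      rw [sum_comm]
      refine sum_congr rfl (fun A hA => ?_)
      rw [Dv_eq g z A i, Dv_eq g z (insert i A) i]
      simp only [hPi A hA, if_false, mem_insert_self, if_true, Eb_insert, mul_sum,
        ← sum_add_distrib]
      refine sum_congr rfl (fun b _ => ?_)
      have := (hpos b).ne'
      field_simp
    have conv : (∑ b : Bool, (1 + sg b * z i) / 2 * L b) ^ 4 ≤
        ∑ b : Bool, (1 + sg b * z i) / 2 * L b ^ 4 := by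
      have hc0 : ConvexOn ℝ Set.univ (fun x : ℝ => x ^ 4) := Even.convexOn_pow (by decide)
      have hc := hc0.2 (Set.mem_univ (L true)) (Set.mem_univ (L false))
        (show 0 ≤ (1 + sg true * z i) / 2 by have := hpos true; positivity)
        (show 0 ≤ (1 + sg false * z i) / 2 by have := hpos false; positivity)
        (by simp [sg]; ring)
      simpa [Fintype.sum_bool] using hc
    have hIH : ∀ b, L b ^ 4 ≤ (1 + 1 / e) ^ d * ∑ A ∈ P, (432 * e) ^ A.card *
        (c A + sg b / (1 + sg b * z i) * c (insert i A)) ^ 4 := by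
      intro b
      have := ih b (fun x => hg _) (cb b)
      refine this.trans (le_of_eq ?_)
      congr 1
      rw [sum_split _ i]
      have : ∑ A ∈ P, (432 * e) ^ (insert i A).card * cb b (insert i A) ^ 4 = 0 :=
        sum_eq_zero (fun A _ => by simp [hcb])
      rw [this, add_zero]
      refine sum_congr rfl (fun A hA => ?_)
      simp [hcb, hPi A hA]
    have hθ : (0 : ℝ) ≤ (1 + 1 / e) ^ d := by positivity
    rw [key]
    refine conv.trans ?_
    calc ∑ b : Bool, (1 + sg b * z i) / 2 * L b ^ 4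
        ≤ ∑ b : Bool, (1 + sg b * z i) / 2 * ((1 + 1 / e) ^ d * ∑ A ∈ P, (432 * e) ^ A.card *
          (c A + sg b / (1 + sg b * z i) * c (insert i A)) ^ 4) :=
          sum_le_sum (fun b _ => mul_le_mul_of_nonneg_left (hIH b) (by have := hpos b; positivity))
      _ = (1 + 1 / e) ^ d * ∑ A ∈ P, (432 * e) ^ A.card * ∑ b : Bool, (1 + sg b * z i) / 2 *
          (c A + sg b / (1 + sg b * z i) * c (insert i A)) ^ 4 := by
          simp_rw [mul_sum]
          rw [sum_comm]
          exact sum_congr rfl (fun A _ => sum_congr rfl (fun b _ => by ring))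
      _ ≤ (1 + 1 / e) ^ d * ∑ A ∈ P, (432 * e) ^ A.card *
          ((1 + 1 / e) * c A ^ 4 + 432 * e * c (insert i A) ^ 4) := by
          refine mul_le_mul_of_nonneg_left (sum_le_sum (fun A _ => ?_)) hθ
          exact mul_le_mul_of_nonneg_left (two_point _ _ _ e (hz i) he) (by positivity)
      _ ≤ (1 + 1 / e) ^ d * ((1 + 1 / e) * ∑ S, (432 * e) ^ S.card * c S ^ 4) := by
          refine mul_le_mul_of_nonneg_left ?_ hθ
          rw [sum_split _ i, ← sum_add_distrib, mul_sum]
          refine sum_le_sum (fun A hA => ?_)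
          rw [card_insert_of_notMem (hPi A hA), pow_succ (432 * e)]
          have h1 : 0 ≤ (432 * e) ^ A.card * (432 * e) * c (insert i A) ^ 4 := by positivity
          have h2 : 0 < 1 / e := by positivity
          nlinarith
      _ = _ := by ring

theorem one_add_inv_pow_le (n : ℕ) : (1 + 1 / (n : ℝ)) ^ n ≤ 3 := by
  have h1 : (1 + 1 / (n : ℝ)) ^ n ≤ Real.exp (1 / (n : ℝ)) ^ n :=
    pow_le_pow_left₀ (by positivity) (by have := Real.add_one_le_exp (1 / (n : ℝ)); linarith) n
  rw [← Real.exp_nat_mul] at h1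
  have h2 : (n : ℝ) * (1 / n) ≤ 1 := by
    rcases Nat.eq_zero_or_pos n with h | h
    · simp [h]
    · rw [mul_one_div_cancel (by positivity)]
  have h3 := Real.exp_le_exp.2 h2
  have := Real.exp_one_lt_d9
  linarith

/-- Weighted sum of all derivatives of order at least `k`. -/
theorem growth (z : ι → ℝ) (hz : ∀ i, |z i| ≤ 1 / 2) (d : ℕ) (hd : 1 ≤ d)
    (g : (ι → Bool) → ℝ) (hDT : DT d g) (hg : ∀ x, |g x| ≤ 1) (η : ℝ) (hη : 0 ≤ η) (k : ℕ)
    (hn : 1 ≤ Fintype.card ι) (hu : (Fintype.card ι : ℝ) * (432 * d * η ^ 4) ≤ 1) :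
    (∑ S ∈ univ.filter (fun S : Finset ι => k ≤ S.card), η ^ S.card * |Dv g z S|) ^ 4 ≤
      9 * ((Fintype.card ι : ℝ) * (432 * d * η ^ 4)) ^ k := by
  set n := Fintype.card ι with hnd
  have hn0 : (0 : ℝ) < n := by exact_mod_cast hn
  have hd1 : (1 : ℝ) ≤ d := by exact_mod_cast hd
  set c : Finset ι → ℝ := fun S =>
    if k ≤ S.card then η ^ S.card * SignType.sign (Dv g z S) else 0 with hc
  have h := growth_aux z hz d hd1 d g hDT hg c
  have e1 : ∑ S, c S * Dv g z S =
      ∑ S ∈ univ.filter (fun S : Finset ι => k ≤ S.card), η ^ S.card * |Dv g z S| := by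
    rw [sum_filter]
    refine sum_congr rfl (fun S _ => ?_)
    simp only [hc]
    split_ifs
    · rw [mul_assoc, sign_mul_self]
    · simp
  rw [e1] at h
  refine h.trans ?_
  set u := 432 * d * η ^ 4 with hu'
  have hu0 : 0 ≤ u := by positivity
  have e2 : ∑ S : Finset ι, (432 * (d : ℝ)) ^ S.card * c S ^ 4 ≤
      ∑ S : Finset ι, (n * u) ^ k * (1 / (n : ℝ)) ^ S.card := by
    refine sum_le_sum (fun S _ => ?_)
    simp only [hc]
    split_ifs with hk
    · have hs : ((SignType.sign (Dv g z S) : ℝ)) ^ 4 ≤ 1 := by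
        rcases lt_trichotomy (Dv g z S) 0 with h | h | h
        · simp [sign_neg h]; norm_num
        · simp [h]
        · simp [sign_pos h]
      calc (432 * (d : ℝ)) ^ S.card * (η ^ S.card * (SignType.sign (Dv g z S) : ℝ)) ^ 4
          = u ^ S.card * ((SignType.sign (Dv g z S) : ℝ)) ^ 4 := by
            rw [hu', mul_pow (432 * (d : ℝ)) (η ^ 4), mul_pow (η ^ S.card), ← pow_mul, ← pow_mul,
              mul_comm S.card 4]
            ring
        _ ≤ u ^ S.card := by
            have : 0 ≤ u ^ S.card := by positivity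
            nlinarith
        _ = (n * u) ^ S.card * (1 / (n : ℝ)) ^ S.card := by
            rw [← mul_pow]; congr 1; field_simp
        _ ≤ (n * u) ^ k * (1 / (n : ℝ)) ^ S.card :=
            mul_le_mul_of_nonneg_right (pow_le_pow_of_le_one (by positivity) hu hk) (by positivity)
    · simp; positivity
  have e3 : ∑ S : Finset ι, (1 / (n : ℝ)) ^ S.card = (1 + 1 / (n : ℝ)) ^ n := by
    have h2 := Finset.prod_one_add (s := (univ : Finset ι)) (f := fun _ => (1 / (n : ℝ)))
    rw [prod_const, card_univ, powerset_univ] at h2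
    rw [h2]
    simp
  rw [← mul_sum, e3] at e2
  have h3 := one_add_inv_pow_le n
  have h4 := one_add_inv_pow_le d
  have h5 : 0 ≤ (n * u) ^ k := by positivity
  have h6 : 0 ≤ ∑ S : Finset ι, (432 * (d : ℝ)) ^ S.card * c S ^ 4 :=
    sum_nonneg (fun S _ => by positivity)
  calc (1 + 1 / (d : ℝ)) ^ d * ∑ S : Finset ι, (432 * (d : ℝ)) ^ S.card * c S ^ 4
      ≤ 3 * ((n * u) ^ k * 3) := by
        apply mul_le_mul h4 (e2.trans (mul_le_mul_of_nonneg_left h3 h5)) h6 (by norm_num)
    _ = 9 * (n * u) ^ k := by ring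

/-- Multilinear expansion: moving the mean vector inside a set `B` disjoint from `S`. -/
theorem Dv_shift (g : (ι → Bool) → ℝ) (z z' : ι → ℝ) (S B : Finset ι) (hSB : Disjoint S B)
    (h : ∀ i, i ∉ S → i ∉ B → z' i = z i) :
    Dv g z' S = ∑ A ∈ B.powerset, (∏ i ∈ A, (z' i - z i)) * Dv g z (S ∪ A) := by
  have hW : ∀ x, Wt z' S x = ∑ A ∈ B.powerset, (∏ i ∈ A, (z' i - z i)) * Wt z (S ∪ A) x := by
    intro x
    unfold Wt
    rw [← prod_mul_prod_compl B]
    have e1 : ∏ i ∈ B, (if i ∈ S then sg (x i) / 2 else (1 + sg (x i) * z' i) / 2) =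
        ∏ i ∈ B, ((z' i - z i) * (sg (x i) / 2) + (1 + sg (x i) * z i) / 2) := by
      refine prod_congr rfl (fun i hi => ?_)
      rw [if_neg (fun hs => disjoint_left.1 hSB hs hi)]; ring
    rw [e1, prod_add, sum_mul]
    refine sum_congr rfl (fun A hA => ?_)
    have hAB := mem_powerset.1 hA
    rw [← prod_mul_prod_compl B (fun i => if i ∈ S ∪ A then sg (x i) / 2 else (1 + sg (x i) * z i) / 2),
      ← prod_sdiff hAB, prod_mul_distrib]
    have e2 : ∏ i ∈ B \ A, (if i ∈ S ∪ A then sg (x i) / 2 else (1 + sg (x i) * z i) / 2) =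
        ∏ i ∈ B \ A, (1 + sg (x i) * z i) / 2 := by
      refine prod_congr rfl (fun i hi => ?_)
      obtain ⟨h1, h2⟩ := mem_sdiff.1 hi
      rw [if_neg]
      simp [h2, fun hs => disjoint_left.1 hSB hs h1]
      exact fun hs => disjoint_left.1 hSB hs h1
    have e3 : ∏ i ∈ A, (if i ∈ S ∪ A then sg (x i) / 2 else (1 + sg (x i) * z i) / 2) =
        ∏ i ∈ A, sg (x i) / 2 := by
      refine prod_congr rfl (fun i hi => ?_)
      rw [if_pos (mem_union_right _ hi)]
    have e4 : ∏ i ∈ Bᶜ, (if i ∈ S ∪ A then sg (x i) / 2 else (1 + sg (x i) * z i) / 2) =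
        ∏ i ∈ Bᶜ, (if i ∈ S then sg (x i) / 2 else (1 + sg (x i) * z' i) / 2) := by
      refine prod_congr rfl (fun i hi => ?_)
      have hiB : i ∉ B := mem_compl.1 hi
      have hiA : i ∉ A := fun h' => hiB (hAB h')
      by_cases hs : i ∈ S
      · simp [hs]
      · simp [hs, hiA, h i hs hiB]
    rw [e2, e3, e4]; ring
  unfold Dv
  simp_rw [hW, mul_sum]
  rw [sum_comm]
  exact sum_congr rfl (fun A _ => sum_congr rfl (fun x _ => by ring))

end

end Vale.Agent.P362
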