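import Vale.Agent.P362.ForrChain

/-! The chained correlation value and its mean under the chained distribution. -/

namespace Vale.Agent.P362

open Finset

section
variable {V : Type} [Fintype V] [DecidableEq V] {K : ℕ}

/-- Entry of `y` in block `j`. -/
def yF (y : Fin (K + 1) × V → ℝ) (j : ℕ) (l : V) : ℝ :=
  if hj : j < K + 1 then y (⟨j, hj⟩, l) else 1

/-- Alternately multiply by the blocks of `y` and by the matrix `h`. -/
noncomputable def vecF (h : V → V → ℝ) (y : Fin (K + 1) × V → ℝ) : ℕ → V → ℝ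
  | 0, l => yF y 0 l
  | j + 1, l => yF y (j + 1) l * ∑ i, h l i * vecF h y j i

/-- The chained correlation value of a bit string. -/
noncomputable def PF (K : ℕ) (h : V → V → ℝ) (x : Fin (K + 1) × V → Bool) : ℝ :=
  (∑ l, vecF h (fun u => sg (x u)) K l) / Fintype.card V

omit [DecidableEq V] in
theorem vecF_congr (h : V → V → ℝ) (y y' : Fin (K + 1) × V → ℝ) (j : ℕ)
    (e : ∀ u : Fin (K + 1) × V, u.1.val ≤ j → y u = y' u) (l : V) :
    vecF h y j l = vecF h y' j l := by
  induction j generalizing l with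
  | zero => simp only [vecF, yF]; split_ifs; exacts [e _ le_rfl, rfl]
  | succ j ih =>
    simp only [vecF, yF]
    rw [sum_congr rfl (fun i _ => by rw [ih (fun u hu => e u (by omega)) i])]
    split_ifs; exacts [by rw [e _ le_rfl], rfl]

theorem Dv_sg_mul {ι : Type} [Fintype ι] [DecidableEq ι] (F : (ι → Bool) → ℝ) (z : ι → ℝ) (u : ι)
    (hF : ∀ x b, F (Function.update x u b) = F x) :
    Dv (fun x => sg (x u) * F x) z ∅ = z u * Dv F z ∅ := by
  rw [Dv_eq _ z ∅ u, Dv_eq F z ∅ u]
  have e1 : ∀ b, Eb (fun x => sg (x u) * F x) z ∅ u b = sg b * Eb F z ∅ u true := by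
    intro b; unfold Eb
    simp only [Function.update_self, hF]
    rw [← mul_div_assoc, mul_sum]
    congr 1
    exact sum_congr rfl (fun x _ => by ring)
  have e2 : ∀ b, Eb F z ∅ u b = Eb F z ∅ u true := by
    intro b; unfold Eb; simp only [hF]
  simp only [e1, notMem_empty, if_false, Fintype.sum_bool, e2 false]
  simp only [sg]
  simp; ring

theorem Dv_lin {ι κ : Type} [Fintype ι] [DecidableEq ι] [Fintype κ] (c : κ → ℝ)
    (F : κ → (ι → Bool) → ℝ) (z : ι → ℝ) :
    Dv (fun x => ∑ i, c i * F i x) z ∅ = ∑ i, c i * Dv (F i) z ∅ := by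
  unfold Dv
  simp_rw [sum_mul, mul_sum]
  rw [sum_comm]
  exact sum_congr rfl (fun i _ => sum_congr rfl (fun x _ => by ring))

theorem Dv_vecF (h : V → V → ℝ) (z : Fin (K + 1) × V → ℝ) (j : ℕ) (hj : j ≤ K) (l : V) :
    Dv (fun x => vecF h (fun u => sg (x u)) j l) z ∅ = vecF h z j l := by
  induction j generalizing l with
  | zero =>
    have := Dv_sg_mul (fun _ => 1) z ((⟨0, by omega⟩ : Fin (K + 1)), l) (fun _ _ => rfl)
    simp only [Dv_const, if_true, mul_one] at this
    simp only [vecF, yF, Nat.zero_lt_succ, dif_pos]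
    exact this
  | succ j ih =>
    have hj' : j + 1 < K + 1 := by omega
    have := Dv_sg_mul (fun x => ∑ i, h l i * vecF h (fun u => sg (x u)) j i) z
      ((⟨j + 1, hj'⟩ : Fin (K + 1)), l) (fun x b => by
        refine sum_congr rfl (fun i _ => ?_)
        rw [vecF_congr h _ (fun u => sg (x u)) j]
        intro u hu
        rw [Function.update_of_ne]
        rintro rfl
        simp at hu)
    simp only [vecF, yF, hj', dif_pos]
    rw [this, Dv_lin]
    congr 1
    exact sum_congr rfl (fun i _ => by rw [ih (by omega)])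

/-- The vector of the mean point without its last sign factor. -/
noncomputable def UF (h : V → V → ℝ) (s : ℝ) (ε : Fin K → V → Bool) : ℕ → V → ℝ
  | 0, _ => s / 2
  | j + 1, l => bF h s ε (j + 1) l * ∑ i, h l i * (aF ε j i * UF h s ε j i)

omit [DecidableEq V] in
theorem vecF_zF (h : V → V → ℝ) (s : ℝ) (ε : Fin K → V → Bool) (j : ℕ) (hj : j ≤ K) (l : V) :
    vecF h (zF h s ε) j l = aF ε j l * UF h s ε j l := by
  induction j generalizing l with
  | zero => simp only [vecF, yF, Nat.zero_lt_succ, dif_pos, zF, UF, bF]; ring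
  | succ j ih =>
    have hj' : j + 1 < K + 1 := by omega
    simp only [vecF, yF, hj', dif_pos, zF, UF]
    rw [sum_congr rfl (fun i _ => by rw [ih (by omega) i])]; ring

omit [DecidableEq V] in
theorem UF_congr (h : V → V → ℝ) (s : ℝ) (ε ε' : Fin K → V → Bool) (j : ℕ)
    (e : ∀ j' i, j' < j → aF ε j' i = aF ε' j' i) (l : V) : UF h s ε j l = UF h s ε' j l := by
  induction j generalizing l with
  | zero => rfl
  | succ j ih =>
    simp only [UF]
    rw [bF_congr h s ε ε' (j + 1) l (fun j' i hj => e j' i (by omega))]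
    congr 1
    exact sum_congr rfl (fun i _ => by
      rw [e j i (by omega), ih (fun j' i hj => e j' i (by omega))])

theorem indep_sum {α β : Type} [Fintype α] [DecidableEq α] [Fintype β] (a : α) (F : β → ℝ)
    (G : (α → β) → ℝ) (hG : ∀ ε e, G (Function.update ε a e) = G ε) :
    (∑ ε : α → β, F (ε a) * G ε) * Fintype.card β = (∑ e, F e) * ∑ ε, G ε := by
  have hinv : Function.Involutive (fun p : (α → β) × β => (Function.update p.1 a p.2, p.1 a)) := by
    intro p; ext <;> simp
  have h1 := Equiv.sum_comp hinv.toPerm (fun p : (α → β) × β => F (p.1 a) * G p.1)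
  simp only [Function.Involutive.coe_toPerm, Function.update_self, hG] at h1
  rw [Fintype.sum_prod_type, Fintype.sum_prod_type] at h1
  simp only [sum_const, card_univ, nsmul_eq_mul] at h1
  rw [sum_mul_sum, sum_comm, h1, ← mul_sum]; ring

theorem sum_sg_sin (t : V → ℝ) (i : V) :
    ∑ e : V → Bool, sg (e i) * Real.sin (∑ i', t i' * sg (e i')) =
      2 ^ Fintype.card V * (Real.sin (t i) * ∏ i' ∈ univ.erase i, Real.cos (t i')) := by
  have h1 := prod_univ_sum (fun _ : V => (univ : Finset Bool))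
    (fun i' b => (if i' = i then (sg b : ℂ) else 1) * Complex.exp ((t i' * sg b : ℝ) * Complex.I))
  rw [Fintype.piFinset_univ] at h1
  have h2 : ∀ e : V → Bool, ∏ i', (if i' = i then (sg (e i') : ℂ) else 1) *
      Complex.exp ((t i' * sg (e i') : ℝ) * Complex.I) =
      (sg (e i) : ℂ) * Complex.exp ((∑ i', t i' * sg (e i') : ℝ) * Complex.I) := by
    intro e
    rw [prod_mul_distrib, prod_ite_eq', if_pos (mem_univ _), ← Complex.exp_sum, ← sum_mul]
    push_cast; rfl
  have h3 : ∀ i', ∑ b : Bool, (if i' = i then (sg b : ℂ) else 1) *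
      Complex.exp ((t i' * sg b : ℝ) * Complex.I) =
      if i' = i then 2 * (Real.sin (t i') : ℂ) * Complex.I else 2 * (Real.cos (t i') : ℂ) := by
    intro i'
    rw [Fintype.sum_bool]
    simp only [sg, if_true, Bool.false_eq_true, if_false, Complex.exp_mul_I, mul_neg, mul_one]
    split_ifs <;> (push_cast; simp [Complex.cos_neg, Complex.sin_neg]; try ring_nf)
  simp only [h2, h3] at h1
  rw [← mul_prod_erase univ _ (mem_univ i), if_pos rfl,
    prod_congr rfl (fun i' hi' => if_neg (ne_of_mem_erase hi')), prod_mul_distrib, prod_const,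
    card_erase_of_mem (mem_univ i), card_univ] at h1
  have h4 := congrArg Complex.im h1
  rw [Complex.im_sum] at h4
  simp only [Complex.im_ofReal_mul, Complex.exp_ofReal_mul_I_im] at h4
  rw [← h4]
  have hpos : 0 < Fintype.card V := Fintype.card_pos_iff.2 ⟨i⟩
  have e : (2 : ℂ) * (Real.sin (t i) : ℂ) * Complex.I * (2 ^ (Fintype.card V - 1) *
      ∏ i' ∈ univ.erase i, (Real.cos (t i') : ℂ)) =
      ((2 ^ Fintype.card V * (Real.sin (t i) * ∏ i' ∈ univ.erase i, Real.cos (t i')) : ℝ) : ℂ) *
        Complex.I := by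
    obtain ⟨n, hn⟩ := Nat.exists_eq_succ_of_ne_zero hpos.ne'
    rw [hn]; push_cast; simp only [Nat.succ_sub_one, pow_succ]; ring
  rw [e, Complex.im_ofReal_mul, Complex.I_im, mul_one]

/-- The gain per link. -/
noncomputable def gainF (N : ℕ) (η : ℝ) : ℝ := N * (η * Real.sin η * Real.cos η ^ (N - 1) / 2)

theorem link_mean (h : V → V → ℝ) (η : ℝ) (hh : ∀ l i, h l i = η ∨ h l i = -η) (l i : V) :
    ∑ e : V → Bool, Real.sin (∑ i', h l i' * sg (e i')) / 2 * (h l i * sg (e i)) =
      2 ^ Fintype.card V * (η * Real.sin η * Real.cos η ^ (Fintype.card V - 1) / 2) := by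
  have h1 := sum_sg_sin (h l) i
  have h2 : ∏ i' ∈ univ.erase i, Real.cos (h l i') = Real.cos η ^ (Fintype.card V - 1) := by
    rw [prod_congr rfl (g := fun _ => Real.cos η), prod_const, card_erase_of_mem (mem_univ i),
      card_univ]
    intro i' _
    rcases hh l i' with e | e <;> simp [e]
  have h3 : h l i * Real.sin (h l i) = η * Real.sin η := by
    rcases hh l i with e | e <;> simp [e]
  have h4 : ∑ e : V → Bool, Real.sin (∑ i', h l i' * sg (e i')) / 2 * (h l i * sg (e i)) =
      h l i / 2 * ∑ e : V → Bool, sg (e i) * Real.sin (∑ i', h l i' * sg (e i')) := by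
    rw [mul_sum]; exact sum_congr rfl (fun e _ => by ring)
  rw [h4, h1, h2, ← h3]; ring

theorem UF_mean (h : V → V → ℝ) (η : ℝ) (hh : ∀ l i, h l i = η ∨ h l i = -η) (s : ℝ) (j : ℕ)
    (hj : j ≤ K) (l : V) :
    ∑ ε : Fin K → V → Bool, UF h s ε j l =
      (Fintype.card (Fin K → V → Bool) : ℕ) * (s / 2 * gainF (Fintype.card V) η ^ j) := by
  induction j generalizing l with
  | zero => simp [UF]
  | succ j ih =>
    have hjK : j < K := by omega
    have hc : ((Fintype.card (V → Bool) : ℕ) : ℝ) = 2 ^ Fintype.card V := by simp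
    have key : ∀ i, ∑ ε : Fin K → V → Bool, bF h s ε (j + 1) l * (h l i * (aF ε j i * UF h s ε j i)) =
        (η * Real.sin η * Real.cos η ^ (Fintype.card V - 1) / 2) *
          ∑ ε : Fin K → V → Bool, UF h s ε j i := by
      intro i
      have := indep_sum (⟨j, hjK⟩ : Fin K)
        (fun e : V → Bool => Real.sin (∑ i', h l i' * sg (e i')) / 2 * (h l i * sg (e i)))
        (fun ε => UF h s ε j i) (fun ε e => UF_congr h s _ _ j (fun j' i' hj' => by
          unfold aF
          split_ifs with h'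
          · rw [Function.update_of_ne]
            intro e; have := congrArg Fin.val e; simp at this; omega
          · rfl) i)
      rw [link_mean h η hh, hc] at this
      have hp : (0 : ℝ) < 2 ^ Fintype.card V := by positivity
      refine mul_right_cancel₀ hp.ne' ?_
      calc _ = (∑ ε : Fin K → V → Bool, Real.sin (∑ i', h l i' * sg (ε ⟨j, hjK⟩ i')) / 2 *
            (h l i * sg (ε ⟨j, hjK⟩ i)) * UF h s ε j i) * 2 ^ Fintype.card V := by
            congr 1
            refine sum_congr rfl (fun ε _ => ?_)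
            simp only [bF, aF, hjK, dif_pos]; ring
        _ = _ := by rw [this]; ring
    simp only [UF, mul_sum]
    rw [sum_comm]
    simp only [key, ih (by omega), sum_const, card_univ, nsmul_eq_mul, gainF]
    ring

theorem PF_mean [Nonempty V] (h : V → V → ℝ) (η : ℝ) (hh : ∀ l i, h l i = η ∨ h l i = -η) (s : ℝ) :
    ∑ x, muF K h s x * PF K h x = s / 2 * gainF (Fintype.card V) η ^ K := by
  rw [muF_sum]
  have hN : (0 : ℝ) < Fintype.card V := by exact_mod_cast Fintype.card_pos
  have hC : (0 : ℝ) < (Fintype.card (Fin K → V → Bool) : ℕ) := by exact_mod_cast Fintype.card_pos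
  have e1 : ∀ ε : Fin K → V → Bool, Dv (PF K h) (zF h s ε) ∅ =
      ∑ l, (1 / Fintype.card V : ℝ) * UF h s ε K l := by
    intro ε
    have : PF K h = fun x => ∑ l, (1 / Fintype.card V : ℝ) * vecF h (fun u => sg (x u)) K l := by
      funext x; unfold PF; rw [← mul_sum]; ring
    rw [this, Dv_lin]
    refine sum_congr rfl (fun l _ => ?_)
    rw [Dv_vecF h _ K le_rfl, vecF_zF h s ε K le_rfl]
    simp [aF]
  simp only [e1]
  rw [sum_comm]
  simp only [← mul_sum, UF_mean h η hh s K le_rfl, sum_const, card_univ, nsmul_eq_mul]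
  field_simp

theorem gainF_ge (N : ℕ) (hN : 1 ≤ N) (η : ℝ) (hη : 0 < η) (h2 : N * η ^ 2 = 1) :
    1 / 8 ≤ gainF N η := by
  have hN1 : (1 : ℝ) ≤ N := by exact_mod_cast hN
  have hη2 : η ^ 2 ≤ 1 := by nlinarith [sq_nonneg η]
  have hη1 : η ≤ 1 := by nlinarith
  have hpi := Real.pi_gt_three
  have hpi4 := Real.pi_le_four
  have hs : η / 2 ≤ Real.sin η := by
    have := Real.mul_le_sin hη.le (by linarith)
    have h3 : 1 / 2 ≤ 2 / Real.pi := by rw [div_le_div_iff₀ (by norm_num) (by linarith)]; linarith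
    nlinarith
  have hc : 1 + (-(η ^ 2 / 2)) ≤ Real.cos η := by
    have := Real.one_sub_sq_div_two_le_cos (x := η); linarith
  have hb : 1 / 2 ≤ Real.cos η ^ (N - 1) := by
    have h3 := one_add_mul_le_pow (a := -(η ^ 2 / 2)) (by linarith) (N - 1)
    have h4 : (1 + (-(η ^ 2 / 2))) ^ (N - 1) ≤ Real.cos η ^ (N - 1) :=
      pow_le_pow_left₀ (by linarith) hc _
    have h5 : ((N - 1 : ℕ) : ℝ) ≤ N := by exact_mod_cast Nat.sub_le N 1
    have h6 : ((N - 1 : ℕ) : ℝ) * η ^ 2 ≤ 1 := by
      rw [← h2]; exact mul_le_mul_of_nonneg_right h5 (by positivity)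
    linarith
  unfold gainF
  have h7 : η * (η / 2) * (1 / 2) ≤ η * Real.sin η * Real.cos η ^ (N - 1) :=
    mul_le_mul (mul_le_mul_of_nonneg_left hs hη.le) hb (by norm_num) (by nlinarith)
  nlinarith

omit [DecidableEq V] in
theorem orth_normsq [DecidableEq V] (h : V → V → ℝ)
    (ho : ∀ i i', ∑ l, h l i * h l i' = if i = i' then 1 else 0) (v : V → ℝ) :
    ∑ l, (∑ i, h l i * v i) ^ 2 = ∑ i, v i ^ 2 := by
  have : ∀ l, (∑ i, h l i * v i) ^ 2 = ∑ i, ∑ i', v i * v i' * (h l i * h l i') := by
    intro l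
    rw [sq, sum_mul_sum]
    exact sum_congr rfl (fun i _ => sum_congr rfl (fun i' _ => by ring))
  simp only [this]
  rw [sum_comm]
  refine sum_congr rfl (fun i _ => ?_)
  rw [sum_comm]
  simp only [← mul_sum, ho, mul_ite, mul_one, mul_zero, sum_ite_eq, mem_univ, if_true]
  ring

omit [Fintype V] [DecidableEq V] in
theorem yF_sg_sq (x : Fin (K + 1) × V → Bool) (j : ℕ) (l : V) :
    yF (fun u => sg (x u)) j l ^ 2 = 1 := by
  unfold yF; split_ifs
  · rw [sq, sg_sq]
  · simp

theorem vecF_normsq (h : V → V → ℝ)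
    (ho : ∀ i i', ∑ l, h l i * h l i' = if i = i' then 1 else 0)
    (x : Fin (K + 1) × V → Bool) (j : ℕ) :
    ∑ l, vecF h (fun u => sg (x u)) j l ^ 2 = Fintype.card V := by
  induction j with
  | zero => simp [vecF, yF_sg_sq]
  | succ j ih =>
    simp only [vecF, mul_pow, yF_sg_sq, one_mul]
    rw [orth_normsq h ho, ih]

theorem PF_abs [Nonempty V] (h : V → V → ℝ)
    (ho : ∀ i i', ∑ l, h l i * h l i' = if i = i' then 1 else 0)
    (x : Fin (K + 1) × V → Bool) : |PF K h x| ≤ 1 := by
  have hN : (0 : ℝ) < Fintype.card V := by exact_mod_cast Fintype.card_pos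
  have h1 := sq_sum_le_card_mul_sum_sq (s := univ) (f := fun l => vecF h (fun u => sg (x u)) K l)
  rw [vecF_normsq h ho, card_univ] at h1
  unfold PF
  rw [abs_div, abs_of_pos hN, div_le_one hN]
  exact abs_le_of_sq_le_sq' (by nlinarith) hN.le |> fun h => abs_le.2 h

end

end Vale.Agent.P362
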