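import Vale.Agent.P362.QDist

/-! A dual adversary solution gives a quantum algorithm. -/

namespace Vale.Agent.P362

open Finset

theorem quantAlg_of_ideal' {n : ℕ} {Z : Type} [Fintype Z] [DecidableEq Z]
    (f : (Fin n → Bool) → Bool) (T : ℕ) (s : Fin n × Bool × Z)
    (out : Z → Bool) (ξ : Fin n → Bool → Z → ℝ) (hξ : ∑ i, ∑ β, ∑ z, ξ i β z ^ 2 = 1)
    (Φ : ℕ → (Fin n → Bool) → Fin n → Bool → Z → ℝ)
    (hG : ∀ t < T, ∀ x y, ∑ i, ∑ β, ∑ z, Φ t x i (xor β (x i)) z * Φ t y i (xor β (y i)) z =
      ∑ i, ∑ β, ∑ z, Φ (t + 1) x i β z * Φ (t + 1) y i β z)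
    (h0 : ∀ x, ∑ i, ∑ β, ∑ z, (ξ i β z - Φ 0 x i β z) ^ 2 ≤ 1 / 12)
    (hT : ∀ x, ∑ i, ∑ β, ∑ z, (if out z = f x then 0 else Φ T x i β z ^ 2) ≤ 1 / 12) :
    QuantAlg f T := by
  let e : Fin (Fintype.card Z) ≃ Z := (Fintype.equivFin Z).symm
  have key : ∀ F : Fin n → Bool → Z → ℝ,
      ∑ p : Ket n (Fintype.card Z), F p.1 p.2.1 (e p.2.2) = ∑ i, ∑ β, ∑ z, F i β z := by
    intro F
    rw [Fintype.sum_prod_type]
    refine sum_congr rfl fun i _ => ?_
    rw [Fintype.sum_prod_type]
    exact sum_congr rfl fun β _ => Equiv.sum_comp e (F i β)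
  refine quantAlg_of_ideal f T (s.1, s.2.1, e.symm s.2.2) (fun p => out (e p.2.2))
    (fun p => ξ p.1 p.2.1 (e p.2.2)) ?_ (fun t x p => Φ t x p.1 p.2.1 (e p.2.2)) ?_ ?_ ?_
  · exact (key fun i β z => ξ i β z ^ 2).trans hξ
  · intro t ht x y
    exact (key fun i β z => Φ t x i (xor β (x i)) z * Φ t y i (xor β (y i)) z).trans
      ((hG t ht x y).trans (key fun i β z => Φ (t + 1) x i β z * Φ (t + 1) y i β z).symm)
  · intro x
    exact (key fun i β z => (ξ i β z - Φ 0 x i β z) ^ 2).trans_le (h0 x)
  · intro x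
    exact (key fun i β z => if out z = f x then 0 else Φ T x i β z ^ 2).trans_le (hT x)

theorem quantAlg_of_dist {n : ℕ} (hn : 1 ≤ n) (f : (Fin n → Bool) → Bool) (W : ℝ) (T : ℕ)
    (hT : 1 ≤ T) (hW : 6 * W ≤ T)
    (h : Dist (fun x y => f x = true ∧ f y = false) (fun _ => W) (fun _ => W)) :
    QuantAlg f T := by
  classical
  obtain ⟨M, ⟨J, _, u, v, h1, h2, h3⟩, hM⟩ := h
  let i0 : Fin n := ⟨0, hn⟩
  have hT0 : (0 : ℝ) < T := by exact_mod_cast hT
  let ww : (Fin n → Bool) → Fin n → J → ℝ := fun x => if f x then u x else v x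
  have hww : ∀ x, ∑ i, ∑ j, ww x i j ^ 2 ≤ W := by
    intro x
    simp only [ww]
    split_ifs
    exacts [h2 x, h3 x]
  let c : ℝ := 1 / (2 * √T)
  have hc : c * c = 1 / (4 * T) := by
    simp only [c]
    have := Real.mul_self_sqrt hT0.le
    field_simp
    nlinarith
  let A : ℕ → (Fin n → Bool) → Option Bool → ℝ := fun t x o =>
    match o with
    | none => √((T - t) / (2 * T))
    | some b => if b = f x then √(t / (2 * T)) else 0
  let B : (Fin n → Bool) → Fin n → Bool × J → ℝ := fun x i k =>
    if k.1 = xor (x i) (f x) then c * ww x i k.2 else 0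
  have hA : ∀ t : ℕ, t ≤ T → ∀ x y, ∑ o, A t x o * A t y o =
      ((T - t) + if f x = f y then (t : ℝ) else 0) / (2 * T) := by
    intro t ht x y
    have ht' : (0 : ℝ) ≤ T - t := sub_nonneg.2 (by exact_mod_cast ht)
    have e1 := Real.mul_self_sqrt (show (0 : ℝ) ≤ (T - t) / (2 * T) by positivity)
    have e2 := Real.mul_self_sqrt (show (0 : ℝ) ≤ t / (2 * T) by positivity)
    rw [Fintype.sum_option]
    simp only [A, e1]
    cases f x <;> cases f y <;> simp only [Fintype.sum_bool] <;> simp only [↓reduceIte, e2,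
      Bool.true_eq_false, Bool.false_eq_true] <;> ring
  have hB : ∀ x y i, ∑ k, B x i k * B y i k =
      if xor (x i) (f x) = xor (y i) (f y) then (∑ j, ww x i j * ww y i j) / (4 * T) else 0 := by
    intro x y i
    have e : ∑ j, c * ww x i j * (c * ww y i j) = (∑ j, ww x i j * ww y i j) / (4 * T) := by
      rw [sum_div]
      refine sum_congr rfl fun j _ => ?_
      rw [div_eq_mul_one_div, ← hc]; ring
    rw [Fintype.sum_prod_type]
    simp only [B]
    cases xor (x i) (f x) <;> cases xor (y i) (f y) <;> simp [e]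
  have hB2 : ∀ x, ∑ i, ∑ _β : Bool, ∑ k, B x i k ^ 2 ≤ 1 / 12 := by
    intro x
    have : ∀ i, ∑ _β : Bool, ∑ k, B x i k ^ 2 = (∑ j, ww x i j ^ 2) / (2 * T) := by
      intro i
      have := hB x x i
      simp only [if_true, ← sq] at this
      rw [this]; simp; ring
    simp only [this]
    rw [← sum_div, div_le_iff₀ (by positivity)]
    linarith [hww x]
  refine quantAlg_of_ideal' (Z := Option Bool ⊕ (Bool × J)) f T (i0, false, Sum.inl none)
    (Sum.elim (fun o => o.getD false) (fun _ => false))
    (fun i _ => Sum.elim (fun o => if i = i0 then A 0 (fun _ => false) o else 0) (fun _ => 0)) ?_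
    (fun t x i β => Sum.elim (fun o => if i = i0 then A t x o else 0)
      (fun k => sg β * B x i k)) ?_ ?_ ?_
  · have := hA 0 (Nat.zero_le _) (fun _ => false) (fun _ => false)
    simp only [← sq] at this
    rw [sum_eq_single i0]
    · simp only [Fintype.sum_sum_type, Sum.elim_inl, Sum.elim_inr, if_true, this]
      simp; field_simp
    · intro i _ hi; simp [hi]
    · simp
  · intro t ht x y
    have e1 : ∀ (t : ℕ) (φ ψ : Fin n → Bool → Bool), ∑ i, ∑ β, ∑ z : Option Bool ⊕ (Bool × J),
        Sum.elim (fun o => if i = i0 then A t x o else 0) (fun k => sg (φ i β) * B x i k) z *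
        Sum.elim (fun o => if i = i0 then A t y o else 0) (fun k => sg (ψ i β) * B y i k) z =
        2 * (∑ o, A t x o * A t y o) +
          ∑ i, (∑ β, sg (φ i β) * sg (ψ i β)) * ∑ k, B x i k * B y i k := by
      intro t φ ψ
      simp only [Fintype.sum_sum_type, Sum.elim_inl, Sum.elim_inr, sum_add_distrib]
      congr 1
      · rw [sum_eq_single i0]
        · simp; ring
        · intro i _ hi; simp [hi]
        · simp
      · refine sum_congr rfl fun i _ => ?_
        rw [sum_mul_sum]
        exact sum_congr rfl fun β _ => sum_congr rfl fun k _ => by ring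
    rw [e1 t (fun i β => xor β (x i)) (fun i β => xor β (y i)),
      e1 (t + 1) (fun _ β => β) (fun _ β => β), hA t ht.le, hA (t + 1) ht]
    have e2 : ∑ i, (∑ β, sg β * sg β) * ∑ k, B x i k * B y i k -
        ∑ i, (∑ β, sg (xor β (x i)) * sg (xor β (y i))) * ∑ k, B x i k * B y i k =
        (if f x = f y then 0 else 1) / T := by
      rw [← sum_sub_distrib]
      have e3 : ∀ i, (∑ β, sg β * sg β) * ∑ k, B x i k * B y i k -
          (∑ β, sg (xor β (x i)) * sg (xor β (y i))) * ∑ k, B x i k * B y i k =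
          (if f x = f y then 0 else
            if x i = y i then 0 else ∑ j, ww x i j * ww y i j) / T := by
        intro i
        rw [hB]
        cases x i <;> cases y i <;> cases f x <;> cases f y <;> simp [sg] <;> ring
      simp only [e3]
      rw [← sum_div]
      congr 1
      split_ifs with hf
      · simp
      · cases hx : f x
        · have hy : f y = true := by
            cases hy : f y
            · exact absurd (hx.trans hy.symm) hf
            · rfl
          rw [← hM y x ⟨hy, hx⟩, h1]
          refine sum_congr rfl fun i _ => ?_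
          simp [ww, hx, hy, eq_comm (a := y i), mul_comm]
        · have hy : f y = false := by
            cases hy : f y
            · rfl
            · exact absurd (hx.trans hy.symm) hf
          rw [← hM x y ⟨hx, hy⟩, h1]
          refine sum_congr rfl fun i _ => ?_
          simp [ww, hx, hy]
    rw [sub_eq_iff_eq_add] at e2
    rw [e2]
    split_ifs <;> push_cast <;> field_simp <;> ring
  · intro x
    refine le_trans (le_of_eq ?_) (hB2 x)
    refine sum_congr rfl fun i _ => sum_congr rfl fun β _ => ?_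
    simp only [Fintype.sum_sum_type, Sum.elim_inl, Sum.elim_inr]
    have : ∀ o, A 0 (fun _ => false) o = A 0 x o := by
      intro o; cases o <;> simp [A]
    simp only [this, sub_self]
    simp [mul_pow, sq (sg β), sg_sq]
  · intro x
    refine le_trans ?_ (hB2 x)
    refine sum_le_sum fun i _ => sum_le_sum fun β _ => ?_
    rw [Fintype.sum_sum_type, ← zero_add (∑ k, B x i k ^ 2)]
    refine add_le_add (le_of_eq (sum_eq_zero fun o _ => ?_)) (sum_le_sum fun k _ => ?_)
    · cases o with
      | none => simp [A]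
      | some b => by_cases hb : b = f x <;> simp [A, hb]
    · split_ifs
      · positivity
      all_goals simp [mul_pow, sq (sg β), sg_sq]

end Vale.Agent.P362
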