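import Vale.Agent.P362.UpHuang

/-! The adversary bound for an abstract query algorithm, and `D ≤ (36 T)^4`. -/

set_option linter.unusedSectionVars false

namespace Vale.Agent.P362.Up

open Finset

variable {ι : Type} [Fintype ι] [DecidableEq ι] {W : Type} [Fintype W] [DecidableEq W]

/-- Hermitian inner product of two coordinate vectors. -/
noncomputable def ip (u v : W → ℂ) : ℂ := ∑ w, star (u w) * v w

theorem amgm {a b l : ℝ} (hl : 0 < l) : a * b ≤ (l * a ^ 2 + b ^ 2 / l) / 2 := by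
  have : 0 ≤ (l * a - b) ^ 2 / l := by positivity
  have e : (l * a - b) ^ 2 / l = l * a ^ 2 + b ^ 2 / l - 2 * (a * b) := by
    field_simp; ring
  linarith

theorem sum_filter_comp (lab : W → ι) (σ : W ≃ W) (hσ : ∀ w, lab (σ w) = lab w)
    (p : ι → Prop) [DecidablePred p] (F : W → ℝ) :
    ∑ w with p (lab w), F (σ w) = ∑ w with p (lab w), F w := by
  simp only [Finset.sum_filter]
  rw [← Equiv.sum_comp σ (fun w => if p (lab w) then F w else 0)]
  simp only [hσ]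

theorem oracle_step (lab : W → ι) (σ τ : W ≃ W) (hσ : ∀ w, lab (σ w) = lab w)
    (hτ : ∀ w, lab (τ w) = lab w) (p : ι → Prop) [DecidablePred p]
    (hst : ∀ w, ¬ p (lab w) → σ w = τ w) (u v : W → ℂ) {l : ℝ} (hl : 0 < l) :
    ‖ip (u ∘ σ) (v ∘ τ) - ip u v‖ ≤
      l * (∑ w with p (lab w), ‖u w‖ ^ 2) + (∑ w with p (lab w), ‖v w‖ ^ 2) / l := by
  have e1 : ip u v = ∑ w, star (u (σ w)) * v (σ w) := by
    unfold ip
    rw [← Equiv.sum_comp σ]
  have e2 : ip (u ∘ σ) (v ∘ τ) - ip u v =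
      ∑ w with p (lab w), star (u (σ w)) * (v (τ w) - v (σ w)) := by
    rw [e1, ip, ← Finset.sum_sub_distrib, Finset.sum_filter]
    refine Finset.sum_congr rfl fun w _ => ?_
    split_ifs with h
    · simp only [Function.comp]; ring
    · simp [hst w h]
  rw [e2]
  refine (norm_sum_le _ _).trans ?_
  have e3 : ∀ w, ‖star (u (σ w)) * (v (τ w) - v (σ w))‖ ≤
      l * ‖u (σ w)‖ ^ 2 + (‖v (τ w)‖ ^ 2 / 2 + ‖v (σ w)‖ ^ 2 / 2) / l := by
    intro w
    rw [norm_mul, norm_star]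
    have h1 := norm_sub_le (v (τ w)) (v (σ w))
    have h2 := amgm (a := ‖u (σ w)‖) (b := ‖v (τ w)‖) hl
    have h3 := amgm (a := ‖u (σ w)‖) (b := ‖v (σ w)‖) hl
    have h4 := mul_le_mul_of_nonneg_left h1 (norm_nonneg (u (σ w)))
    have e : (‖v (τ w)‖ ^ 2 / 2 + ‖v (σ w)‖ ^ 2 / 2) / l =
      ‖v (τ w)‖ ^ 2 / l / 2 + ‖v (σ w)‖ ^ 2 / l / 2 := by ring
    rw [e]
    linarith
  refine (Finset.sum_le_sum fun w _ => e3 w).trans (le_of_eq ?_)
  rw [Finset.sum_add_distrib, ← Finset.mul_sum, ← Finset.sum_div, Finset.sum_add_distrib,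
    ← Finset.sum_div, ← Finset.sum_div, sum_filter_comp lab σ hσ p (fun w => ‖u w‖ ^ 2),
    sum_filter_comp lab σ hσ p (fun w => ‖v w‖ ^ 2),
    sum_filter_comp lab τ hτ p (fun w => ‖v w‖ ^ 2)]
  ring

theorem final_overlap (acc : W → Prop) [DecidablePred acc] (u v : W → ℂ)
    (hu : ∑ w, ‖u w‖ ^ 2 = 1) (hv : ∑ w, ‖v w‖ ^ 2 = 1)
    (hu' : 2 / 3 ≤ ∑ w with acc w, ‖u w‖ ^ 2) (hv' : ∑ w with acc w, ‖v w‖ ^ 2 ≤ 1 / 3) :
    ‖ip u v‖ ≤ 17 / 18 := by
  refine (norm_sum_le _ _).trans ?_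
  rw [← Finset.sum_filter_add_sum_filter_not univ acc] at hu hv ⊢
  have h1 : ∑ w with acc w, ‖star (u w) * v w‖ ≤
      (7 / 10 * ∑ w with acc w, ‖u w‖ ^ 2 + (∑ w with acc w, ‖v w‖ ^ 2) / (7 / 10)) / 2 := by
    rw [Finset.mul_sum, Finset.sum_div, ← Finset.sum_add_distrib, Finset.sum_div]
    refine Finset.sum_le_sum fun w _ => ?_
    rw [norm_mul, norm_star]
    exact amgm (by norm_num)
  have h2 : ∑ w with ¬ acc w, ‖star (u w) * v w‖ ≤
      (10 / 7 * ∑ w with ¬ acc w, ‖u w‖ ^ 2 + (∑ w with ¬ acc w, ‖v w‖ ^ 2) / (10 / 7)) / 2 := by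
    rw [Finset.mul_sum, Finset.sum_div, ← Finset.sum_add_distrib, Finset.sum_div]
    refine Finset.sum_le_sum fun w _ => ?_
    rw [norm_mul, norm_star]
    exact amgm (by norm_num)
  linarith

theorem ip_swap_norm (u v : W → ℂ) : ‖ip v u‖ = ‖ip u v‖ := by
  have : ip v u = star (ip u v) := by
    unfold ip
    rw [star_sum]
    exact Finset.sum_congr rfl fun w _ => by rw [star_mul', star_star, mul_comm]
  rw [this, norm_star]

theorem prod_of_forall {A B c : ℝ} (hA : 0 ≤ A) (hB : 0 ≤ B) (hc : 0 < c)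
    (h : ∀ l : ℝ, 0 < l → c ≤ l * A + B / l) : c ^ 2 ≤ 4 * (A * B) := by
  rcases hA.eq_or_lt with rfl | hA
  · exfalso
    have := h (2 * (B + 1) / c) (by positivity)
    rw [mul_zero, zero_add, le_div_iff₀ (by positivity)] at this
    have e : c * (2 * (B + 1) / c) = 2 * (B + 1) := by field_simp
    linarith
  · have := h (c / (2 * A)) (by positivity)
    have e1 : c / (2 * A) * A = c / 2 := by field_simp
    have e2 : B / (c / (2 * A)) = 2 * (A * B) / c := by field_simp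
    rw [e1, e2] at this
    have h3 : c / 2 ≤ 2 * (A * B) / c := by linarith
    rw [le_div_iff₀ hc] at h3
    nlinarith

/-- The adversary bound. `σ x` is the oracle permutation of the basis, `ψ t x` the state before
query `t`, and the step between two queries preserves inner products. -/
theorem adv_of_states (g : (ι → Bool) → Bool) (T : ℕ) (lab : W → ι) (σ : (ι → Bool) → W ≃ W)
    (hlab : ∀ x w, lab (σ x w) = lab w)
    (hσ : ∀ x y w, x (lab w) = y (lab w) → σ x w = σ y w)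
    (ψ : ℕ → (ι → Bool) → W → ℂ) (h0 : ∀ x y, ψ 0 x = ψ 0 y)
    (hn : ∀ t ≤ T, ∀ x, ∑ w, ‖ψ t x w‖ ^ 2 = 1)
    (hstep : ∀ t < T, ∀ x y, ip (ψ (t + 1) x) (ψ (t + 1) y) = ip (ψ t x ∘ σ x) (ψ t y ∘ σ y))
    (hfin : ∀ x y, g x ≠ g y → ‖ip (ψ T x) (ψ T y)‖ ≤ 17 / 18) :
    Adv g ((36 * T : ℕ) : ℝ) := by
  refine ⟨fun x i => 36 * ∑ t ∈ range T, ∑ w with lab w = i, ‖ψ t x w‖ ^ 2, ?_, ?_, ?_⟩
  · intro x i; positivity
  · intro x
    rw [← Finset.mul_sum, Finset.sum_comm]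
    push_cast
    refine mul_le_mul_of_nonneg_left (le_of_eq ?_) (by norm_num)
    rw [Finset.sum_congr rfl (g := fun _ => (1 : ℝ))]
    · simp
    · intro t ht
      rw [Finset.sum_fiberwise univ lab (fun w => ‖ψ t x w‖ ^ 2)]
      exact hn t (mem_range.1 ht).le x
  · intro x y hxy
    have hre : ∀ z : ι → Bool,
        ∑ i with x i ≠ y i, 36 * ∑ t ∈ range T, ∑ w with lab w = i, ‖ψ t z w‖ ^ 2 =
        36 * ∑ t ∈ range T, ∑ w with x (lab w) ≠ y (lab w), ‖ψ t z w‖ ^ 2 := by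
      intro z
      rw [← Finset.mul_sum, Finset.sum_comm]
      congr 1
      refine Finset.sum_congr rfl fun t _ => ?_
      rw [← Finset.sum_fiberwise_of_maps_to (s := univ.filter fun w => x (lab w) ≠ y (lab w))
        (t := univ.filter fun i => x i ≠ y i) (g := lab) (by simp)]
      refine Finset.sum_congr rfl fun i hi => Finset.sum_congr ?_ fun _ _ => rfl
      ext w
      simp only [mem_filter, mem_univ, true_and] at hi ⊢
      constructor
      · intro h; exact ⟨by rw [h]; exact hi, h⟩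
      · exact fun h => h.2
    rw [hre x, hre y]
    set A := ∑ t ∈ range T, ∑ w with x (lab w) ≠ y (lab w), ‖ψ t x w‖ ^ 2 with hA
    set B := ∑ t ∈ range T, ∑ w with x (lab w) ≠ y (lab w), ‖ψ t y w‖ ^ 2 with hB
    have hA0 : 0 ≤ A := by positivity
    have hB0 : 0 ≤ B := by positivity
    have hstart : ip (ψ 0 x) (ψ 0 y) = 1 := by
      rw [← h0 x y]
      have := hn 0 (Nat.zero_le _) x
      unfold ip
      rw [← Complex.ofReal_one, ← this, Complex.ofReal_sum]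
      refine Finset.sum_congr rfl fun w _ => ?_
      rw [Complex.star_def, Complex.conj_mul']
      simp
    have key : ∀ l : ℝ, 0 < l → (1 / 18 : ℝ) ≤ l * A + B / l := by
      intro l hl
      have tel : ip (ψ T x) (ψ T y) - ip (ψ 0 x) (ψ 0 y) =
          ∑ t ∈ range T, (ip (ψ (t + 1) x) (ψ (t + 1) y) - ip (ψ t x) (ψ t y)) :=
        (Finset.sum_range_sub (fun t => ip (ψ t x) (ψ t y)) T).symm
      have h1 : ‖ip (ψ T x) (ψ T y) - ip (ψ 0 x) (ψ 0 y)‖ ≤ l * A + B / l := by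
        rw [tel, hA, hB, Finset.mul_sum, Finset.sum_div, ← Finset.sum_add_distrib]
        refine (norm_sum_le _ _).trans (Finset.sum_le_sum fun t ht => ?_)
        rw [hstep t (mem_range.1 ht)]
        exact oracle_step lab (σ x) (σ y) (hlab x) (hlab y) (fun i => x i ≠ y i)
          (fun w hw => hσ x y w (not_not.1 hw)) _ _ hl
      rw [hstart] at h1
      have h2 := norm_sub_norm_le (1 : ℂ) (ip (ψ T x) (ψ T y))
      rw [norm_sub_rev, norm_one] at h2
      linarith [hfin x y hxy]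
    have := prod_of_forall hA0 hB0 (by norm_num) key
    nlinarith

/-- `D ≤ (36 T)^4` for an algorithm that ends with a measurement in the computational basis. -/
theorem depth_of_states (g : (ι → Bool) → Bool) (T : ℕ) (lab : W → ι) (σ : (ι → Bool) → W ≃ W)
    (hlab : ∀ x w, lab (σ x w) = lab w)
    (hσ : ∀ x y w, x (lab w) = y (lab w) → σ x w = σ y w)
    (ψ : ℕ → (ι → Bool) → W → ℂ) (h0 : ∀ x y, ψ 0 x = ψ 0 y)
    (hn : ∀ t ≤ T, ∀ x, ∑ w, ‖ψ t x w‖ ^ 2 = 1)
    (hstep : ∀ t < T, ∀ x y, ip (ψ (t + 1) x) (ψ (t + 1) y) = ip (ψ t x ∘ σ x) (ψ t y ∘ σ y))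
    (acc : W → Prop) [DecidablePred acc]
    (h1 : ∀ x, g x = true → 2 / 3 ≤ ∑ w with acc w, ‖ψ T x w‖ ^ 2)
    (h2 : ∀ x, g x = false → ∑ w with acc w, ‖ψ T x w‖ ^ 2 ≤ 1 / 3) :
    Depth ((36 * T) ^ 4) g := by
  apply Adv.depth
  refine adv_of_states g T lab σ hlab hσ ψ h0 hn hstep fun x y hxy => ?_
  cases hx : g x
  · have hy : g y = true := by
      cases hy : g y
      · exact absurd (hx.trans hy.symm) hxy
      · rfl
    rw [ip_swap_norm]
    exact final_overlap acc _ _ (hn T le_rfl y) (hn T le_rfl x) (h1 y hy) (h2 x hx)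
  · have hy : g y = false := by
      cases hy : g y
      · rfl
      · exact absurd (hx.trans hy.symm) hxy
    exact final_overlap acc _ _ (hn T le_rfl x) (hn T le_rfl y) (h1 x hx) (h2 y hy)

/-- A unitary matrix preserves `ip`. -/
theorem ip_mulVec {U : Matrix W W ℂ} (hU : U ∈ Matrix.unitaryGroup W ℂ) (u v : W → ℂ) :
    ip (U.mulVec u) (U.mulVec v) = ip u v := by
  have h := Matrix.mem_unitaryGroup_iff'.1 hU
  have e : ∀ u v : W → ℂ, ip u v = star u ⬝ᵥ v := fun u v => rfl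
  rw [e, e, Matrix.star_mulVec, Matrix.dotProduct_mulVec, Matrix.vecMul_vecMul]
  rw [← Matrix.star_eq_conjTranspose, h, Matrix.vecMul_one]

theorem ip_self (u : W → ℂ) : ip u u = ((∑ w, ‖u w‖ ^ 2 : ℝ) : ℂ) := by
  unfold ip
  rw [Complex.ofReal_sum]
  refine Finset.sum_congr rfl fun w _ => ?_
  rw [Complex.star_def, Complex.conj_mul']
  simp

theorem normSq_mulVec {U : Matrix W W ℂ} (hU : U ∈ Matrix.unitaryGroup W ℂ) (u : W → ℂ) :
    ∑ w, ‖U.mulVec u w‖ ^ 2 = ∑ w, ‖u w‖ ^ 2 := by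
  have := ip_mulVec hU u u
  rw [ip_self, ip_self] at this
  exact_mod_cast this

end Vale.Agent.P362.Up
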