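import Vale.Agent.P362.RLower
import Vale.Agent.P362.QAlg
import Vale.Agent.P362.UpQuant

/-! Connecting the modules with the definitions of `R` and `Q`. -/

namespace Vale.Agent.P362

open Finset

theorem Tree.dt {n : ℕ} (T : Tree n) : DT T.depth T.eval := by
  induction T with
  | leaf b => exact DT.const _ _ b (fun _ => rfl)
  | node i t0 t1 ih0 ih1 =>
    refine DT.node _ _ i (fun a => if a then t1.eval else t0.eval) (fun a => ?_) (fun x => ?_)
    · cases a
      · exact ih0.mono (le_max_left _ _)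
      · exact ih1.mono (le_max_right _ _)
    · cases h : x i <;> simp [Tree.eval, h]

theorem tree_of_depth {n d : ℕ} {g : (Fin n → Bool) → Bool} (h : Up.Depth d g) :
    ∃ T : Tree n, T.depth ≤ d ∧ T.eval = g := by
  induction h with
  | const d b => exact ⟨.leaf b, Nat.zero_le _, rfl⟩
  | query d i g0 g1 _ _ ih0 ih1 =>
    obtain ⟨T0, h0, rfl⟩ := ih0
    obtain ⟨T1, h1, rfl⟩ := ih1
    exact ⟨.node i T0 T1, Nat.succ_le_succ (max_le h0 h1), rfl⟩

theorem randAlg_of_depth {n d : ℕ} {g : (Fin n → Bool) → Bool} (h : Up.Depth d g) :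
    RandAlg g d := by
  obtain ⟨T, h1, rfl⟩ := tree_of_depth h
  exact ⟨1, fun _ => 1, fun _ => T, by simp, by simp, fun _ => h1, fun x => by simp; norm_num⟩

theorem depth_all {n : ℕ} (g : (Fin n → Bool) → Bool) : Up.Depth (0 + n) g := by
  have := Up.Depth.of_restrict (univ : Finset (Fin n)) 0 g (fun a => by
    simpa using Up.Depth.const 0 (g a))
  simpa using this

theorem randAlg_randC {n : ℕ} (g : (Fin n → Bool) → Bool) : RandAlg g (randC g) :=
  Nat.sInf_mem (s := {d | RandAlg g d}) ⟨_, randAlg_of_depth (depth_all g)⟩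

theorem quantAlg_quantC {n : ℕ} (hn : 1 ≤ n) (g : (Fin n → Bool) → Bool) :
    QuantAlg g (quantC g) := by
  obtain ⟨T, -, rfl⟩ := tree_of_depth (depth_all g)
  refine Nat.sInf_mem (s := {d | QuantAlg T.eval d}) ⟨6 * T.depth + 1,
    quantAlg_of_dist hn _ T.depth _ (by omega) (by push_cast; linarith) ?_⟩
  exact (Dist.ofDT T.dt).mono (fun x y h => by rw [h.1, h.2]; simp) (fun _ => le_rfl)
    (fun _ => le_rfl)

theorem depth_of_quantAlg {n T : ℕ} {g : (Fin n → Bool) → Bool} (h : QuantAlg g T) :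
    Up.Depth ((36 * T) ^ 4) g := by
  obtain ⟨w, U, s, out, hU, hacc⟩ := h
  have hn : ∀ x t, ∑ p, ‖qstate U s x t p‖ ^ 2 = 1 := by
    intro x t
    induction t with
    | zero =>
      rw [qstate, Up.normSq_mulVec (hU 0), sum_eq_single s]
      · simp
      · intro p _ hp; simp [hp]
      · simp
    | succ t ih =>
      rw [qstate, Up.normSq_mulVec (hU _), oracle_mulVec, ← ih]
      exact Equiv.sum_comp (qperm w x) (fun p => ‖qstate U s x t p‖ ^ 2)
  refine Up.depth_of_states g T (fun p : Ket n w => p.1) (qperm w) (fun _ _ => rfl)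
    (fun x y p h => by rw [qperm_apply, qperm_apply, h]) (fun t x => qstate U s x t)
    (fun _ _ => rfl) (fun t _ x => hn x t) (fun t _ x y => ?_) (fun p => out p = true)
    (fun x hx => ?_) (fun x hx => ?_)
  · simp only [qstate]
    rw [Up.ip_mulVec (hU _), oracle_mulVec, oracle_mulVec]
  · have := hacc x
    rwa [hx, ← sum_filter] at this
  · have := hacc x
    rw [hx, ← sum_filter] at this
    have h2 := hn x T
    rw [← sum_filter_add_sum_filter_not univ (fun p => out p = true)] at h2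
    simp only [Bool.not_eq_true] at h2
    linarith

theorem randC_le {n : ℕ} (hn : 1 ≤ n) (g : (Fin n → Bool) → Bool) :
    randC g ≤ (36 * quantC g) ^ 4 :=
  Nat.sInf_le (randAlg_of_depth (depth_of_quantAlg (quantAlg_quantC hn g)))

theorem Dist.equiv {ι ι' : Type} [Fintype ι] [Fintype ι'] (e : ι ≃ ι')
    {R : (ι → Bool) → (ι → Bool) → Prop} {A B : ℝ} (h : Dist R (fun _ => A) (fun _ => B)) :
    Dist (fun x y : ι' → Bool => R (x ∘ e) (y ∘ e)) (fun _ => A) (fun _ => B) := by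
  obtain ⟨M, ⟨J, _, u, v, h1, h2, h3⟩, hM⟩ := h
  refine ⟨fun x y => M (x ∘ e) (y ∘ e), ⟨J, inferInstance, fun x i => u (x ∘ e) (e.symm i),
    fun x i => v (x ∘ e) (e.symm i), fun x y => ?_, fun x => ?_, fun y => ?_⟩,
    fun x y h => hM _ _ h⟩
  · beta_reduce
    rw [h1, ← Equiv.sum_comp e]
    simp
  · exact (Equiv.sum_comp e.symm (fun i => ∑ j, u (x ∘ e) i j ^ 2)).trans_le (h2 _)
  · exact (Equiv.sum_comp e.symm (fun i => ∑ j, v (y ∘ e) i j ^ 2)).trans_le (h3 _)

variable {a r K w : ℕ}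

theorem rand_ineq (hr : 1 ≤ r) (dec : (Fin w → Bool) → ℤ) (enc : ℤ → Fin w → Bool)
    (hde : ∀ n : ℤ, |n| ≤ 2 ^ (a * (K + 1)) → dec (enc n) = n) (η δ : ℝ) (hη0 : 0 < η)
    (hη : 2 ^ a * η ^ 2 = 1) (hδ0 : 0 < δ) (hδ : δ ≤ (1 / 8) ^ K / 4)
    (adv : ℝ) (q : ℕ) (hadv0 : 0 ≤ adv)
    (hadv : ∀ g : (Ps a K → Bool) → ℝ, DT q g → (∀ x, |g x| ≤ 1) →
      |∑ x, muF K (had η) 1 x * g x - ∑ x, muF K (had η) (-1) x * g x| ≤ adv)
    {n : ℕ} (e : Ix a r K w ≃ Fin n) (d : ℕ)
    (h : RandAlg (fun x : Fin n → Bool => sepF dec η δ (x ∘ e)) d) :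
    2 ^ a * 2 ^ a * (2 / 3 * (1 - a * (4 / r / δ ^ 2))) ≤
      2 ^ a * 2 ^ a * (1 / 3 + q / 2 ^ a + a * r * adv) + d + 2 ^ a * (d / (q + 1)) := by
  obtain ⟨k, p, T, hp0, hp1, hT, hacc⟩ := h
  let g : Fin k → (Ix a r K w → Bool) → ℝ := fun j z =>
    if (T j).eval (z ∘ e.symm) = true then 1 else 0
  have hg : ∀ j, DT d (g j) := fun j =>
    ((((T j).dt.mono (hT j)).comp (fun z : Ix a r K w → Bool => z ∘ e.symm)
      (fun i => Or.inr ⟨e.symm i, id, fun _ => rfl⟩)).map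
      (fun b => if b = true then (1 : ℝ) else 0))
  have hg1 : ∀ j x, 0 ≤ g j x ∧ g j x ≤ 1 := fun j x => by
    simp only [g]; split_ifs <;> norm_num
  have hacc' : ∀ z : Ix a r K w → Bool,
      (2 / 3 : ℝ) ≤ ∑ j, if (T j).eval (z ∘ e.symm) = sepF dec η δ z then p j else 0 := by
    intro z
    have := hacc (z ∘ e.symm)
    simpa [Function.comp_assoc] using this
  have a1 : ∀ z, 2 / 3 * (if sepF dec η δ z = true then (1 : ℝ) else 0) ≤ ∑ j, p j * g j z := by
    intro z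
    split_ifs with hz
    · have := hacc' z
      rw [hz] at this
      simpa [g] using this
    · rw [mul_zero]; exact sum_nonneg fun j _ => mul_nonneg (hp0 j) (hg1 j z).1
  have a0 : ∀ z, sepF dec η δ z = false → ∑ j, p j * g j z ≤ 1 / 3 := by
    intro z hz
    have := hacc' z
    rw [hz] at this
    have e2 : ∑ j, p j * g j z + ∑ j, (if (T j).eval (z ∘ e.symm) = false then p j else 0) = 1 := by
      rw [← sum_add_distrib, ← hp1]
      refine sum_congr rfl fun j _ => ?_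
      simp only [g]
      cases (T j).eval (z ∘ e.symm) <;> simp
    linarith
  have b1 : ∑ j, p j * ∑ b, ∑ κ, Ex (un a) (fun L => Ex (mu1 r K η b κ)
      (fun Z => g j (x1 enc b κ Z L))) ≤ ∑ j, p j * (2 ^ a * 2 ^ a * (Ex (mu0 a r K η)
        (fun Z => Ex (un a) (fun L => g j (x0 w Z L))) + q / 2 ^ a + a * r * adv) + d +
        2 ^ a * (d / (q + 1))) :=
    sum_le_sum fun j _ => mul_le_mul_of_nonneg_left
      (hard_all enc η adv q hadv0 hadv d (g j) (hg j) (hg1 j)) (hp0 j)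
  have b2 : ∑ j, p j * Ex (mu0 a r K η) (fun Z => Ex (un a) (fun L => g j (x0 w Z L))) ≤
      1 / 3 := by
    simp only [← Ex_mul, ← Ex_sum]
    rw [← Ex_const (mu0_pr (a := a) (r := r) (K := K) η) (1 / 3)]
    refine Ex_mono (mu0_pr η) fun Z => ?_
    rw [← Ex_const (un_pr (a := a)) (1 / 3)]
    exact Ex_mono un_pr fun L => a0 _ (sepF_x0 dec η δ Z L)
  have b3 : ∀ b κ, 2 / 3 * (1 - a * (4 / r / δ ^ 2)) ≤ ∑ j, p j * Ex (un a)
      (fun L => Ex (mu1 r K η b κ) (fun Z => g j (x1 enc b κ Z L))) := by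
    intro b κ
    simp only [← Ex_mul, ← Ex_sum]
    rw [← Ex_const (un_pr (a := a)) (2 / 3 * (1 - a * (4 / r / δ ^ 2)))]
    refine Ex_mono un_pr fun L => ?_
    refine le_trans ?_ (Ex_mono (mu1_pr η b κ) fun Z => a1 (x1 enc b κ Z L))
    rw [Ex_mul]
    exact mul_le_mul_of_nonneg_left (good_prob hr dec enc hde η δ hη0 hη hδ0 hδ b κ L)
      (by norm_num)
  have b4 := sum_le_sum fun b (_ : b ∈ univ) => sum_le_sum fun κ (_ : κ ∈ univ) => b3 b κ
  simp only [sum_const, card_univ, Fintype.card_fun, Fintype.card_bool, Fintype.card_fin,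
    nsmul_eq_mul] at b4
  have b5 : ∑ b, ∑ κ, ∑ j, p j * Ex (un a)
      (fun L => Ex (mu1 r K η b κ) (fun Z => g j (x1 enc b κ Z L))) =
      ∑ j, p j * ∑ b, ∑ κ, Ex (un a) (fun L => Ex (mu1 r K η b κ)
      (fun Z => g j (x1 enc b κ Z L))) := by
    simp only [mul_sum]
    rw [sum_congr rfl fun b _ => sum_comm, sum_comm]
  have b6 : ∀ (X : Fin k → ℝ) (N Y : ℝ), ∑ j, p j * (N * (X j + q / 2 ^ a + a * r * adv) + d + Y) =
      N * (∑ j, p j * X j + q / 2 ^ a + a * r * adv) + d + Y := by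
    intro X N Y
    have : ∀ j, p j * (N * (X j + q / 2 ^ a + a * r * adv) + d + Y) =
        N * (p j * X j) + p j * (N * (q / 2 ^ a + a * r * adv) + d + Y) := fun j => by ring
    simp only [this, sum_add_distrib, ← mul_sum, ← sum_mul, hp1]
    ring
  rw [b6] at b1
  rw [b5] at b4
  push_cast at b4
  have b7 := mul_le_mul_of_nonneg_left b2 (show (0 : ℝ) ≤ 2 ^ a * 2 ^ a by positivity)
  nlinarith

end Vale.Agent.P362
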