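import Vale.Agent.P362.QGram
import Vale.Agent.P362.ForrGrowth

/-! Dual adversary solutions: a small calculus, and the quantum algorithm they give. -/

set_option linter.unusedSectionVars false

namespace Vale.Agent.P362

open Finset

variable {ι : Type} [Fintype ι] [DecidableEq ι]

/-- `M` is a filtered Gram matrix with costs `a` and `b`. -/
def Filt (M : (ι → Bool) → (ι → Bool) → ℝ) (a b : (ι → Bool) → ℝ) : Prop :=
  ∃ (J : Type) (_ : Fintype J) (u v : (ι → Bool) → ι → J → ℝ),
    (∀ x y, M x y = ∑ i, if x i = y i then 0 else ∑ j, u x i j * v y i j) ∧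
    (∀ x, ∑ i, ∑ j, u x i j ^ 2 ≤ a x) ∧ (∀ y, ∑ i, ∑ j, v y i j ^ 2 ≤ b y)

namespace Filt

variable {M M' : (ι → Bool) → (ι → Bool) → ℝ} {a b a' b' : (ι → Bool) → ℝ}

theorem mono (h : Filt M a b) (hM : ∀ x y, M' x y = M x y) (ha : ∀ x, a x ≤ a' x)
    (hb : ∀ y, b y ≤ b' y) : Filt M' a' b' := by
  obtain ⟨J, _, u, v, h1, h2, h3⟩ := h
  exact ⟨J, inferInstance, u, v, fun x y => (hM x y).trans (h1 x y), fun x => (h2 x).trans (ha x),
    fun y => (h3 y).trans (hb y)⟩

theorem symm (h : Filt M a b) : Filt (fun x y => M y x) b a := by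
  obtain ⟨J, _, u, v, h1, h2, h3⟩ := h
  refine ⟨J, inferInstance, v, u, fun x y => ?_, h3, h2⟩
  beta_reduce
  rw [h1]
  refine sum_congr rfl fun i _ => ?_
  simp only [eq_comm (a := y i), mul_comm]

theorem bit (i : ι) : Filt (fun x y : ι → Bool => if x i = y i then 0 else 1)
    (fun _ => 1) (fun _ => 1) := by
  refine ⟨Unit, inferInstance, fun _ i' _ => if i' = i then 1 else 0,
    fun _ i' _ => if i' = i then 1 else 0, fun x y => ?_, fun x => by simp, fun x => by simp⟩
  rw [sum_eq_single i]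
  · simp
  · intro i' _ h; simp [h]
  · simp

theorem zero : Filt (fun _ _ : ι → Bool => 0) (fun _ => 0) (fun _ => 0) :=
  ⟨Empty, inferInstance, fun _ _ _ => 0, fun _ _ _ => 0, by simp, by simp, by simp⟩

theorem sum {K : Type} [Fintype K] {M : K → (ι → Bool) → (ι → Bool) → ℝ}
    {a b : K → (ι → Bool) → ℝ} (h : ∀ k, Filt (M k) (a k) (b k)) :
    Filt (fun x y => ∑ k, M k x y) (fun x => ∑ k, a k x) (fun y => ∑ k, b k y) := by
  choose J hJ u v h1 h2 h3 using h
  refine ⟨Σ k, J k, inferInstance, fun x i j => u j.1 x i j.2, fun y i j => v j.1 y i j.2,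
    fun x y => ?_, fun x => ?_, fun y => ?_⟩
  · simp only [h1]
    rw [sum_comm]
    refine sum_congr rfl fun i _ => ?_
    split_ifs
    · simp
    · rw [Fintype.sum_sigma]
  · simp only [Fintype.sum_sigma]
    rw [sum_comm]
    exact sum_le_sum fun k _ => h2 k x
  · simp only [Fintype.sum_sigma]
    rw [sum_comm]
    exact sum_le_sum fun k _ => h3 k y

theorem mulv {L : Type} [Fintype L] (h : Filt M a b) (α β : (ι → Bool) → L → ℝ) :
    Filt (fun x y => (∑ l, α x l * β y l) * M x y) (fun x => (∑ l, α x l ^ 2) * a x)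
      (fun y => (∑ l, β y l ^ 2) * b y) := by
  obtain ⟨J, _, u, v, h1, h2, h3⟩ := h
  have key : ∀ (γ : L → ℝ) (w : ι → J → ℝ) (c : ℝ), ∑ i, ∑ j, w i j ^ 2 ≤ c →
      ∑ i, ∑ j : L × J, (γ j.1 * w i j.2) ^ 2 ≤ (∑ l, γ l ^ 2) * c := by
    intro γ w c hc
    refine le_trans (le_of_eq ?_) (mul_le_mul_of_nonneg_left hc (by positivity))
    rw [mul_sum]
    refine sum_congr rfl fun i _ => ?_
    rw [Fintype.sum_prod_type, sum_mul_sum]
    simp only [mul_pow]
  refine ⟨L × J, inferInstance, fun x i j => α x j.1 * u x i j.2, fun y i j => β y j.1 * v y i j.2,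
    fun x y => ?_, fun x => key _ _ _ (h2 x), fun y => key _ _ _ (h3 y)⟩
  beta_reduce
  rw [h1, mul_sum]
  refine sum_congr rfl fun i _ => ?_
  split_ifs
  · simp
  · rw [Fintype.sum_prod_type, sum_mul_sum]
    exact sum_congr rfl fun l _ => sum_congr rfl fun j _ => by ring

theorem mul1 (h : Filt M a b) (p q : (ι → Bool) → ℝ) :
    Filt (fun x y => p x * q y * M x y) (fun x => p x ^ 2 * a x) (fun y => q y ^ 2 * b y) := by
  simpa using h.mulv (L := Unit) (fun x _ => p x) (fun y _ => q y)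

theorem add (h : Filt M a b) (h' : Filt M' a' b') :
    Filt (fun x y => M x y + M' x y) (fun x => a x + a' x) (fun y => b y + b' y) := by
  have := Filt.sum (K := Bool) (M := fun k => cond k M M') (a := fun k => cond k a a')
    (b := fun k => cond k b b') (fun k => by cases k <;> assumption)
  simpa using this

end Filt

/-- A dual solution that equals one on the relation `R`. -/
def Dist (R : (ι → Bool) → (ι → Bool) → Prop) (a b : (ι → Bool) → ℝ) : Prop :=
  ∃ M, Filt M a b ∧ ∀ x y, R x y → M x y = 1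

namespace Dist

variable {R R' : (ι → Bool) → (ι → Bool) → Prop} {a b a' b' : (ι → Bool) → ℝ}

theorem mono (h : Dist R a b) (hR : ∀ x y, R' x y → R x y) (ha : ∀ x, a x ≤ a' x)
    (hb : ∀ y, b y ≤ b' y) : Dist R' a' b' := by
  obtain ⟨M, h1, h2⟩ := h
  exact ⟨M, h1.mono (fun _ _ => rfl) ha hb, fun x y h => h2 x y (hR x y h)⟩

theorem symm (h : Dist R a b) : Dist (fun x y => R y x) b a := by
  obtain ⟨M, h1, h2⟩ := h
  exact ⟨_, h1.symm, fun x y h => h2 y x h⟩

theorem bit (i : ι) : Dist (fun x y : ι → Bool => x i ≠ y i) (fun _ => 1) (fun _ => 1) :=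
  ⟨_, Filt.bit i, fun x y h => by simp [h]⟩

theorem empty : Dist (fun _ _ : ι → Bool => False) (fun _ => 0) (fun _ => 0) :=
  ⟨_, Filt.zero, fun _ _ h => h.elim⟩

/-- Partition of unity. -/
theorem sum {K : Type} [Fintype K] {S : K → (ι → Bool) → (ι → Bool) → Prop}
    {a b : K → (ι → Bool) → ℝ} (h : ∀ k, Dist (S k) (a k) (b k)) (p q : K → (ι → Bool) → ℝ)
    (h1 : ∀ x y, R x y → ∑ k, p k x * q k y = 1)
    (h2 : ∀ x y k, R x y → p k x ≠ 0 → q k y ≠ 0 → S k x y) :
    Dist R (fun x => ∑ k, p k x ^ 2 * a k x) (fun y => ∑ k, q k y ^ 2 * b k y) := by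
  choose M hM1 hM2 using h
  refine ⟨_, Filt.sum fun k => (hM1 k).mul1 (p k) (q k), fun x y hR => ?_⟩
  rw [← h1 x y hR]
  refine sum_congr rfl fun k _ => ?_
  by_cases hp : p k x = 0
  · simp [hp]
  by_cases hq : q k y = 0
  · simp [hq]
  rw [hM2 k x y (h2 x y k hR hp hq), mul_one]

theorem scale (h : Dist R a b) {c : ℝ} (hc : 0 < c) :
    Dist R (fun x => c * a x) (fun y => b y / c) := by
  obtain ⟨M, h1, h2⟩ := h
  have hs : 0 < √c := Real.sqrt_pos.2 hc
  refine ⟨_, (h1.mul1 (fun _ => √c) (fun _ => 1 / √c)).mono (fun _ _ => rfl) (fun x => ?_)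
    (fun y => ?_), fun x y hR => ?_⟩
  · rw [Real.sq_sqrt hc.le]
  · rw [div_pow, Real.sq_sqrt hc.le]; apply le_of_eq; ring
  · rw [h2 x y hR]; field_simp

/-- Splitting by a common tag. -/
theorem byTag {T : Type} [Fintype T] [DecidableEq T] (s t : (ι → Bool) → T)
    (hR : ∀ x y, R x y → s x = t y)
    (h : ∀ τ, Dist (fun x y => R x y ∧ s x = τ ∧ t y = τ) a b) : Dist R a b := by
  refine (Dist.sum h (fun τ x => if s x = τ then 1 else 0) (fun τ y => if t y = τ then 1 else 0)
    (fun x y hxy => ?_) (fun x y τ hxy hp hq => ?_)).mono (fun _ _ h => h) (fun x => ?_)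
    (fun y => ?_)
  · simp [hR x y hxy]
  · exact ⟨hxy, by simpa using hp, by simpa using hq⟩
  · simp
  · simp

theorem ofDT {β : Type} {d : ℕ} {g : (ι → Bool) → β} (h : DT d g) :
    Dist (fun x y => g x ≠ g y) (fun _ => d) (fun _ => d) := by
  induction h with
  | const d g c h =>
    exact Dist.empty.mono (fun x y hxy => hxy (by rw [h, h])) (fun _ => by positivity)
      (fun _ => by positivity)
  | node d g i G _ h ih =>
    have key : ∀ k : Bool × Bool, Dist (fun x y => if k.1 = k.2 then G k.1 x ≠ G k.1 y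
        else x i ≠ y i) (fun _ => if k.1 = k.2 then d else 1)
        (fun _ => if k.1 = k.2 then d else 1) := by
      intro k
      by_cases hk : k.1 = k.2
      · simpa [hk] using ih k.2
      · simpa [hk] using Dist.bit i
    refine (Dist.sum key (fun k x => if x i = k.1 then 1 else 0)
      (fun k y => if y i = k.2 then 1 else 0) (fun x y _ => ?_)
      (fun x y k hxy hp hq => ?_)).mono (fun _ _ h => h) (fun x => ?_) (fun y => ?_)
    · rw [Fintype.sum_prod_type]; simp
    · have hp' : x i = k.1 := by simpa using hp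
      have hq' : y i = k.2 := by simpa using hq
      split_ifs with hk
      · rwa [h x, h y, hp', hq', ← hk] at hxy
      · rwa [hp', hq']
    · rw [Fintype.sum_prod_type]
      cases x i <;> simp [add_comm]
    · rw [Fintype.sum_prod_type]
      cases y i <;> simp [add_comm]

end Dist

end Vale.Agent.P362
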