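import Vale.Agent.P362.QDist
import Vale.Agent.P362.ForrMean

/-! Dual solutions for a gap in a value with small difference cost; decoding a key. -/

set_option linter.unusedSectionVars false

namespace Vale.Agent.P362

open Finset

/-- The Cauchy kernel is a Gram matrix on every finite set of positive reals. -/
theorem cauchy_gram (S : Finset ℝ) (hS : ∀ a ∈ S, 0 < a) :
    ∃ (n : ℕ) (α : ℝ → Fin n → ℝ), ∀ a ∈ S, ∀ b ∈ S, ∑ l, α a l * α b l = 1 / (a + b) := by
  induction S using Finset.induction_on with
  | empty => exact ⟨0, fun _ _ => 0, by simp⟩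
  | insert c S hc ih =>
    obtain ⟨n, α, hα⟩ := ih (fun a ha => hS a (mem_insert_of_mem ha))
    have hc0 : 0 < c := hS c (mem_insert_self _ _)
    refine ⟨n + 1, fun a => Fin.cons (√(2 * c) / (a + c)) (fun l => (a - c) / (a + c) * α a l),
      fun a ha b hb => ?_⟩
    have ha0 := hS a ha
    have hb0 := hS b hb
    have e := Real.mul_self_sqrt (show 0 ≤ 2 * c by positivity)
    rw [Fin.sum_univ_succ]
    simp only [Fin.cons_zero, Fin.cons_succ]
    have e1 : √(2 * c) / (a + c) * (√(2 * c) / (b + c)) = 2 * c / ((a + c) * (b + c)) := by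
      rw [div_mul_div_comm, e]
    have e2 : ∑ l, (a - c) / (a + c) * α a l * ((b - c) / (b + c) * α b l) =
        (a - c) / (a + c) * ((b - c) / (b + c)) * ∑ l, α a l * α b l := by
      rw [mul_sum]; exact sum_congr rfl fun l _ => by ring
    rw [e1, e2]
    rcases mem_insert.1 ha with rfl | ha'
    · field_simp; ring
    rcases mem_insert.1 hb with rfl | hb'
    · field_simp; ring
    rw [hα a ha' b hb']
    field_simp; ring

variable {ι : Type} [Fintype ι] [DecidableEq ι]

theorem Dist.gap {P : (ι → Bool) → ℝ} {c : ℝ} (hc : 0 ≤ c)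
    (h : Filt (fun x y => P x - P y) (fun _ => c) (fun _ => c)) {θ g : ℝ} (hg : 0 < g) :
    Dist (fun x y => θ + g ≤ P x ∧ P y ≤ θ - g) (fun _ => c / (2 * g)) (fun _ => c / (2 * g)) := by
  classical
  let A : (ι → Bool) → ℝ := fun x => max (P x - θ) g
  let B : (ι → Bool) → ℝ := fun y => max (θ - P y) g
  have hA : ∀ x, g ≤ A x := fun x => le_max_right _ _
  have hB : ∀ x, g ≤ B x := fun x => le_max_right _ _
  obtain ⟨n, α, hα⟩ := cauchy_gram (univ.image A ∪ univ.image B) (by
    intro a ha
    rcases mem_union.1 ha with ha | ha <;> obtain ⟨x, -, rfl⟩ := mem_image.1 ha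
    exacts [hg.trans_le (hA x), hg.trans_le (hB x)])
  have mA : ∀ x, A x ∈ univ.image A ∪ univ.image B :=
    fun x => mem_union_left _ (mem_image_of_mem _ (mem_univ x))
  have mB : ∀ x, B x ∈ univ.image A ∪ univ.image B :=
    fun x => mem_union_right _ (mem_image_of_mem _ (mem_univ x))
  have key : ∀ a ∈ univ.image A ∪ univ.image B, g ≤ a → (∑ l, α a l ^ 2) * c ≤ c / (2 * g) := by
    intro a ha hga
    simp only [sq]
    rw [hα a ha a ha, one_div_mul_eq_div]
    exact div_le_div_of_nonneg_left hc (by positivity) (by linarith)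
  refine ⟨_, (h.mulv (fun x => α (A x)) (fun y => α (B y))).mono (fun _ _ => rfl)
    (fun x => key _ (mA x) (hA x)) (fun y => key _ (mB y) (hB y)), fun x y hxy => ?_⟩
  rw [hα _ (mA x) _ (mB y)]
  have e1 : A x = P x - θ := max_eq_left (by linarith [hxy.1])
  have e2 : B y = θ - P y := max_eq_left (by linarith [hxy.2])
  rw [e1, e2]
  have : P x - P y ≠ 0 := by linarith [hxy.1, hxy.2]
  have e3 : P x - θ + (θ - P y) = P x - P y := by ring
  rw [e3]; field_simp

theorem Dist.nonneg_right {R : (ι → Bool) → (ι → Bool) → Prop} {a b : (ι → Bool) → ℝ}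
    (h : Dist R a b) (y : ι → Bool) : 0 ≤ b y := by
  obtain ⟨M, ⟨J, _, u, v, -, -, h3⟩, -⟩ := h
  exact le_trans (by positivity) (h3 y)

/-- Either the keys read by the two sides agree, or there is a first position where they differ. -/
theorem Dist.decode {r : ℕ} {R : (ι → Bool) → (ι → Bool) → Prop}
    (A : (ι → Bool) → Fin r → Bool) (B : (ι → Bool) → Fin r → Option Bool) {g1 g2 : ℝ}
    {a b : (ι → Bool) → ℝ} (hg2 : 0 ≤ g2)
    (hgap : ∀ s σ, Dist (fun x y => R x y ∧ A x s = σ ∧ B y s ≠ some σ) (fun _ => g1) (fun _ => g2))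
    (hrest : Dist (fun x y => R x y ∧ ∀ s, B y s = some (A x s)) a b) :
    Dist R (fun x => r * g1 + a x) (fun y => r * (2 * g2) + b y) := by
  classical
  have key : ∀ k : ℕ, k ≤ r → Dist (fun x y => R x y ∧ ∀ s : Fin r, s.val + k < r →
      B y s = some (A x s)) (fun x => k * g1 + a x) (fun y => k * (2 * g2) + b y) := by
    intro k
    induction k with
    | zero =>
      intro _
      exact hrest.mono (fun x y h => ⟨h.1, fun s => h.2 s (by simp)⟩) (by simp) (by simp)
    | succ k ih =>
      intro hk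
      have ih' := ih (by omega)
      let s0 : Fin r := ⟨r - (k + 1), by omega⟩
      have hb : ∀ y, 0 ≤ k * (2 * g2) + b y := ih'.nonneg_right
      have each : ∀ κ : Bool × Bool, Dist (fun x y => if κ.2 then (R x y ∧ ∀ s : Fin r,
          s.val + k < r → B y s = some (A x s)) else (R x y ∧ A x s0 = κ.1 ∧ B y s0 ≠ some κ.1))
          (fun x => if κ.2 then k * g1 + a x else g1)
          (fun y => if κ.2 then k * (2 * g2) + b y else g2) := by
        rintro ⟨σ, m⟩
        cases m
        · simpa using hgap s0 σ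
        · simpa using ih'
      refine (Dist.sum each (fun κ x => if A x s0 = κ.1 then 1 else 0)
        (fun κ y => if (B y s0 = some κ.1 ↔ κ.2) then 1 else 0) (fun x y _ => ?_)
        (fun x y κ hxy hp hq => ?_)).mono (fun _ _ h => h) (fun x => ?_) (fun y => ?_)
      · rw [Fintype.sum_prod_type]
        cases A x s0 <;> rcases B y s0 with _ | _ | _ <;> simp
      · have hp' : A x s0 = κ.1 := by simpa using hp
        have hq' : B y s0 = some κ.1 ↔ κ.2 := by simpa using hq
        split_ifs with hm
        · refine ⟨hxy.1, fun s hs => ?_⟩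
          by_cases hs' : s.val + (k + 1) < r
          · exact hxy.2 s hs'
          · have : s = s0 := Fin.ext (by simp only [s0]; omega)
            rw [this, hp']; exact hq'.2 hm
        · exact ⟨hxy.1, hp', fun h => hm (hq'.1 h)⟩
      · rw [Fintype.sum_prod_type]
        cases A x s0 <;> simp <;> linarith
      · rw [Fintype.sum_prod_type]
        have := hb y
        rcases B y s0 with _ | _ | _ <;> simp <;> linarith
  exact (key r le_rfl).mono (fun x y h => ⟨h, fun s hs => by omega⟩) (fun _ => le_rfl)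
    (fun _ => le_rfl)

variable {V : Type} [Fintype V] [DecidableEq V] {K : ℕ}

theorem filt_vec (h : V → V → ℝ)
    (ho : ∀ i i', ∑ l, h l i * h l i' = if i = i' then 1 else 0)
    (ho' : ∀ i i', ∑ l, h i l * h i' l = if i = i' then 1 else 0)
    (φ : Fin (K + 1) × V → ι) (j : ℕ) (hj : j ≤ K) :
    ∀ c : (ι → Bool) → V → ℝ, (∀ y, ∑ l, c y l ^ 2 = Fintype.card V) →
      Filt (fun x y => ∑ l, c y l * (vecF h (fun u => sg (x (φ u))) j l -
          vecF h (fun u => sg (y (φ u))) j l))
        (fun _ => 2 * (j + 1) * Fintype.card V) (fun _ => 2 * (j + 1) * Fintype.card V) := by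
  have base : ∀ (j : Fin (K + 1)) (p q : (ι → Bool) → V → ℝ),
      (∀ y, ∑ l, p y l ^ 2 = Fintype.card V) → (∀ y, ∑ l, q y l ^ 2 = Fintype.card V) →
      Filt (fun x y => ∑ l, q y l * (sg (x (φ (j, l))) - sg (y (φ (j, l)))) * p x l)
        (fun _ => 2 * Fintype.card V) (fun _ => 2 * Fintype.card V) := by
    intro j p q hp hq
    have e := Real.mul_self_sqrt (show (0 : ℝ) ≤ 2 by norm_num)
    refine (Filt.sum fun l => (Filt.bit (φ (j, l))).mul1 (fun x => √2 * (sg (x (φ (j, l))) * p x l))
      (fun y => √2 * q y l)).mono (fun x y => sum_congr rfl fun l _ => ?_) (fun x => ?_)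
      (fun y => ?_)
    · have : √2 * (sg (x (φ (j, l))) * p x l) * (√2 * q y l) =
          (√2 * √2) * (sg (x (φ (j, l))) * p x l * q y l) := by ring
      rw [this, e]
      cases x (φ (j, l)) <;> cases y (φ (j, l)) <;> simp [sg] <;> ring
    · simp only [mul_pow, sq (√2), sq (sg _), e, sg_sq, mul_one, one_mul]
      rw [← mul_sum, hp]
    · simp only [mul_pow, sq (√2), e, mul_one]
      rw [← mul_sum, hq]
  induction j with
  | zero =>
    intro c hc
    refine (base 0 (fun _ _ => 1) c (by simp) hc).mono (fun x y => ?_) (by simp) (by simp)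
    simp [vecF, yF]
  | succ j ih =>
    intro c hc
    have hj' : j + 1 < K + 1 := by omega
    have h1 := base ⟨j + 1, hj'⟩ (fun x l => ∑ i, h l i * vecF h (fun u => sg (x (φ u))) j i) c
      (fun x => by rw [orth_normsq h ho]; exact vecF_normsq h ho (fun u => x (φ u)) j) hc
    have h2 := ih (by omega) (fun y i => ∑ l, h l i * (c y l * sg (y (φ (⟨j + 1, hj'⟩, l)))))
      (fun y => by
        rw [orth_normsq (fun i l => h l i) ho', ← hc y]
        simp only [mul_pow, sq (sg _), sg_sq, mul_one])
    refine (h1.add h2).mono (fun x y => ?_) (fun _ => by push_cast; linarith)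
      (fun _ => by push_cast; linarith)
    simp only [vecF, yF, hj', dif_pos, sum_mul]
    rw [sum_comm, ← sum_add_distrib]
    refine sum_congr rfl fun l _ => ?_
    simp only [mul_sum, ← sum_sub_distrib, ← sum_add_distrib]
    exact sum_congr rfl fun i _ => by ring

theorem filt_PF [Nonempty V] (h : V → V → ℝ)
    (ho : ∀ i i', ∑ l, h l i * h l i' = if i = i' then 1 else 0)
    (ho' : ∀ i i', ∑ l, h i l * h i' l = if i = i' then 1 else 0)
    (φ : Fin (K + 1) × V → ι) :
    Filt (fun x y => PF K h (fun u => x (φ u)) - PF K h (fun u => y (φ u)))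
      (fun _ => 2 * (K + 1)) (fun _ => 2 * (K + 1)) := by
  have hN : (0 : ℝ) < Fintype.card V := by exact_mod_cast Fintype.card_pos
  have e : (1 / √(Fintype.card V : ℝ)) ^ 2 = 1 / Fintype.card V := by
    rw [div_pow, Real.sq_sqrt hN.le, one_pow]
  refine ((filt_vec h ho ho' φ K le_rfl (fun _ _ => 1) (by simp)).mul1
    (fun _ => 1 / √(Fintype.card V)) (fun _ => 1 / √(Fintype.card V))).mono (fun x y => ?_)
    (fun _ => ?_) (fun _ => ?_)
  · rw [← sq, e]
    simp only [PF, one_mul, sum_sub_distrib]
    ring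
  · rw [e]; apply le_of_eq; field_simp
  · rw [e]; apply le_of_eq; field_simp

end Vale.Agent.P362
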