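import Vale.Agent.P362.Defs

/-! Equal Gram matrices give an orthogonal matrix; real algorithms are quantum algorithms. -/

namespace Vale.Agent.P362

open Finset Matrix

theorem gram_orth {X W : Type} [Fintype X] [Fintype W] [DecidableEq W] (A B : X → W → ℝ)
    (h : ∀ x y, ∑ w, A x w * A y w = ∑ w, B x w * B y w) :
    ∃ U : Matrix W W ℝ, Uᵀ * U = 1 ∧ ∀ x, U *ᵥ A x = B x := by
  classical
  let a : (X → ℝ) →ₗ[ℝ] EuclideanSpace ℝ W :=
    Fintype.linearCombination ℝ (fun x => WithLp.toLp 2 (A x))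
  let b : (X → ℝ) →ₗ[ℝ] EuclideanSpace ℝ W :=
    Fintype.linearCombination ℝ (fun x => WithLp.toLp 2 (B x))
  have hin : ∀ c, inner ℝ (a c) (a c) = inner ℝ (b c) (b c) := by
    intro c
    simp only [a, b, Fintype.linearCombination_apply, sum_inner, inner_sum, inner_smul_left,
      inner_smul_right]
    refine sum_congr rfl fun x _ => ?_
    congr 1
    refine sum_congr rfl fun y _ => ?_
    congr 1
    simp only [PiLp.inner_apply, RCLike.inner_apply, conj_trivial]
    exact h _ _
  have hn : ∀ c, ‖b c‖ = ‖a c‖ := by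
    intro c
    have := hin c
    rw [real_inner_self_eq_norm_sq, real_inner_self_eq_norm_sq] at this
    exact ((sq_eq_sq₀ (norm_nonneg _) (norm_nonneg _)).1 this).symm
  have hker : LinearMap.ker a ≤ LinearMap.ker b := by
    intro c hc
    rw [LinearMap.mem_ker] at hc ⊢
    rw [← norm_eq_zero, hn, hc, norm_zero]
  let L0 : LinearMap.range a →ₗ[ℝ] EuclideanSpace ℝ W :=
    ((LinearMap.ker a).liftQ b hker) ∘ₗ (a.quotKerEquivRange.symm : _ →ₗ[ℝ] _)
  have hL0 : ∀ c, L0 ⟨a c, LinearMap.mem_range_self a c⟩ = b c := by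
    intro c
    simp only [L0, LinearMap.comp_apply, LinearEquiv.coe_coe]
    rw [LinearMap.quotKerEquivRange_symm_apply_image]
    simp
  let L1 : LinearMap.range a →ₗᵢ[ℝ] EuclideanSpace ℝ W :=
    ⟨L0, by
      rintro ⟨_, c, rfl⟩
      rw [hL0, hn]; rfl⟩
  let L := L1.extend
  have hL : ∀ c, L (a c) = b c := by
    intro c
    have := L1.extend_apply ⟨a c, LinearMap.mem_range_self a c⟩
    exact this.trans (hL0 c)
  refine ⟨Matrix.of fun w j => L (EuclideanSpace.single j 1) w, ?_, ?_⟩
  · ext j k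
    have := L.inner_map_map (EuclideanSpace.single j 1) (EuclideanSpace.single k 1)
    rw [EuclideanSpace.inner_single_left, PiLp.inner_apply] at this
    simp only [RCLike.inner_apply, conj_trivial, one_mul] at this
    rw [Matrix.mul_apply, Matrix.one_apply]
    simp only [Matrix.transpose_apply, Matrix.of_apply]
    rw [sum_congr rfl (fun w _ => mul_comm _ _), this]
    simp [Pi.single_apply]
  · intro x
    have h1 : a (Pi.single x 1) = WithLp.toLp 2 (A x) := by simp [a]
    have h2 : b (Pi.single x 1) = WithLp.toLp 2 (B x) := by simp [b]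
    have h3 := hL (Pi.single x 1)
    rw [h1, h2] at h3
    have h4 : (WithLp.toLp 2 (A x) : EuclideanSpace ℝ W) =
        ∑ j, A x j • EuclideanSpace.single j (1 : ℝ) := by
      ext w; simp [Pi.single_apply]
    rw [h4, map_sum] at h3
    funext w
    have h5 := congrArg (fun v : EuclideanSpace ℝ W => v w) h3
    simp only [map_smul, WithLp.ofLp_sum, WithLp.ofLp_smul, Finset.sum_apply, Pi.smul_apply,
      smul_eq_mul] at h5
    rw [← h5]
    simp only [Matrix.mulVec, dotProduct, Matrix.of_apply]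
    exact sum_congr rfl fun j _ => mul_comm _ _

/-- The query as a permutation of the basis. -/
def qperm {n : ℕ} (w : ℕ) (x : Fin n → Bool) : Ket n w ≃ Ket n w :=
  Function.Involutive.toPerm (fun p => (p.1, xor p.2.1 (x p.1), p.2.2)) (fun p => by simp)

theorem qperm_apply {n : ℕ} (w : ℕ) (x : Fin n → Bool) (p : Ket n w) :
    qperm w x p = (p.1, xor p.2.1 (x p.1), p.2.2) := rfl

theorem oracle_mulVec {n : ℕ} (w : ℕ) (x : Fin n → Bool) (v : Ket n w → ℂ) :
    (oracle w x).mulVec v = v ∘ qperm w x := by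
  funext p
  simp only [Matrix.mulVec, dotProduct, oracle, Function.comp]
  rw [Finset.sum_eq_single (qperm w x p)]
  · rw [if_pos, one_mul]
    simp [qperm_apply]
  · intro q _ hq
    rw [if_neg, zero_mul]
    rintro rfl
    apply hq
    simp [qperm_apply]
  · simp

theorem orth_normsq' {W : Type} [Fintype W] [DecidableEq W] {U : Matrix W W ℝ} (hU : Uᵀ * U = 1)
    (v : W → ℝ) : ∑ w, (U *ᵥ v) w ^ 2 = ∑ w, v w ^ 2 := by
  have e : ∀ v : W → ℝ, ∑ w, v w ^ 2 = v ⬝ᵥ v := fun v => by simp [dotProduct, sq]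
  rw [e, e, Matrix.dotProduct_mulVec, Matrix.vecMul_mulVec, hU, Matrix.vecMul_one]

/-- Ideal states with matching Gram matrices give a quantum algorithm. -/
theorem quantAlg_of_ideal {n w : ℕ} (f : (Fin n → Bool) → Bool) (T : ℕ) (s : Ket n w)
    (out : Ket n w → Bool) (ξ : Ket n w → ℝ) (hξ : ∑ p, ξ p ^ 2 = 1)
    (Φ : ℕ → (Fin n → Bool) → Ket n w → ℝ)
    (hG : ∀ t < T, ∀ x y, ∑ p, Φ t x (qperm w x p) * Φ t y (qperm w y p) =
      ∑ p, Φ (t + 1) x p * Φ (t + 1) y p)
    (h0 : ∀ x, ∑ p, (ξ p - Φ 0 x p) ^ 2 ≤ 1 / 12)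
    (hT : ∀ x, ∑ p, (if out p = f x then 0 else Φ T x p ^ 2) ≤ 1 / 12) : QuantAlg f T := by
  classical
  have hU : ∀ t, ∃ U : Matrix (Ket n w) (Ket n w) ℝ, Uᵀ * U = 1 ∧
      (t < T → ∀ x, U *ᵥ (Φ t x ∘ qperm w x) = Φ (t + 1) x) := by
    intro t
    by_cases ht : t < T
    · obtain ⟨U, h1, h2⟩ := gram_orth (fun x => Φ t x ∘ qperm w x) (Φ (t + 1)) (hG t ht)
      exact ⟨U, h1, fun _ => h2⟩
    · exact ⟨1, by simp, fun h => absurd h ht⟩
  choose U hU1 hU2 using hU
  obtain ⟨U0, h01, h02⟩ := gram_orth (X := Unit) (fun _ => Pi.single s 1) (fun _ => ξ)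
    (fun _ _ => by
      rw [sum_congr rfl (fun p _ => (sq (ξ p)).symm), hξ]
      simp [Pi.single_apply])
  let V : ℕ → Matrix (Ket n w) (Ket n w) ℝ := fun t => Nat.casesOn t U0 U
  have hV : ∀ t, (V t)ᵀ * V t = 1 := by
    intro t; cases t
    · exact h01
    · exact hU1 _
  let ψ : (Fin n → Bool) → ℕ → Ket n w → ℝ := fun x t =>
    Nat.rec ξ (fun t v => U t *ᵥ (v ∘ qperm w x)) t
  have hψ : ∀ x t, qstate (fun t => (V t).map Complex.ofReal) s x t =
      fun p : Ket n w => Complex.ofReal (ψ x t p) := by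
    intro x t
    induction t with
    | zero =>
      funext p
      have := congrFun (h02 ()) p
      simp only [qstate, ψ, V, Nat.rec_zero] at this ⊢
      rw [← this]
      simp [Matrix.mulVec, dotProduct, Pi.single_apply]
    | succ t ih =>
      funext p
      simp only [qstate, oracle_mulVec, ih]
      simp [ψ, V, Matrix.mulVec, dotProduct]
  have hn : ∀ x t, ∑ p, ψ x t p ^ 2 = 1 := by
    intro x t
    induction t with
    | zero => exact hξ
    | succ t ih =>
      simp only [ψ] at ih ⊢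
      rw [orth_normsq' (hU1 t), ← ih]
      exact Equiv.sum_comp (qperm w x) (fun p => (ψ x t p) ^ 2)
  have he : ∀ x t, t ≤ T → ∑ p, (ψ x t p - Φ t x p) ^ 2 ≤ 1 / 12 := by
    intro x t
    induction t with
    | zero => exact fun _ => h0 x
    | succ t ih =>
      intro ht
      have e : ∀ p, ψ x (t + 1) p - Φ (t + 1) x p =
          (U t *ᵥ ((fun p => ψ x t p - Φ t x p) ∘ qperm w x)) p := by
        intro p
        rw [← hU2 t ht x]
        simp only [ψ, Matrix.mulVec, dotProduct, Function.comp, mul_sub, sum_sub_distrib]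
      simp only [e]
      rw [orth_normsq' (hU1 t)]
      refine le_trans (le_of_eq ?_) (ih (by omega))
      exact Equiv.sum_comp (qperm w x) (fun p => (ψ x t p - Φ t x p) ^ 2)
  refine ⟨w, fun t => (V t).map Complex.ofReal, s, out, fun t => ?_, fun x => ?_⟩
  · rw [Matrix.mem_unitaryGroup_iff']
    ext i j
    have := congrFun (congrFun (hV t) i) j
    simp only [Matrix.mul_apply, Matrix.transpose_apply, Matrix.one_apply] at this
    simp only [Matrix.mul_apply, Matrix.star_apply, Matrix.map_apply, Matrix.one_apply,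
      RCLike.star_def, Complex.conj_ofReal]
    exact_mod_cast (by rw [this]; split_ifs <;> simp : ((∑ x, V t x i * V t x j : ℝ) : ℂ) =
      if i = j then 1 else 0)
  · rw [hψ]
    simp only [Complex.norm_real, Real.norm_eq_abs, sq_abs]
    have h1 : ∑ p, (if out p = f x then ψ x T p ^ 2 else 0) =
        1 - ∑ p, (if out p = f x then 0 else ψ x T p ^ 2) := by
      rw [← hn x T, ← sum_sub_distrib]
      exact sum_congr rfl fun p _ => by split_ifs <;> simp
    have h2 : ∑ p, (if out p = f x then 0 else ψ x T p ^ 2) ≤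
        2 * ∑ p, (ψ x T p - Φ T x p) ^ 2 + 2 * ∑ p, (if out p = f x then 0 else Φ T x p ^ 2) := by
      rw [mul_sum, mul_sum, ← sum_add_distrib]
      refine sum_le_sum fun p _ => ?_
      split_ifs
      · positivity
      · nlinarith [sq_nonneg (ψ x T p - 2 * Φ T x p)]
    linarith [he x T le_rfl, hT x]

end Vale.Agent.P362
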