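import Vale.Agent.P362.Cons

/-! The hard distributions and the hybrid argument. -/

namespace Vale.Agent.P362

open Finset

variable {a r K w : ℕ}

/-- Assembling an input from instances, data and tables. -/
def asm (Z : Vt a × (Fin a × Fin r) → Ps a K → Bool) (D : Vt a → Vt a → Bool)
    (A : Vt a → Vt a → Ai a r K w → Bool) : Ix a r K w → Bool
  | (b, Sum.inl (t, u)) => Z (b, t) u
  | (b, Sum.inr (Sum.inl l)) => D b l
  | (b, Sum.inr (Sum.inr (κ, α))) => A b κ α

/-- The honest table. -/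
def fill (enc : ℤ → Fin w → Bool) (Z : Vt a × (Fin a × Fin r) → Ps a K → Bool) (L : Vt a → Vt a)
    (b : Vt a) : Ai a r K w → Bool
  | Sum.inl (t, j, c, l, k) => enc (honest (Z (b, t)) j c l) k
  | Sum.inr (j, s) => L j s

/-- Every block has one zero, all tables are empty. -/
def x0 (w : ℕ) (Z : Vt a × (Fin a × Fin r) → Ps a K → Bool) (L : Vt a → Vt a) :
    Ix a r K w → Bool := asm Z (fun b l => decide (l ≠ L b)) (fun _ _ _ => false)

/-- The zero of block `b` is removed. -/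
def x2 (w : ℕ) (b : Vt a) (Z : Vt a × (Fin a × Fin r) → Ps a K → Bool) (L : Vt a → Vt a) :
    Ix a r K w → Bool :=
  asm Z (fun b' l => decide (b' = b) || decide (l ≠ L b')) (fun _ _ _ => false)

/-- The table `(b, κ)` is filled. -/
def x1 (enc : ℤ → Fin w → Bool) (b κ : Vt a) (Z : Vt a × (Fin a × Fin r) → Ps a K → Bool)
    (L : Vt a → Vt a) : Ix a r K w → Bool :=
  asm Z (fun b' l => decide (b' = b) || decide (l ≠ L b'))
    (fun b' κ' α => if b' = b ∧ κ' = κ then fill enc Z L b α else false)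

theorem sepF_x0 (dec : (Fin w → Bool) → ℤ) (η δ : ℝ) (Z : Vt a × (Fin a × Fin r) → Ps a K → Bool)
    (L : Vt a → Vt a) : sepF dec η δ (x0 w Z L) = false := by
  rw [← Bool.not_eq_true, sepF_iff]
  rintro ⟨b, κ, h⟩
  simpa [own, dat, x0, asm] using h (Sum.inr (Sum.inr (Sum.inl (L b))))

theorem sepF_x1 (dec : (Fin w → Bool) → ℤ) (enc : ℤ → Fin w → Bool)
    (hde : ∀ n : ℤ, |n| ≤ 2 ^ (a * (K + 1)) → dec (enc n) = n) (η δ : ℝ) (b κ : Vt a)
    (Z : Vt a × (Fin a × Fin r) → Ps a K → Bool) (L : Vt a → Vt a)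
    (h : ∀ s, δ ≤ sg (κ s) * ((∑ ρ, PF K (had η) (Z (b, (s, ρ)))) / r)) :
    sepF dec η δ (x1 enc b κ Z L) = true := by
  rw [sepF_iff]
  have h1 : ∀ t, inst (x1 enc b κ Z L) b t = Z (b, t) := fun t => rfl
  have h2 : ∀ t, tab dec (x1 enc b κ Z L) b κ t = honest (Z (b, t)) := by
    intro t
    funext j c l
    simp only [tab, x1, asm, and_self, if_true, fill]
    exact hde _ (honest_abs _ _ _ _)
  refine ⟨b, κ, ?_⟩
  rintro (⟨t, j, c, l⟩ | s | l | j)
  · simp only [own, h1, h2, decide_eq_true_eq]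
    exact honest_rule _ _ _ _
  · simp only [own, h2, decide_eq_true_eq]
    simpa only [PF_honest] using h s
  · simp [own, dat, x1, asm]
  · have : pnt (x1 enc b κ Z L) b κ j = L j := by
      funext s; simp [pnt, x1, asm, fill]
    simp only [own, kill, this]
    by_cases hj : j = b <;> simp [dat, x1, asm, hj]

/-- All instances have the positive sign. -/
noncomputable def mu0 (a r K : ℕ) (η : ℝ) : Vt a × (Fin a × Fin r) → (Ps a K → Bool) → ℝ :=
  fun _ => muF K (had η) 1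

/-- The instances of block `b` spell the key `κ`. -/
noncomputable def mu1 (r K : ℕ) (η : ℝ) (b κ : Vt a) :
    Vt a × (Fin a × Fin r) → (Ps a K → Bool) → ℝ :=
  fun t => muF K (had η) (if t.1 = b then sg (κ t.2.1) else 1)

/-- Uniform weights. -/
noncomputable def un (a : ℕ) : Vt a → Vt a → ℝ := fun _ _ => 1 / 2 ^ a

theorem mu0_pr (η : ℝ) : IsPr (mu0 a r K η) :=
  ⟨fun _ _ => muF_nonneg _ _ (by simp) _, fun _ => muF_total _ _⟩

theorem mu1_pr (η : ℝ) (b κ : Vt a) : IsPr (mu1 r K η b κ) :=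
  ⟨fun _ _ => muF_nonneg _ _ (by split_ifs <;> simp [sg_abs]) _, fun _ => muF_total _ _⟩

theorem un_pr : IsPr (un a) := ⟨fun _ _ => by unfold un; positivity, fun _ => by simp [un]⟩

theorem hard_one (enc : ℤ → Fin w → Bool) (η adv : ℝ) (q : ℕ) (hadv0 : 0 ≤ adv)
    (hadv : ∀ g : (Ps a K → Bool) → ℝ, DT q g → (∀ x, |g x| ≤ 1) →
      |∑ x, muF K (had η) 1 x * g x - ∑ x, muF K (had η) (-1) x * g x| ≤ adv)
    (b κ : Vt a) (g G : (Ix a r K w → Bool) → ℝ) (G1 : ∀ x, 0 ≤ G x ∧ G x ≤ 1)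
    (G2 : ∀ x x' : Ix a r K w → Bool,
      (∀ i, (∀ α, i ≠ (b, Sum.inr (Sum.inr (κ, α)))) → x' i = x i) → g x' ≤ G x)
    (G3 : ∀ x : Ix a r K w → Bool, DT q (fun z => G (fun i => if i.1 = b then z i else x i))) :
    Ex (un a) (fun L => Ex (mu1 r K η b κ) (fun Z => g (x1 enc b κ Z L))) ≤
      Ex (mu0 a r K η) (fun Z => Ex (un a) (fun L => G (x0 w Z L))) + q / 2 ^ a + a * r * adv := by
  have s1 : ∀ Z L, g (x1 enc b κ Z L) ≤ G (x2 w b Z L) := by
    intro Z L
    refine G2 _ _ ?_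
    rintro ⟨b', ⟨t, u⟩ | l | ⟨κ', α⟩⟩ hi
    · rfl
    · rfl
    · simp only [x1, x2, asm]
      rw [if_neg]
      rintro ⟨rfl, rfl⟩
      exact hi α rfl
  have s2 : ∀ L, Ex (mu1 r K η b κ) (fun Z => G (x2 w b Z L)) ≤
      Ex (mu0 a r K η) (fun Z => G (x2 w b Z L)) + a * r * adv := by
    intro L
    have := Ex_hybrid (mu0_pr η) (fun Z => G (x2 w b Z L)) adv ({b} ×ˢ univ) (mu1 r K η b κ)
      (mu1_pr η b κ) (fun t ht => by
        have : t.1 ≠ b := fun h => ht (mem_product.2 ⟨mem_singleton.2 h, mem_univ _⟩)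
        simp [mu0, mu1, this]) ?_
    · simpa using this
    rintro ⟨b', t⟩ ht Z
    obtain rfl : b' = b := mem_singleton.1 (mem_product.1 ht).1
    have hD : DT q (fun e : Ps a K → Bool => G (x2 w b' (Function.update Z (b', t) e) L)) := by
      refine ((G3 (x2 w b' Z L)).comp (fun e : Ps a K → Bool =>
        x2 w b' (Function.update Z (b', t) e) L) ?_).congr (fun e => ?_)
      · rintro ⟨b'', ⟨t', u⟩ | l | ⟨κ', α⟩⟩
        · by_cases h : (b'', t') = (b', t)
          · right; exact ⟨u, id, fun e => by simp [x2, asm, h]⟩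
          · left; exact ⟨Z (b'', t') u, fun e => by simp [x2, asm, Function.update_of_ne h]⟩
        · left; exact ⟨_, fun e => rfl⟩
        · left; exact ⟨_, fun e => rfl⟩
      · congr 1
        funext i
        split_ifs with hi
        · rfl
        · rcases i with ⟨b'', ⟨t', u⟩ | l | ⟨κ', α⟩⟩
          · have h : (b'', t') ≠ (b', t) := fun h => hi (congrArg Prod.fst h)
            simp [x2, asm, Function.update_of_ne h]
          · rfl
          · rfl
    have := abs_le.1 (hadv _ hD (fun e => abs_le.2 ⟨by linarith [(G1 (x2 w b'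
      (Function.update Z (b', t) e) L)).1], (G1 _).2⟩))
    simp only [mu0, mu1, if_true]
    cases κ t.1 <;> simp only [sg, if_true, Bool.false_eq_true, if_false] <;> linarith [this.1]
  have s3 : ∀ Z, Ex (un a) (fun L => G (x2 w b Z L)) ≤
      Ex (un a) (fun L => G (x0 w Z L)) + q / 2 ^ a := by
    intro Z
    rw [Ex_resample un_pr b (fun L => G (x0 w Z L)), ← Ex_const (un_pr (a := a)) (q / 2 ^ a),
      ← Ex_add]
    refine Ex_mono un_pr fun L => ?_
    let φ : (Vt a → Bool) → Ix a r K w → Bool := fun D =>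
      asm Z (fun b' l => if b' = b then D l else decide (l ≠ L b')) (fun _ _ _ => false)
    have hD : DT q (fun D => G (φ D)) := by
      refine ((G3 (x2 w b Z L)).comp φ ?_).congr (fun D => ?_)
      · rintro ⟨b'', ⟨t', u⟩ | l | ⟨κ', α⟩⟩
        · left; exact ⟨_, fun e => rfl⟩
        · by_cases h : b'' = b
          · right; exact ⟨l, id, fun e => by simp [φ, asm, h]⟩
          · left; exact ⟨decide (l ≠ L b''), fun e => by simp [φ, asm, h]⟩
        · left; exact ⟨_, fun e => rfl⟩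
      · congr 1
        funext i
        split_ifs with hi
        · rfl
        · rcases i with ⟨b'', ⟨t', u⟩ | l | ⟨κ', α⟩⟩
          · rfl
          · have h : b'' ≠ b := hi
            simp [φ, x2, asm, h]
          · rfl
    obtain ⟨C, hC1, hC2⟩ := hD.cert (fun _ => true)
    have e1 : φ (fun _ => true) = x2 w b Z L := by
      unfold x2
      simp only [φ]
      congr 1
      funext b' l
      by_cases h : b' = b <;> simp [h]
    have e2 : ∀ e, φ (fun l => decide (l ≠ e)) = x0 w Z (Function.update L b e) := by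
      intro e
      unfold x0
      simp only [φ]
      congr 1
      funext b' l
      by_cases h : b' = b
      · subst h; simp
      · simp [h]
    have h3 : ∀ e, G (x2 w b Z L) ≤ G (x0 w Z (Function.update L b e)) +
        if e ∈ C then 1 else 0 := by
      intro e
      split_ifs with he
      · linarith [(G1 (x2 w b Z L)).2, (G1 (x0 w Z (Function.update L b e))).1]
      · have := hC2 (fun l => decide (l ≠ e)) (fun l hl => by
          simpa using fun h : l = e => he (h ▸ hl))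
        simp only [e1, e2] at this
        rw [this, add_zero]
    have h4 := sum_le_sum fun e (_ : e ∈ univ) => h3 e
    rw [sum_add_distrib, sum_boole, filter_mem_eq_inter, univ_inter, sum_const] at h4
    simp only [card_univ, Fintype.card_fun, Fintype.card_bool, Fintype.card_fin, nsmul_eq_mul] at h4
    push_cast at h4
    have h5 : (C.card : ℝ) ≤ q := by exact_mod_cast hC1
    simp only [un, ← mul_sum]
    rw [one_div_mul_eq_div, ← add_div, le_div_iff₀ (by positivity)]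
    linarith
  calc _ ≤ Ex (un a) (fun L => Ex (mu0 a r K η) (fun Z => G (x2 w b Z L)) + a * r * adv) :=
        Ex_mono un_pr fun L => (Ex_mono (mu1_pr η b κ) fun Z => s1 Z L).trans (s2 L)
    _ = Ex (mu0 a r K η) (fun Z => Ex (un a) (fun L => G (x2 w b Z L))) + a * r * adv := by
        rw [Ex_add, Ex_const un_pr, Ex_comm]
    _ ≤ _ := by
        have := Ex_mono (mu0_pr (a := a) (r := r) (K := K) η) s3
        rw [Ex_add, Ex_const (mu0_pr η)] at this
        linarith

/-- The table that contains a position. -/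
def akey : Ix a r K w → Option (Vt a × Vt a)
  | (b, Sum.inr (Sum.inr (κ, _))) => some (b, κ)
  | _ => none

theorem sum_label_le {ι Λ : Type} [Fintype ι] [Fintype Λ] [DecidableEq Λ] (lab : ι → Option Λ)
    (c : ι → ℕ) : ∑ p : Λ, ∑ i ∈ univ.filter (fun i => lab i = some p), c i ≤ ∑ i, c i := by
  rw [← sum_fiberwise univ lab c, Fintype.sum_option]
  exact Nat.le_add_left _ _

theorem hard_all (enc : ℤ → Fin w → Bool) (η adv : ℝ) (q : ℕ) (hadv0 : 0 ≤ adv)
    (hadv : ∀ g : (Ps a K → Bool) → ℝ, DT q g → (∀ x, |g x| ≤ 1) →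
      |∑ x, muF K (had η) 1 x * g x - ∑ x, muF K (had η) (-1) x * g x| ≤ adv)
    (d : ℕ) (g : (Ix a r K w → Bool) → ℝ) (hg : DT d g) (hg1 : ∀ x, 0 ≤ g x ∧ g x ≤ 1) :
    ∑ b, ∑ κ, Ex (un a) (fun L => Ex (mu1 r K η b κ) (fun Z => g (x1 enc b κ Z L))) ≤
      2 ^ a * 2 ^ a * (Ex (mu0 a r K η) (fun Z => Ex (un a) (fun L => g (x0 w Z L))) +
        q / 2 ^ a + a * r * adv) + d + 2 ^ a * (d / (q + 1)) := by
  classical
  obtain ⟨c, hc1, hc2⟩ := hg.trunc hg1
  let S : Vt a → Finset (Ix a r K w) := fun b => univ.filter (fun i => i.1 = b)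
  let A : Vt a → Vt a → Finset (Ix a r K w) := fun b κ =>
    univ.filter (fun i => akey i = some (b, κ))
  let E : Vt a → Vt a → (Ix a r K w → Bool) → ℝ := fun b κ x =>
    (∑ i ∈ A b κ, c x i : ℕ) + (∑ i ∈ S b, c x i : ℕ) / (q + 1)
  have h1 : ∀ b κ, Ex (un a) (fun L => Ex (mu1 r K η b κ) (fun Z => g (x1 enc b κ Z L))) ≤
      Ex (mu0 a r K η) (fun Z => Ex (un a) (fun L => g (x0 w Z L))) + q / 2 ^ a + a * r * adv +
      Ex (mu0 a r K η) (fun Z => Ex (un a) (fun L => E b κ (x0 w Z L))) := by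
    intro b κ
    obtain ⟨G, G1, G2, G3, G4⟩ := hc2 (S b) (A b κ) q
    refine (hard_one enc η adv q hadv0 hadv b κ g G G1
      (fun x x' h => G2 x x' fun i hi => h i (fun α e => hi (mem_filter.2 ⟨mem_univ _, by
        rw [e]; rfl⟩)))
      (fun x => (G3 x).congr fun z => by congr 1; funext i; simp [Finset.piecewise, S])).trans ?_
    have : Ex (mu0 a r K η) (fun Z => Ex (un a) (fun L => G (x0 w Z L))) ≤
        Ex (mu0 a r K η) (fun Z => Ex (un a) (fun L => g (x0 w Z L)) +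
          Ex (un a) (fun L => E b κ (x0 w Z L))) := by
      refine Ex_mono (mu0_pr η) fun Z => ?_
      rw [← Ex_add]
      refine Ex_mono un_pr fun L => (G4 _).trans ?_
      simp only [E, add_assoc]
      gcongr
      split_ifs with h
      · rw [le_div_iff₀ (by positivity), one_mul]; exact_mod_cast h
      · positivity
    rw [Ex_add] at this
    linarith
  have h2 : ∀ x, ∑ b, ∑ κ, E b κ x ≤ d + 2 ^ a * (d / (q + 1)) := by
    intro x
    have a1 : ∑ b, ∑ κ, ∑ i ∈ A b κ, c x i ≤ d := by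
      refine le_trans ?_ (hc1 x)
      rw [← Fintype.sum_prod_type' (fun b κ => ∑ i ∈ A b κ, c x i)]
      exact sum_label_le akey (c x)
    have a2 : ∑ b, ∑ i ∈ S b, c x i ≤ d := by
      refine le_trans (le_of_eq ?_) (hc1 x)
      exact sum_fiberwise univ (fun i : Ix a r K w => i.1) (c x)
    have a1' : ∑ b, ∑ κ, ((∑ i ∈ A b κ, c x i : ℕ) : ℝ) ≤ d := by exact_mod_cast a1
    have a2' : ∑ b, ((∑ i ∈ S b, c x i : ℕ) : ℝ) ≤ d := by exact_mod_cast a2
    simp only [E, sum_add_distrib, sum_const, card_univ, Fintype.card_fun, Fintype.card_bool,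
      Fintype.card_fin, nsmul_eq_mul]
    rw [← mul_sum, ← sum_div]
    push_cast at a1' a2' ⊢
    gcongr
  refine (sum_le_sum fun b _ => sum_le_sum fun κ _ => h1 b κ).trans ?_
  generalize Ex (mu0 a r K η) (fun Z => Ex (un a) (fun L => g (x0 w Z L))) + q / 2 ^ a +
    a * r * adv = Y
  simp only [sum_add_distrib, sum_const, card_univ,
    Fintype.card_fun, Fintype.card_bool, Fintype.card_fin, nsmul_eq_mul, ← Ex_sum]
  have h3 : Ex (mu0 a r K η) (fun Z => Ex (un a) (fun L => ∑ b, ∑ κ, E b κ (x0 w Z L))) ≤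
      d + 2 ^ a * (d / (q + 1)) := by
    rw [← Ex_const (mu0_pr (a := a) (r := r) (K := K) η) (d + 2 ^ a * (d / (q + 1)))]
    refine Ex_mono (mu0_pr η) fun Z => ?_
    rw [← Ex_const (un_pr (a := a)) (d + 2 ^ a * (d / (q + 1)))]
    exact Ex_mono un_pr fun L => h2 _
  push_cast
  linarith

theorem good_prob (hr : 1 ≤ r) (dec : (Fin w → Bool) → ℤ) (enc : ℤ → Fin w → Bool)
    (hde : ∀ n : ℤ, |n| ≤ 2 ^ (a * (K + 1)) → dec (enc n) = n) (η δ : ℝ) (hη0 : 0 < η)
    (hη : 2 ^ a * η ^ 2 = 1) (hδ0 : 0 < δ) (hδ : δ ≤ (1 / 8) ^ K / 4) (b κ : Vt a)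
    (L : Vt a → Vt a) :
    1 - a * (4 / r / δ ^ 2) ≤ Ex (mu1 r K η b κ)
      (fun Z => if sepF dec η δ (x1 enc b κ Z L) = true then 1 else 0) := by
  have hcard : Fintype.card (Vt a) = 2 ^ a := by simp
  set γ := gainF (2 ^ a) η ^ K with hγ
  have hγ1 : (1 / 8) ^ K ≤ γ := pow_le_pow_left₀ (by norm_num)
    (gainF_ge _ Nat.one_le_two_pow η hη0 (by exact_mod_cast hη)) K
  have h1 : ∀ s, Ex (mu1 r K η b κ) (fun Z =>
      ((∑ ρ, PF K (had η) (Z (b, (s, ρ)))) / r - sg (κ s) / 2 * γ) ^ 2) ≤ 4 / r := by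
    intro s
    refine Ex_cheb (mu1_pr η b κ) hr (fun ρ => (b, (s, ρ))) (fun ρ ρ' e => by simpa using e)
      (PF K (had η)) (PF_abs _ (had_orth η hη)) _ (fun ρ => ?_)
    simp only [mu1, if_true]
    rw [PF_mean _ η (had_pm η), hcard]
  have h2 : Ex (mu1 r K η b κ) (fun Z => 1 + (-1 / δ ^ 2) * ∑ s,
      ((∑ ρ, PF K (had η) (Z (b, (s, ρ)))) / r - sg (κ s) / 2 * γ) ^ 2) ≤ Ex (mu1 r K η b κ)
      (fun Z => if sepF dec η δ (x1 enc b κ Z L) = true then 1 else 0) := by
    refine Ex_mono (mu1_pr η b κ) fun Z => ?_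
    have hs0 : 0 ≤ ∑ s, ((∑ ρ, PF K (had η) (Z (b, (s, ρ)))) / r - sg (κ s) / 2 * γ) ^ 2 := by
      positivity
    split_ifs with h
    · have : 0 ≤ 1 / δ ^ 2 * ∑ s,
          ((∑ ρ, PF K (had η) (Z (b, (s, ρ)))) / r - sg (κ s) / 2 * γ) ^ 2 := by positivity
      rw [neg_div]; linarith
    · have : ¬ ∀ s, δ ≤ sg (κ s) * ((∑ ρ, PF K (had η) (Z (b, (s, ρ)))) / r) :=
        fun h' => h (sepF_x1 dec enc hde η δ b κ Z L h')
      push Not at this
      obtain ⟨s, hs⟩ := this
      have h3 := single_le_sum (f := fun s => ((∑ ρ, PF K (had η) (Z (b, (s, ρ)))) / r -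
        sg (κ s) / 2 * γ) ^ 2) (fun _ _ => sq_nonneg _) (mem_univ s)
      have h4 : δ ^ 2 ≤ ((∑ ρ, PF K (had η) (Z (b, (s, ρ)))) / r - sg (κ s) / 2 * γ) ^ 2 := by
        revert hs
        generalize (∑ ρ, PF K (had η) (Z (b, (s, ρ)))) / r = p
        cases κ s <;> simp only [sg, if_true, Bool.false_eq_true, if_false] <;> intro hs <;>
          nlinarith
      have h5 : 1 ≤ 1 / δ ^ 2 * ∑ s,
          ((∑ ρ, PF K (had η) (Z (b, (s, ρ)))) / r - sg (κ s) / 2 * γ) ^ 2 := by
        rw [one_div_mul_eq_div, le_div_iff₀ (by positivity)]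
        linarith
      rw [neg_div]; linarith
  refine le_trans ?_ h2
  rw [Ex_add, Ex_const (mu1_pr η b κ), Ex_mul, Ex_sum]
  have h3 := sum_le_sum fun s (_ : s ∈ univ) => h1 s
  simp only [sum_const, card_univ, Fintype.card_fin, nsmul_eq_mul] at h3
  have h4 := mul_le_mul_of_nonneg_left h3 (show 0 ≤ 1 / δ ^ 2 by positivity)
  have e : (a : ℝ) * (4 / r / δ ^ 2) = 1 / δ ^ 2 * (a * (4 / r)) := by ring
  rw [neg_div, e]; linarith

end Vale.Agent.P362
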