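import Vale.Agent.P362.Glue

/-! Choice of the parameters and the separation `R ≥ Q^(4 - ε)`. -/

namespace Vale.Agent.P362

open Finset Filter

/-- The polynomial factor in the quantum cost. -/
def costQ (a r K : ℕ) : ℕ :=
  a * (64 * (K + 1) * 8 ^ K) + (a * r * (K + 1) * (a + 1) + 7 * a + 10) *
    (a * (64 * (K + 1) * 8 ^ K) + ((r + 3) * (a * (K + 1) + 2) + a + 1))

theorem arith1 (l a Y h k p : ℝ) (hl : 1 ≤ l) (ha : 0 ≤ a) (hY : 0 ≤ Y) (hh : 0 ≤ h) (hk : 0 ≤ k)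
    (hp : 0 ≤ p) : a * (l * (32 * k * p)) + (Y * (l * l) + a + 2 * (l * l) + l * l) * h / l ≤
      l * (a * (64 * k * p) + (Y + 7 * a + 10) * h) := by
  have : (Y * (l * l) + a + 2 * (l * l) + l * l) * h / l ≤ l * ((Y + 7 * a + 10) * h) := by
    rw [div_le_iff₀ (by linarith)]
    have h2 : 1 ≤ l * l := by nlinarith
    have h3 : Y * (l * l) + a + 2 * (l * l) + l * l ≤ (Y + 7 * a + 10) * (l * l) := by nlinarith
    nlinarith [mul_le_mul_of_nonneg_right h3 hh]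
  have h4 : 0 ≤ l * (a * (k * p)) := by positivity
  nlinarith

theorem arith2 (l a Y h k p : ℝ) (hl : 0 < l) (ha : 0 ≤ a) (hY : 0 ≤ Y) (hh : 0 ≤ h) :
    l * l * (a * (2 * (32 * k * p / l))) + (6 * a + 7) * h * l ≤
      l * (a * (64 * k * p) + (Y + 7 * a + 10) * h) := by
  have e3 : l * l * (a * (2 * (32 * k * p / l))) = l * (a * (64 * k * p)) := by field_simp; ring
  have : (6 * a + 7) * h ≤ (Y + 7 * a + 10) * h :=
    mul_le_mul_of_nonneg_right (by linarith) hh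
  rw [e3]
  nlinarith [mul_le_mul_of_nonneg_left this hl.le]

theorem quant_bound {a r K : ℕ} (hr : 1 ≤ r) (dec : (Fin (a * (K + 1) + 2) → Bool) → ℤ) (m : ℕ)
    (hm : a = 2 * m) {n : ℕ} (hn : 1 ≤ n) (e : Ix a r K (a * (K + 1) + 2) ≃ Fin n) :
    quantC (fun x : Fin n → Bool => sepF dec (1 / 2 ^ m) ((1 / 8) ^ K / 4) (x ∘ e)) + 1 ≤
      2 ^ m * (6 * costQ a r K + 2) := by
  classical
  have hl : (0 : ℝ) < 2 ^ m := by positivity
  have hl1 : (1 : ℝ) ≤ 2 ^ m := one_le_pow₀ (by norm_num)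
  have hN : (2 : ℝ) ^ a = 2 ^ m * 2 ^ m := by rw [hm, two_mul, pow_add]
  have hη : (2 : ℝ) ^ a * (1 / 2 ^ m) ^ 2 = 1 := by rw [hN]; field_simp
  have hd := sepF_dist (K := K) hr dec (1 / 2 ^ m) ((1 / 8) ^ K / 4) hη (by positivity) hl
  have e1 : (4 : ℝ) * (2 * (K + 1)) / ((1 / 8) ^ K / 4) = 32 * (K + 1) * 8 ^ K := by
    rw [one_div_pow]; field_simp; ring
  have e2 : (8 : ℝ) * (2 * (K + 1)) / ((1 / 8) ^ K / 4) = 64 * (K + 1) * 8 ^ K := by
    rw [one_div_pow]; field_simp; ring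
  rw [e1, e2] at hd
  set h' : ℝ := a * (64 * (K + 1) * 8 ^ K) + ((r + 3) * (a * (K + 1) + 2) + a + 1 : ℕ) with hh'
  have hh0 : 0 ≤ h' := by positivity
  have hc : (costQ a r K : ℝ) = a * (64 * (K + 1) * 8 ^ K) +
      (a * r * (K + 1) * (a + 1) + 7 * a + 10) * h' := by
    rw [hh', costQ]; push_cast; ring
  have hcV : (Fintype.card (Vt a) : ℝ) = 2 ^ m * 2 ^ m := by simp [hN]
  have hcO : (Fintype.card (Ck a r K) : ℝ) =
      a * r * (K + 1) * (a + 1) * (2 ^ m * 2 ^ m) + a + 2 * (2 ^ m * 2 ^ m) := by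
    simp [hN]; ring
  rw [hcV, hcO] at hd
  have hX : (0 : ℝ) ≤ a * ((K + 1) * 8 ^ K) := by positivity
  have hY : (0 : ℝ) ≤ a * r * (K + 1) * (a + 1) := by positivity
  have ha : (0 : ℝ) ≤ a := by positivity
  have hd2 := (hd.mono (fun _ _ h => h) (a' := fun _ => 2 ^ m * costQ a r K)
    (b' := fun _ => 2 ^ m * costQ a r K) (fun _ => ?_) (fun _ => ?_)).equiv e
  · have hq := quantAlg_of_dist hn _ _ (2 ^ m * (6 * costQ a r K + 1))
      (Nat.mul_pos (by positivity) (by omega)) (by push_cast; nlinarith) hd2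
    have : quantC (fun x : Fin n → Bool => sepF dec (1 / 2 ^ m) ((1 / 8) ^ K / 4) (x ∘ e)) ≤ _ :=
      Nat.sInf_le hq
    have h1 : 1 ≤ 2 ^ m := Nat.one_le_two_pow
    nlinarith
  · rw [hc]
    exact arith1 _ _ _ _ _ _ hl1 ha hY hh0 (by positivity) (by positivity)
  · rw [hc]
    exact arith2 _ _ _ _ _ _ hl ha hY hh0

theorem adv_bound (F t : ℕ) (h1 : 432 * (4 * F + 7 + 1) ≤ 2 ^ t)
    (g : (Ps (2 * ((F + 1) * t)) (4 * F + 7) → Bool) → ℝ) (hg : DT (2 ^ ((2 * F + 1) * t)) g)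
    (hg1 : ∀ x, |g x| ≤ 1) :
    |∑ x, muF (4 * F + 7) (had (1 / 2 ^ ((F + 1) * t))) 1 x * g x -
      ∑ x, muF (4 * F + 7) (had (1 / 2 ^ ((F + 1) * t))) (-1) x * g x| ≤
      (3 * (432 * (4 * F + 7 + 1)) ^ (F + 2) : ℕ) / 2 ^ t := by
  have hu : (((4 * F + 7 + 1 : ℕ) : ℝ) * Fintype.card (Vt (2 * ((F + 1) * t)))) *
      (432 * ((2 ^ ((2 * F + 1) * t) : ℕ) : ℝ) * (1 / 2 ^ ((F + 1) * t)) ^ 4) =
      (432 * (4 * F + 7 + 1) : ℕ) / 2 ^ t := by
    simp only [Fintype.card_fun, Fintype.card_bool, Fintype.card_fin]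
    push_cast
    field_simp
    ring
  have h2 := forr_adv (K := 4 * F + 7) (had (1 / 2 ^ ((F + 1) * t))) (1 / 2 ^ ((F + 1) * t))
    (by positivity) (fun l i => by
      rcases had_pm (1 / 2 ^ ((F + 1) * t)) l i with h | h <;> rw [h]
      · rw [abs_of_pos (by positivity)]
      · rw [abs_neg, abs_of_pos (by positivity)])
    _ Nat.one_le_two_pow g hg hg1 (by
      rw [hu, div_le_one (by positivity)]; exact_mod_cast h1)
  rw [hu] at h2
  set X := |∑ x, muF (4 * F + 7) (had (1 / 2 ^ ((F + 1) * t))) 1 x * g x -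
      ∑ x, muF (4 * F + 7) (had (1 / 2 ^ ((F + 1) * t))) (-1) x * g x|
  set C : ℝ := ((432 * (4 * F + 7 + 1) : ℕ) : ℝ) with hC
  have hC0 : 0 ≤ C := by positivity
  have e : ((3 * (432 * (4 * F + 7 + 1)) ^ (F + 2) : ℕ) : ℝ) = 3 * C ^ (F + 2) := by
    rw [hC]; push_cast; ring
  rw [e]
  refine le_of_pow_le_pow_left₀ (n := 4) (by norm_num) (by positivity) ?_
  have h3 : X ^ 4 = (1 / 2 ^ ((F + 1) * t) * X) ^ 4 * (2 ^ ((F + 1) * t)) ^ 4 := by
    field_simp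
  rw [h3]
  refine (mul_le_mul_of_nonneg_right h2 (by positivity)).trans ?_
  have e2 : 9 * (C / 2 ^ t) ^ (4 * F + 7 + 1) * (2 ^ ((F + 1) * t)) ^ 4 =
      9 * ((C ^ (F + 2) / 2 ^ t) ^ 4) := by
    rw [div_pow, div_pow]; field_simp; ring
  have e3 : (3 * C ^ (F + 2) / 2 ^ t) ^ 4 = 81 * ((C ^ (F + 2) / 2 ^ t) ^ 4) := by ring
  rw [e2, e3]
  gcongr; norm_num

theorem separation (F t : ℕ) (ht : 1 ≤ t) (h1 : 432 * (4 * F + 7 + 1) ≤ 2 ^ t) (h2 : 20 ≤ 2 ^ t)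
    (h3 : 20 * (2 * ((F + 1) * t) * (640 * 64 ^ (4 * F + 7) * (2 * ((F + 1) * t))) *
      (3 * (432 * (4 * F + 7 + 1)) ^ (F + 2))) ≤ 2 ^ t)
    (h4 : 6 * costQ (2 * ((F + 1) * t)) (640 * 64 ^ (4 * F + 7) * (2 * ((F + 1) * t)))
      (4 * F + 7) + 2 ≤ 2 ^ t) :
    ∃ n, 1 ≤ n ∧ ∃ f : (Fin n → Bool) → Bool,
      (2 : ℝ) ^ ((4 * F + 3) * t) ≤ 12 * randC f ∧ quantC f + 1 ≤ 2 ^ ((F + 2) * t) := by
  have hadv := adv_bound F t h1
  set m := (F + 1) * t with hm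
  set a := 2 * m with ha
  set K := 4 * F + 7 with hK
  set r := 640 * 64 ^ K * a with hr
  set C2 := 3 * (432 * (K + 1)) ^ (F + 2) with hC2
  have ha1 : 1 ≤ a := by
    have : 1 ≤ m := Nat.mul_pos (by omega) ht
    omega
  have hr1 : 1 ≤ r := Nat.mul_pos (by positivity) ha1
  obtain ⟨dec, enc, hde⟩ := exists_code (a * (K + 1))
  let e := Fintype.equivFin (Ix a r K (a * (K + 1) + 2))
  have hn : 1 ≤ Fintype.card (Ix a r K (a * (K + 1) + 2)) :=
    Fintype.card_pos_iff.2 ⟨(fun _ => false, Sum.inr (Sum.inl fun _ => false))⟩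
  refine ⟨_, hn, fun x => sepF dec (1 / 2 ^ m) ((1 / 8) ^ K / 4) (x ∘ e), ?_, ?_⟩
  · have hN : (2 : ℝ) ^ a = 2 ^ m * 2 ^ m := by rw [ha, two_mul, pow_add]
    have h5 := rand_ineq hr1 dec enc hde (1 / 2 ^ m) ((1 / 8) ^ K / 4) (by positivity)
      (by rw [hN]; field_simp) (by positivity) le_rfl _ _ (by positivity) hadv e _
      (randAlg_randC _)
    generalize randC (fun x => sepF dec (1 / 2 ^ m) ((1 / 8) ^ K / 4) (x ∘ e)) = d at h5 ⊢
    have hd : (0 : ℝ) ≤ d := by positivity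
    have hNq : (2 : ℝ) ^ a = 2 ^ ((2 * F + 1) * t) * 2 ^ t := by
      rw [← pow_add, ha, hm]; congr 1; ring
    have hgoal : (2 : ℝ) ^ ((4 * F + 3) * t) = 2 ^ a * 2 ^ ((2 * F + 1) * t) := by
      rw [← pow_add, ha, hm]; congr 1; ring
    have ha0 : (0 : ℝ) < a := by exact_mod_cast ha1
    have k1 : (a : ℝ) * (4 / r / ((1 / 8) ^ K / 4) ^ 2) = 1 / 10 := by
      rw [hr, one_div_pow]
      push_cast
      have : (64 : ℝ) ^ K = 8 ^ K * 8 ^ K := by rw [← mul_pow]; norm_num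
      rw [this]; field_simp; norm_num
    have h2' : (20 : ℝ) ≤ 2 ^ t := by exact_mod_cast h2
    have h3' : (20 : ℝ) * (a * r * C2) ≤ 2 ^ t := by exact_mod_cast h3
    have k3 : (a : ℝ) * r * (C2 / 2 ^ t) ≤ 1 / 20 := by
      rw [← mul_div_assoc, div_le_iff₀ (by positivity)]; linarith
    rw [k1] at h5
    rw [hgoal]
    push_cast at h5
    generalize (a : ℝ) * r * (C2 / 2 ^ t) = y at h5 k3
    have hq : (1 : ℝ) ≤ 2 ^ ((2 * F + 1) * t) := one_le_pow₀ (by norm_num)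
    rw [hNq] at h5 ⊢
    generalize (2 : ℝ) ^ ((2 * F + 1) * t) = q at h5 hq ⊢
    generalize (2 : ℝ) ^ t = s at h5 h2' ⊢
    have k2 : q / (q * s) ≤ 1 / 20 := by
      rw [div_le_iff₀ (by positivity)]; nlinarith
    have k4 : q * s * (d / (q + 1)) ≤ s * d := by
      rw [← mul_div_assoc, div_le_iff₀ (by positivity)]
      nlinarith [mul_nonneg (by linarith : (0 : ℝ) ≤ s) hd]
    have k5 : q * s * (q * s) * (1 / 3 + q / (q * s) + y) ≤
        q * s * (q * s) * (1 / 3 + 1 / 20 + 1 / 20) := by gcongr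
    have k6 : s * (q * s * q) ≤ s * (12 * d) := by nlinarith
    exact le_of_mul_le_mul_left k6 (by linarith)
  · refine (quant_bound hr1 dec m ha hn e).trans ?_
    calc _ ≤ 2 ^ m * 2 ^ t := Nat.mul_le_mul_left _ h4
      _ = _ := by rw [← pow_add, hm]; congr 1; ring

/-- Polynomially bounded sequences. -/
def PB (F : ℕ → ℕ) : Prop := ∃ C c : ℕ, ∀ t, F t ≤ C * (t + 1) ^ c

theorem PB.const (c : ℕ) : PB (fun _ => c) := ⟨c, 0, by simp⟩

theorem PB.id : PB (fun t => t) := ⟨1, 1, by simp⟩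

theorem PB.add {F G : ℕ → ℕ} (hF : PB F) (hG : PB G) : PB (fun t => F t + G t) := by
  obtain ⟨C, c, h⟩ := hF
  obtain ⟨D, d, h'⟩ := hG
  refine ⟨C + D, c + d, fun t => ?_⟩
  have h1 : (t + 1) ^ c ≤ (t + 1) ^ (c + d) := Nat.pow_le_pow_right (by omega) (by omega)
  have h2 : (t + 1) ^ d ≤ (t + 1) ^ (c + d) := Nat.pow_le_pow_right (by omega) (by omega)
  have := h t
  have := h' t
  nlinarith [Nat.mul_le_mul_left C h1, Nat.mul_le_mul_left D h2]

theorem PB.mul {F G : ℕ → ℕ} (hF : PB F) (hG : PB G) : PB (fun t => F t * G t) := by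
  obtain ⟨C, c, h⟩ := hF
  obtain ⟨D, d, h'⟩ := hG
  refine ⟨C * D, c + d, fun t => (Nat.mul_le_mul (h t) (h' t)).trans (le_of_eq ?_)⟩
  ring

theorem PB.ev {F : ℕ → ℕ} (hF : PB F) : ∀ᶠ t in atTop, F t ≤ 2 ^ t := by
  obtain ⟨C, c, h⟩ := hF
  have h1 := (isLittleO_pow_const_const_pow_of_one_lt (R := ℝ) c (r := 2) (by norm_num)).def
    (c := 1 / (2 * (C + 1))) (by positivity)
  have h2 := (tendsto_add_atTop_nat 1).eventually h1
  filter_upwards [h2] with t ht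
  rw [Real.norm_of_nonneg (by positivity), Real.norm_of_nonneg (by positivity), pow_succ] at ht
  have h3 : (C : ℝ) * ((t + 1 : ℕ) : ℝ) ^ c ≤ 2 ^ t := by
    have h4 : ((C : ℝ) + 1) * ((t + 1 : ℕ) : ℝ) ^ c ≤ (C + 1) * (1 / (2 * (C + 1)) * (2 ^ t * 2)) := by
      gcongr
    have e : ((C : ℝ) + 1) * (1 / (2 * (C + 1)) * (2 ^ t * 2)) = 2 ^ t := by field_simp
    have : (0 : ℝ) ≤ ((t + 1 : ℕ) : ℝ) ^ c := by positivity
    nlinarith
  exact (h t).trans (by exact_mod_cast h3)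

theorem separation_ev (F : ℕ) : ∀ᶠ t in atTop, ∃ n, 1 ≤ n ∧ ∃ f : (Fin n → Bool) → Bool,
    (2 : ℝ) ^ ((4 * F + 3) * t) ≤ 12 * randC f ∧ quantC f + 1 ≤ 2 ^ ((F + 2) * t) := by
  have p3 : PB (fun t => 20 * (2 * ((F + 1) * t) * (640 * 64 ^ (4 * F + 7) * (2 * ((F + 1) * t))) *
      (3 * (432 * (4 * F + 7 + 1)) ^ (F + 2)))) := by
    repeat' first | exact PB.const _ | exact PB.id | apply PB.add | apply PB.mul
  have p4 : PB (fun t => 6 * costQ (2 * ((F + 1) * t))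
      (640 * 64 ^ (4 * F + 7) * (2 * ((F + 1) * t))) (4 * F + 7) + 2) := by
    unfold costQ
    repeat' first | exact PB.const _ | exact PB.id | apply PB.add | apply PB.mul
  filter_upwards [eventually_ge_atTop 1, (PB.const (432 * (4 * F + 7 + 1))).ev, (PB.const 20).ev,
    p3.ev, p4.ev] with t ht h1 h2 h3 h4
  exact separation F t ht h1 h2 h3 h4

theorem four_mem : (4 : ℝ) ∈ exponents := by
  refine ⟨by norm_num, 36 ^ 4, fun n hn f => ?_⟩
  have h1 : (randC f : ℝ) ≤ (36 * quantC f) ^ 4 := by exact_mod_cast randC_le hn f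
  have e : (1 + (quantC f : ℝ)) ^ (4 : ℝ) = (1 + (quantC f : ℝ)) ^ 4 := by
    exact_mod_cast Real.rpow_natCast (1 + (quantC f : ℝ)) 4
  rw [e, ← mul_pow]
  refine h1.trans ?_
  gcongr
  linarith

theorem four_le {α : ℝ} (h : α ∈ exponents) : 4 ≤ α := by
  obtain ⟨h0, C, hC⟩ := h
  by_contra hlt
  rw [not_le] at hlt
  obtain ⟨F, hF⟩ := exists_nat_ge ((2 * α) / (4 - α))
  rw [div_le_iff₀ (by linarith)] at hF
  have h2 := tendsto_pow_atTop_atTop_of_one_lt (show (1 : ℝ) < 2 by norm_num)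
  obtain ⟨t, ⟨n, hn, f, hR, hQ⟩, ht⟩ :=
    ((separation_ev F).and (h2.eventually (eventually_gt_atTop (12 * max C 0)))).exists
  have h3 := hC n hn f
  have h4 : (1 + (quantC f : ℝ)) ^ α ≤ 2 ^ ((4 * F + 2) * t) := by
    have h5 : 1 + (quantC f : ℝ) ≤ 2 ^ ((F + 2) * t) := by
      rw [add_comm]; exact_mod_cast hQ
    refine (Real.rpow_le_rpow (by positivity) h5 h0).trans ?_
    rw [← Real.rpow_natCast, ← Real.rpow_mul (by norm_num), ← Real.rpow_natCast]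
    refine Real.rpow_le_rpow_of_exponent_le (by norm_num) ?_
    push_cast
    have : (0 : ℝ) ≤ t := by positivity
    have : ((F : ℝ) + 2) * α ≤ 4 * F + 2 := by nlinarith
    nlinarith
  have h6 : C * (1 + (quantC f : ℝ)) ^ α ≤ max C 0 * 2 ^ ((4 * F + 2) * t) :=
    mul_le_mul (le_max_left _ _) h4 (by positivity) (le_max_right _ _)
  have e : (2 : ℝ) ^ ((4 * F + 3) * t) = 2 ^ t * 2 ^ ((4 * F + 2) * t) := by
    rw [← pow_add]; congr 1; ring
  have h7 : (0 : ℝ) < 2 ^ ((4 * F + 2) * t) := by positivity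
  nlinarith

end Vale.Agent.P362
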