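import Mathlib

/-! Upper bound D = O(Q^4): combinatorial part (depth predicate, block sensitivity, Fourier). -/

set_option linter.unusedSectionVars false

namespace Vale.Agent.P362.Up

open Finset

variable {ι : Type} [Fintype ι] [DecidableEq ι]

/-- `Depth d g`: `g` is computed by a decision tree of depth at most `d`. -/
inductive Depth : ℕ → ((ι → Bool) → Bool) → Prop
  | const (d : ℕ) (b : Bool) : Depth d (fun _ => b)
  | query (d : ℕ) (i : ι) (g0 g1 : (ι → Bool) → Bool) :
      Depth d g0 → Depth d g1 → Depth (d + 1) (fun x => if x i then g1 x else g0 x)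

theorem Depth.succ {d : ℕ} {g : (ι → Bool) → Bool} (h : Depth d g) : Depth (d + 1) g := by
  induction h with
  | const d b => exact Depth.const _ b
  | query d i g0 g1 _ _ ih0 ih1 => exact Depth.query _ i g0 g1 ih0 ih1

theorem Depth.mono {d e : ℕ} {g : (ι → Bool) → Bool} (h : Depth d g) (hde : d ≤ e) :
    Depth e g := by
  induction hde with
  | refl => exact h
  | step _ ih => exact ih.succ

/-- Querying all coordinates of `S`. -/
theorem Depth.of_restrict (S : Finset ι) (m : ℕ) :
    ∀ g : (ι → Bool) → Bool, (∀ a : ι → Bool, Depth m (fun y => g (S.piecewise a y))) →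
      Depth (m + S.card) g := by
  induction S using Finset.induction_on with
  | empty => intro g h; simpa using h (fun _ => false)
  | insert i S hi ih =>
    intro g h
    have key : ∀ b : Bool, Depth (m + S.card) (fun y => g (Function.update y i b)) := by
      intro b
      apply ih
      intro a
      have := h (Function.update a i b)
      convert this using 3 with y
      funext j
      by_cases hj : j = i
      · subst hj; simp [Finset.piecewise]
      · by_cases hS : j ∈ S <;> simp [Finset.piecewise, hj, hS]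
    have := Depth.query _ i _ _ (key false) (key true)
    rw [Finset.card_insert_of_notMem hi, ← add_assoc]
    convert this using 2 with x
    cases hx : x i
    · simp only [Bool.false_eq_true, if_false]; rw [← hx, Function.update_eq_self]
    · simp only [if_true]; rw [← hx, Function.update_eq_self]

/-- The dual form of the positive-weight adversary bound. -/
def Adv (g : (ι → Bool) → Bool) (T : ℝ) : Prop :=
  ∃ P : (ι → Bool) → ι → ℝ, (∀ x i, 0 ≤ P x i) ∧ (∀ x, ∑ i, P x i ≤ T) ∧
    ∀ x y, g x ≠ g y →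
      1 ≤ (∑ i with x i ≠ y i, P x i) * (∑ i with x i ≠ y i, P y i)

theorem Adv.restrict {g : (ι → Bool) → Bool} {T : ℝ} (h : Adv g T) (S : Finset ι)
    (a : ι → Bool) : Adv (fun y => g (S.piecewise a y)) T := by
  obtain ⟨P, h0, h1, h2⟩ := h
  refine ⟨fun y => P (S.piecewise a y), fun _ _ => h0 _ _, fun _ => h1 _, fun x y hxy => ?_⟩
  have hsub : (univ.filter fun i => S.piecewise a x i ≠ S.piecewise a y i) ⊆
      univ.filter fun i => x i ≠ y i := by
    intro i hi
    simp only [mem_filter, mem_univ, true_and] at hi ⊢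
    intro he
    apply hi
    by_cases hS : i ∈ S <;> simp [Finset.piecewise, hS, he]
  refine (h2 _ _ hxy).trans (mul_le_mul ?_ ?_ ?_ ?_)
  · exact sum_le_sum_of_subset_of_nonneg hsub fun _ _ _ => h0 _ _
  · exact sum_le_sum_of_subset_of_nonneg hsub fun _ _ _ => h0 _ _
  · exact sum_nonneg fun _ _ => h0 _ _
  · exact sum_nonneg fun _ _ => h0 _ _

/-- Block sensitivity at most `k`. -/
def BS (g : (ι → Bool) → Bool) (k : ℕ) : Prop :=
  ∀ (x : ι → Bool) (j : ℕ) (Y : Fin j → ι → Bool), (∀ a, g (Y a) ≠ g x) →
    (∀ a b, a ≠ b → ∀ i, Y a i = x i ∨ Y b i = x i) → j ≤ k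

theorem Adv.bs {g : (ι → Bool) → Bool} {T : ℝ} (h : Adv g T) {k : ℕ} (hk : T ^ 2 < k + 1) :
    BS g k := by
  obtain ⟨P, h0, h1, h2⟩ := h
  intro x j Y hY hd
  have hT : 0 ≤ T := (sum_nonneg fun _ _ => h0 x _).trans (h1 x)
  have h3 : ∀ a, 1 ≤ (∑ i with x i ≠ Y a i, P x i) * T := by
    intro a
    refine (h2 x (Y a) (hY a).symm).trans (mul_le_mul_of_nonneg_left ?_ ?_)
    · exact (sum_le_sum_of_subset_of_nonneg (filter_subset _ _) fun _ _ _ => h0 _ _).trans (h1 _)
    · exact sum_nonneg fun _ _ => h0 _ _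
  have h4 : ∑ a : Fin j, ∑ i with x i ≠ Y a i, P x i ≤ T := by
    rw [← Finset.sum_biUnion]
    · exact (sum_le_sum_of_subset_of_nonneg (subset_univ _) fun _ _ _ => h0 _ _).trans (h1 _)
    · intro a _ b _ hab
      rw [Function.onFun, Finset.disjoint_filter]
      intro i _ ha hb
      rcases hd a b hab i with h | h
      · exact ha h.symm
      · exact hb h.symm
  have h5 : (j : ℝ) ≤ T ^ 2 := by
    calc (j : ℝ) = ∑ _a : Fin j, (1 : ℝ) := by simp
      _ ≤ ∑ a : Fin j, (∑ i with x i ≠ Y a i, P x i) * T := sum_le_sum fun a _ => h3 a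
      _ = (∑ a : Fin j, ∑ i with x i ≠ Y a i, P x i) * T := by rw [Finset.sum_mul]
      _ ≤ T * T := mul_le_mul_of_nonneg_right h4 hT
      _ = T ^ 2 := by ring
  have : (j : ℝ) < k + 1 := lt_of_le_of_lt h5 hk
  have : j < k + 1 := by exact_mod_cast this
  omega

/-- Sign of a bit. -/
def sg (b : Bool) : ℝ := if b then -1 else 1

theorem sg_mul_self (b : Bool) : sg b * sg b = 1 := by cases b <;> simp [sg]

theorem sg_not (b : Bool) : sg (!b) = - sg b := by cases b <;> simp [sg]

/-- Character of a set of coordinates. -/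
def chi (S : Finset ι) (y : ι → Bool) : ℝ := ∏ i ∈ S, sg (y i)

/-- Unnormalised Fourier coefficient. -/
def fc (g : (ι → Bool) → Bool) (S : Finset ι) : ℝ := ∑ y, chi S y * sg (g y)

/-- Flip one coordinate. -/
def fl (x : ι → Bool) (i : ι) : ι → Bool := Function.update x i (!x i)

theorem fl_fl (x : ι → Bool) (i : ι) : fl (fl x i) i = x := by
  funext j
  by_cases h : j = i
  · subst h; simp [fl]
  · simp [fl, h]

theorem fl_comm (x : ι → Bool) (i j : ι) : fl (fl x i) j = fl (fl x j) i := by
  by_cases hij : i = j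
  · subst hij; rfl
  funext l
  by_cases h : l = i
  · subst h; simp [fl, hij, Ne.symm hij]
  · by_cases h' : l = j
    · subst h'; simp [fl, hij, Ne.symm hij]
    · simp [fl, h, h']

/-- Flipping as a permutation. -/
def flE (i : ι) : (ι → Bool) ≃ (ι → Bool) :=
  ⟨fun x => fl x i, fun x => fl x i, fun x => fl_fl x i, fun x => fl_fl x i⟩

theorem chi_fl_mem {S : Finset ι} {i : ι} (hi : i ∈ S) (y : ι → Bool) :
    chi S (fl y i) = - chi S y := by
  unfold chi
  rw [← Finset.mul_prod_erase S _ hi, ← Finset.mul_prod_erase S _ hi]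
  have : ∏ j ∈ S.erase i, sg (fl y i j) = ∏ j ∈ S.erase i, sg (y j) := by
    apply Finset.prod_congr rfl
    intro j hj
    simp [fl, (Finset.mem_erase.1 hj).1]
  rw [this]
  simp [fl, sg_not]

theorem chi_fl_notMem {S : Finset ι} {i : ι} (hi : i ∉ S) (y : ι → Bool) :
    chi S (fl y i) = chi S y := by
  unfold chi
  apply Finset.prod_congr rfl
  intro j hj
  have : j ≠ i := fun h => hi (h ▸ hj)
  simp [fl, this]

theorem chi_mul_self (S : Finset ι) (y : ι → Bool) : chi S y * chi S y = 1 := by
  unfold chi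
  rw [← Finset.prod_mul_distrib]
  simp [sg_mul_self]

theorem subcube_identity (g : (ι → Bool) → Bool) (S : Finset ι) (x : ι → Bool) :
    ∑ y, chi S y * sg (g y) * ∏ i ∈ Sᶜ, (1 + sg (x i) * sg (y i)) =
      ∑ T ∈ Sᶜ.powerset, chi T x * fc g (S ∪ T) := by
  simp only [Finset.prod_one_add, Finset.mul_sum, fc]
  rw [Finset.sum_comm]
  refine Finset.sum_congr rfl fun T hT => Finset.sum_congr rfl fun y _ => ?_
  have hd : Disjoint S T := by
    rw [Finset.disjoint_left]
    intro i hi hiT
    have := Finset.mem_powerset.1 hT hiT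
    simp at this
    exact this hi
  unfold chi
  rw [Finset.prod_union hd, Finset.prod_mul_distrib]
  ring

theorem prod_one_add_eq_zero {S : Finset ι} {x y : ι → Bool} (h : ¬ ∀ i ∈ S, y i = x i) :
    ∏ i ∈ S, (1 + sg (x i) * sg (y i)) = 0 := by
  push Not at h
  obtain ⟨i, hi, hne⟩ := h
  apply Finset.prod_eq_zero hi
  revert hne
  cases x i <;> cases y i <;> simp [sg]

/-- A maximal nonzero Fourier set contains a sensitive block at every point. -/
theorem exists_block {g : (ι → Bool) → Bool} {S : Finset ι} (hS : S.Nonempty) (h0 : fc g S ≠ 0)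
    (hmax : ∀ T, fc g T ≠ 0 → T.card ≤ S.card) (x : ι → Bool) :
    ∃ y : ι → Bool, (∀ i, i ∉ S → y i = x i) ∧ g y ≠ g x := by
  by_contra hcon
  push Not at hcon
  have hid := subcube_identity g S x
  have hR : ∑ T ∈ Sᶜ.powerset, chi T x * fc g (S ∪ T) = fc g S := by
    rw [Finset.sum_eq_single ∅]
    · simp [chi]
    · intro T hT hne
      have hd : Disjoint S T := by
        rw [Finset.disjoint_left]
        intro i hi hiT
        have := Finset.mem_powerset.1 hT hiT
        simp at this
        exact this hi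
      have : fc g (S ∪ T) = 0 := by
        by_contra hc
        have := hmax _ hc
        rw [Finset.card_union_of_disjoint hd] at this
        have : T.card = 0 := by omega
        exact hne (Finset.card_eq_zero.1 this)
      simp [this]
    · simp
  have hL : ∑ y, chi S y * sg (g y) * ∏ i ∈ Sᶜ, (1 + sg (x i) * sg (y i)) =
      ∑ y, chi S y * sg (g x) * ∏ i ∈ Sᶜ, (1 + sg (x i) * sg (y i)) := by
    refine Finset.sum_congr rfl fun y _ => ?_
    by_cases hy : ∀ i ∈ Sᶜ, y i = x i
    · rw [hcon y fun i hi => hy i (by simpa using hi)]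
    · rw [prod_one_add_eq_zero hy]; simp
  obtain ⟨i0, hi0⟩ := hS
  have hZ : ∑ y, chi S y * sg (g x) * ∏ i ∈ Sᶜ, (1 + sg (x i) * sg (y i)) =
      - ∑ y, chi S y * sg (g x) * ∏ i ∈ Sᶜ, (1 + sg (x i) * sg (y i)) := by
    conv_lhs => rw [← Equiv.sum_comp (flE i0)]
    rw [← Finset.sum_neg_distrib]
    refine Finset.sum_congr rfl fun y _ => ?_
    have : ∏ i ∈ Sᶜ, (1 + sg (x i) * sg (flE i0 y i)) = ∏ i ∈ Sᶜ, (1 + sg (x i) * sg (y i)) := by
      refine Finset.prod_congr rfl fun i hi => ?_
      have : i ≠ i0 := by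
        rintro rfl
        simp [hi0] at hi
      simp [flE, fl, this]
    rw [this]
    simp only [flE, Equiv.coe_fn_mk, chi_fl_mem hi0]
    ring
  apply h0
  rw [← hR, ← hid, hL]
  linarith

theorem const_of_fc {g : (ι → Bool) → Bool} (h : ∀ T, T.Nonempty → fc g T = 0)
    (x x' : ι → Bool) : g x = g x' := by
  have key : ∀ x : ι → Bool, sg (g x) * 2 ^ Fintype.card ι = fc g ∅ := by
    intro x
    have hid := subcube_identity g ∅ x
    rw [Finset.sum_eq_single x, Finset.sum_eq_single ∅] at hid
    · simpa [chi, sg_mul_self, one_add_one_eq_two] using hid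
    · intro T _ hne
      simp [h T (Finset.nonempty_iff_ne_empty.2 hne)]
    · simp
    · intro y _ hne
      rw [prod_one_add_eq_zero, mul_zero]
      intro hc
      exact hne (funext fun i => hc i (by simp))
    · simp
  have := (key x).trans (key x').symm
  have h2 : sg (g x) = sg (g x') := mul_right_cancel₀ (by positivity) this
  revert h2
  cases g x <;> cases g x' <;> simp [sg] <;> norm_num

theorem BS.restrict {g : (ι → Bool) → Bool} {k : ℕ} (h : BS g (k + 1)) {S : Finset ι}
    (hS : ∀ x : ι → Bool, ∃ y : ι → Bool, (∀ i, i ∉ S → y i = x i) ∧ g y ≠ g x) (a : ι → Bool) :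
    BS (fun y => g (S.piecewise a y)) k := by
  intro x j Y hY hd
  obtain ⟨y0, hy0, hg0⟩ := hS (S.piecewise a x)
  have := h (S.piecewise a x) (j + 1) (Fin.cons y0 fun c => S.piecewise a (Y c)) ?_ ?_
  · omega
  · intro c
    refine Fin.cases ?_ (fun c => ?_) c
    · simpa using hg0
    · simpa using hY c
  · intro c c' hcc i
    by_cases hi : i ∈ S
    · revert hcc
      refine Fin.cases ?_ (fun c => ?_) c
      · refine Fin.cases ?_ (fun c' => ?_) c'
        · simp
        · intro _; right; simp [Finset.piecewise, hi]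
      · intro _; left; simp [Finset.piecewise, hi]
    · revert hcc
      refine Fin.cases ?_ (fun c => ?_) c
      · intro _; left; simpa using hy0 i hi
      · refine Fin.cases ?_ (fun c' => ?_) c'
        · intro _; right; simpa using hy0 i hi
        · intro hcc
          have : c ≠ c' := fun h => hcc (by rw [h])
          simpa [Finset.piecewise, hi] using hd c c' this i

end Vale.Agent.P362.Up
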