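import Vale.Agent.P362.UpDefs

/-! Huang's signed matrix: a nonzero Fourier coefficient on `S` forces `|S| ≤ T^2`. -/

set_option linter.unusedSectionVars false

namespace Vale.Agent.P362.Up

open Finset

variable {ι : Type} [Fintype ι] [DecidableEq ι]

theorem exists_signs (ι : Type) [Fintype ι] [DecidableEq ι] :
    ∃ s : (ι → Bool) → ι → ℝ, (∀ x i, s x i * s (fl x i) i = 1) ∧ (∀ x i, |s x i| = 1) ∧
      ∀ x i j, i ≠ j → s x i * s (fl x i) j = - (s x j * s (fl x j) i) := by
  classical
  let e := Fintype.equivFin ι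
  refine ⟨fun x i => chi (univ.filter fun j => e j < e i) x, ?_, ?_, ?_⟩
  · intro x i
    beta_reduce
    rw [chi_fl_notMem (by simp), chi_mul_self]
  · intro x i
    have := chi_mul_self (univ.filter fun j => e j < e i) x
    rcases mul_self_eq_one_iff.1 this with h | h <;> simp [h]
  · intro x i j hij
    have hne : e i ≠ e j := fun h => hij (e.injective h)
    beta_reduce
    rcases lt_or_gt_of_ne hne with h | h
    · rw [chi_fl_mem (i := i) (by simpa using h), chi_fl_notMem (i := j) (by simpa using h.le)]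
      ring
    · rw [chi_fl_notMem (i := i) (by simpa using h.le), chi_fl_mem (i := j) (by simpa using h)]
      ring

/-- The signed adjacency operator. -/
def sB (s : (ι → Bool) → ι → ℝ) (S : Finset ι) : ((ι → Bool) → ℝ) →ₗ[ℝ] ((ι → Bool) → ℝ) where
  toFun v := fun x => ∑ i ∈ S, s x i * v (fl x i)
  map_add' v w := by funext x; simp [mul_add, Finset.sum_add_distrib]
  map_smul' c v := by
    funext x
    simp only [Pi.smul_apply, smul_eq_mul, RingHom.id_apply, Finset.mul_sum]
    exact Finset.sum_congr rfl fun _ _ => by ring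

theorem sB_apply (s : (ι → Bool) → ι → ℝ) (S : Finset ι) (v : (ι → Bool) → ℝ) (x : ι → Bool) :
    sB s S v x = ∑ i ∈ S, s x i * v (fl x i) := rfl

theorem sB_sq {s : (ι → Bool) → ι → ℝ} (h1 : ∀ x i, s x i * s (fl x i) i = 1)
    (h3 : ∀ x i j, i ≠ j → s x i * s (fl x i) j = - (s x j * s (fl x j) i))
    (S : Finset ι) (v : (ι → Bool) → ℝ) : sB s S (sB s S v) = (S.card : ℝ) • v := by
  funext x
  simp only [sB_apply, Finset.mul_sum, Pi.smul_apply, smul_eq_mul]
  set F : ι → ι → ℝ := fun i j => s x i * (s (fl x i) j * v (fl (fl x i) j)) with hF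
  have hsym : ∀ i j, F i j + F j i = if i = j then 2 * v x else 0 := by
    intro i j
    split_ifs with hij
    · subst hij
      simp only [hF, fl_fl]
      have := h1 x i
      linear_combination (2 * v x) * this
    · simp only [hF]
      rw [fl_comm x j i]
      have := h3 x i j hij
      linear_combination (v (fl (fl x i) j)) * this
  have h2 : (∑ i ∈ S, ∑ j ∈ S, F i j) + (∑ i ∈ S, ∑ j ∈ S, F i j) = 2 * (S.card * v x) := by
    conv_lhs => enter [2]; rw [Finset.sum_comm]
    rw [← Finset.sum_add_distrib]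
    simp_rw [← Finset.sum_add_distrib, hsym]
    rw [Finset.sum_congr rfl (g := fun _ => 2 * v x)]
    · simp; ring
    · intro i hi
      simp [hi]
  change ∑ i ∈ S, ∑ j ∈ S, F i j = _
  linarith

/-- Extension by zero. -/
def ext0 (V : Finset (ι → Bool)) : (V → ℝ) →ₗ[ℝ] ((ι → Bool) → ℝ) where
  toFun v := fun x => if h : x ∈ V then v ⟨x, h⟩ else 0
  map_add' v w := by funext x; by_cases h : x ∈ V <;> simp [h]
  map_smul' c v := by funext x; by_cases h : x ∈ V <;> simp [h]

theorem ext0_eq_zero {V : Finset (ι → Bool)} {v : V → ℝ} (h : ext0 V v = 0) : v = 0 := by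
  funext ⟨x, hx⟩
  have := congrFun h x
  simpa [ext0, hx] using this

theorem exists_eigen {s : (ι → Bool) → ι → ℝ} (h1 : ∀ x i, s x i * s (fl x i) i = 1)
    (h3 : ∀ x i j, i ≠ j → s x i * s (fl x i) j = - (s x j * s (fl x j) i))
    (S : Finset ι) (hS : S.Nonempty) (V : Finset (ι → Bool))
    (hV : Fintype.card (ι → Bool) < 2 * V.card) :
    ∃ v : (ι → Bool) → ℝ, v ≠ 0 ∧ (∀ x, x ∉ V → v x = 0) ∧
      ∀ x, |sB s S v x| = Real.sqrt S.card * |v x| := by
  set r := Real.sqrt S.card with hr
  have hrr : r * r = S.card := Real.mul_self_sqrt (Nat.cast_nonneg _)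
  have hrpos : 0 < r := Real.sqrt_pos.2 (by exact_mod_cast hS.card_pos)
  let Φ : ((V → ℝ) × (V → ℝ)) →ₗ[ℝ] ((ι → Bool) → ℝ) :=
    LinearMap.coprod ((sB s S + r • LinearMap.id) ∘ₗ ext0 V) ((sB s S - r • LinearMap.id) ∘ₗ ext0 V)
  have hker : LinearMap.ker Φ ≠ ⊥ := by
    apply LinearMap.ker_ne_bot_of_finrank_lt
    simp only [Module.finrank_prod, Module.finrank_fintype_fun_eq_card, Fintype.card_coe]
    omega
  obtain ⟨⟨v, w⟩, hmem, hne⟩ := Submodule.exists_mem_ne_zero_of_ne_bot hker
  have hΦ : sB s S (ext0 V v) + r • ext0 V v + (sB s S (ext0 V w) - r • ext0 V w) = 0 := by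
    simpa [Φ] using hmem
  set a := ext0 V v
  set b := ext0 V w
  have hsq := sB_sq h1 h3 S
  have hB := congrArg (sB s S) hΦ
  simp only [map_add, map_sub, map_smul, hsq, map_zero] at hB
  have ha : sB s S a + r • a = 0 := by
    have : (2 * r) • (sB s S a + r • a) = 0 := by
      have e1 := hB
      have e2 := congrArg (fun u => r • u) hΦ
      simp only [smul_zero] at e2
      rw [← hrr] at e1
      calc (2 * r) • (sB s S a + r • a) =
          ((r * r) • a + r • sB s S a + ((r * r) • b - r • sB s S b)) +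
            r • (sB s S a + r • a + (sB s S b - r • b)) := by module
        _ = 0 := by rw [e1, e2, add_zero]
    rcases smul_eq_zero.1 this with h | h
    · exact absurd h (by positivity)
    · exact h
  have hb : sB s S b - r • b = 0 := by rw [ha, zero_add] at hΦ; exact hΦ
  by_cases hv : v = 0
  · have hw : w ≠ 0 := by
      rintro rfl
      exact hne (by rw [hv]; rfl)
    refine ⟨b, fun h => hw (ext0_eq_zero h), fun x hx => by simp [b, ext0, hx], fun x => ?_⟩
    have : sB s S b x = r * b x := by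
      have := congrFun hb x
      simp only [Pi.sub_apply, Pi.smul_apply, smul_eq_mul, Pi.zero_apply] at this
      linarith
    rw [this, abs_mul, abs_of_pos hrpos]
  · refine ⟨a, fun h => hv (ext0_eq_zero h), fun x hx => by simp [a, ext0, hx], fun x => ?_⟩
    have : sB s S a x = - (r * a x) := by
      have := congrFun ha x
      simp only [Pi.add_apply, Pi.smul_apply, smul_eq_mul, Pi.zero_apply] at this
      linarith
    rw [this, abs_neg, abs_mul, abs_of_pos hrpos]

theorem two_mul_le_of_one_le {A B a b : ℝ} (hA : 0 ≤ A) (hB : 0 ≤ B) (h : 1 ≤ A * B) :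
    2 * (a * b) ≤ A * a ^ 2 + B * b ^ 2 := by
  refine (abs_le_of_sq_le_sq' ?_ (by positivity)).2
  have h1 : 0 ≤ (A * B - 1) * (a * b) ^ 2 := mul_nonneg (by linarith) (sq_nonneg _)
  nlinarith [sq_nonneg (A * a ^ 2 - B * b ^ 2)]

theorem exists_big_class {g : (ι → Bool) → Bool} {S : Finset ι} (h0 : fc g S ≠ 0) :
    ∃ (c : ℝ) (V : Finset (ι → Bool)), (∀ x ∈ V, chi S x * sg (g x) = c) ∧
      Fintype.card (ι → Bool) < 2 * V.card := by
  classical
  have hpm : ∀ x, chi S x * sg (g x) = 1 ∨ chi S x * sg (g x) = -1 := by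
    intro x
    apply mul_self_eq_one_iff.1
    have h1 := chi_mul_self S x
    have h2 := sg_mul_self (g x)
    linear_combination (sg (g x) * sg (g x)) * h1 + h2
  set A := univ.filter fun x => chi S x * sg (g x) = 1
  set B := univ.filter fun x => ¬ chi S x * sg (g x) = 1
  have hAB : A.card + B.card = Fintype.card (ι → Bool) := by
    rw [← Finset.card_univ]
    exact Finset.card_filter_add_card_filter_not _
  have hfc : fc g S = A.card - B.card := by
    unfold fc
    rw [← Finset.sum_filter_add_sum_filter_not univ (fun x => chi S x * sg (g x) = 1)]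
    rw [Finset.sum_congr rfl (g := fun _ => (1 : ℝ)) fun x hx => (mem_filter.1 hx).2]
    rw [Finset.sum_congr (s₂ := B) rfl (g := fun _ => (-1 : ℝ))
      fun x hx => (hpm x).resolve_left (mem_filter.1 hx).2]
    simp [A, B, sub_eq_add_neg]
  have hne : A.card ≠ B.card := by
    intro h
    apply h0
    rw [hfc, h, sub_self]
  rcases lt_or_gt_of_ne hne with h | h
  · exact ⟨-1, B, fun x hx => (hpm x).resolve_left (mem_filter.1 hx).2, by omega⟩
  · exact ⟨1, A, fun x hx => (mem_filter.1 hx).2, by omega⟩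

theorem filter_ne_fl (x : ι → Bool) (i : ι) : (univ.filter fun j => x j ≠ fl x i j) = {i} := by
  ext j
  rw [Finset.mem_filter]
  by_cases h : j = i
  · subst h; simp [fl]
  · simp [fl, h]

theorem pow_pos_of_ne {a : ℝ} (h : a ≠ 0) : 0 < a ^ 2 := by positivity

theorem Adv.card_le {g : (ι → Bool) → Bool} {T : ℝ} (h : Adv g T) {S : Finset ι}
    (h0 : fc g S ≠ 0) : (S.card : ℝ) ≤ T ^ 2 := by
  rcases S.eq_empty_or_nonempty with rfl | hS
  · simp only [card_empty, Nat.cast_zero]; positivity
  obtain ⟨P, hP0, hP1, hP2⟩ := h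
  obtain ⟨s, h1, h2, h3⟩ := exists_signs ι
  obtain ⟨c, V, hc, hV⟩ := exists_big_class h0
  obtain ⟨v, hv, hsupp, heig⟩ := exists_eigen h1 h3 S hS V hV
  set r := Real.sqrt S.card with hr
  have hterm : ∀ x, ∀ i ∈ S, 2 * (|v x| * |v (fl x i)|) ≤
      P x i * v x ^ 2 + P (fl x i) i * v (fl x i) ^ 2 := by
    intro x i hi
    by_cases hx : x ∈ V
    · by_cases hy : fl x i ∈ V
      · have hg : g x ≠ g (fl x i) := by
          intro he
          have e1 := hc x hx
          have e2 := hc _ hy
          rw [chi_fl_mem hi, ← he] at e2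
          have e3 : chi S x * sg (g x) = 0 := by linarith
          have e4 := chi_mul_self S x
          have e5 := sg_mul_self (g x)
          have : (chi S x * sg (g x)) * (chi S x * sg (g x)) = 1 := by
            linear_combination (sg (g x) * sg (g x)) * e4 + e5
          rw [e3] at this
          simp at this
        have := hP2 x (fl x i) hg
        rw [filter_ne_fl, sum_singleton, sum_singleton] at this
        have h5 := two_mul_le_of_one_le (a := |v x|) (b := |v (fl x i)|) (hP0 _ _) (hP0 _ _) this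
        simpa [sq_abs] using h5
      · rw [hsupp _ hy]
        have := hP0 x i
        simp only [abs_zero, mul_zero, ne_eq, OfNat.ofNat_ne_zero, not_false_eq_true, zero_pow,
          add_zero]
        positivity
    · rw [hsupp _ hx]
      have := hP0 (fl x i) i
      simp only [abs_zero, zero_mul, mul_zero, ne_eq, OfNat.ofNat_ne_zero, not_false_eq_true,
        zero_pow, zero_add]
      positivity
  have hrow : ∀ x, r * v x ^ 2 ≤ ∑ i ∈ S, |v x| * |v (fl x i)| := by
    intro x
    have e1 : r * v x ^ 2 = |v x| * |sB s S v x| := by rw [heig, ← sq_abs]; ring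
    rw [e1, ← Finset.mul_sum]
    refine mul_le_mul_of_nonneg_left ?_ (abs_nonneg _)
    rw [sB_apply]
    refine (Finset.abs_sum_le_sum_abs _ _).trans (le_of_eq ?_)
    exact Finset.sum_congr rfl fun i _ => by rw [abs_mul, h2, one_mul]
  have hA : ∑ x, ∑ i ∈ S, P x i * v x ^ 2 ≤ T * ∑ x, v x ^ 2 := by
    rw [Finset.mul_sum]
    refine Finset.sum_le_sum fun x _ => ?_
    rw [← Finset.sum_mul]
    refine mul_le_mul_of_nonneg_right ?_ (sq_nonneg _)
    exact (sum_le_sum_of_subset_of_nonneg (subset_univ _) fun _ _ _ => hP0 _ _).trans (hP1 x)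
  have hB : ∑ x, ∑ i ∈ S, P (fl x i) i * v (fl x i) ^ 2 = ∑ x, ∑ i ∈ S, P x i * v x ^ 2 := by
    rw [Finset.sum_comm, Finset.sum_comm (s := univ)]
    refine Finset.sum_congr rfl fun i _ => ?_
    exact Equiv.sum_comp (flE i) (fun x => P x i * v x ^ 2)
  have hsum : 2 * (r * ∑ x, v x ^ 2) ≤ 2 * (T * ∑ x, v x ^ 2) := by
    calc 2 * (r * ∑ x, v x ^ 2) = ∑ x, 2 * (r * v x ^ 2) := by
          rw [Finset.mul_sum, Finset.mul_sum]
      _ ≤ ∑ x, ∑ i ∈ S, 2 * (|v x| * |v (fl x i)|) := by
          refine Finset.sum_le_sum fun x _ => ?_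
          rw [← Finset.mul_sum]
          linarith [hrow x]
      _ ≤ ∑ x, ∑ i ∈ S, (P x i * v x ^ 2 + P (fl x i) i * v (fl x i) ^ 2) :=
          Finset.sum_le_sum fun x _ => Finset.sum_le_sum fun i hi => hterm x i hi
      _ = ∑ x, ∑ i ∈ S, P x i * v x ^ 2 + ∑ x, ∑ i ∈ S, P (fl x i) i * v (fl x i) ^ 2 := by
          simp only [Finset.sum_add_distrib]
      _ ≤ 2 * (T * ∑ x, v x ^ 2) := by rw [hB]; linarith
  have hpos : 0 < ∑ x, v x ^ 2 := by
    obtain ⟨x, hx⟩ := Function.ne_iff.1 hv
    exact Finset.sum_pos' (fun _ _ => sq_nonneg _) ⟨x, mem_univ _, pow_pos_of_ne hx⟩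
  have hrT : r ≤ T := by nlinarith
  calc (S.card : ℝ) = r ^ 2 := (Real.sq_sqrt (Nat.cast_nonneg _)).symm
    _ ≤ T ^ 2 := pow_le_pow_left₀ (Real.sqrt_nonneg _) hrT 2

theorem depth_of_adv_bs {T : ℝ} {d : ℕ} (hd : T ^ 2 < d + 1) (k : ℕ) :
    ∀ g : (ι → Bool) → Bool, Adv g T → BS g k → Depth (k * d) g := by
  induction k with
  | zero =>
    intro g _ hbs
    have : g = fun _ => g (fun _ => false) := by
      funext x
      by_contra hne
      have := hbs (fun _ => false) 1 (fun _ => x) (fun _ => hne)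
        (fun a b hab => absurd (Subsingleton.elim a b) hab)
      omega
    rw [this]
    exact Depth.const _ _
  | succ k ih =>
    intro g hadv hbs
    by_cases hc : ∀ S : Finset ι, S.Nonempty → fc g S = 0
    · have : g = fun _ => g (fun _ => false) := funext fun x => const_of_fc hc _ _
      rw [this]
      exact Depth.const _ _
    · push Not at hc
      obtain ⟨S0, hS0, hfc0⟩ := hc
      obtain ⟨S, hS, hmax⟩ := Finset.exists_max_image (univ.filter fun S : Finset ι => fc g S ≠ 0)
        Finset.card ⟨S0, by simpa using hfc0⟩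
      have hfc : fc g S ≠ 0 := (mem_filter.1 hS).2
      have hmax' : ∀ T, fc g T ≠ 0 → T.card ≤ S.card := fun T hT => hmax T (by simpa using hT)
      have hne : S.Nonempty := by
        rw [← Finset.card_pos]
        exact lt_of_lt_of_le hS0.card_pos (hmax' S0 hfc0)
      have hcard : S.card ≤ d := by
        have : (S.card : ℝ) < d + 1 := lt_of_le_of_lt (hadv.card_le hfc) hd
        have : S.card < d + 1 := by exact_mod_cast this
        omega
      have := Depth.of_restrict S (k * d) g fun a =>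
        ih _ (hadv.restrict S a) (hbs.restrict (exists_block hne hfc hmax') a)
      exact this.mono (by rw [Nat.succ_mul]; omega)

/-- `D ≤ ADV^4`. -/
theorem Adv.depth {g : (ι → Bool) → Bool} {T : ℕ} (h : Adv g T) : Depth (T ^ 4) g := by
  have hd : (T : ℝ) ^ 2 < (T ^ 2 : ℕ) + 1 := by push_cast; linarith
  have := depth_of_adv_bs hd (T ^ 2) g h (h.bs hd)
  rwa [← pow_add] at this

end Vale.Agent.P362.Up
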